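import Vale.Agent.P093.MathlibUsed
import Vale.Agent.P093.MeanDim
import Vale.Agent.P093.Comparison
import Vale.Agent.P093.CoverDimDef
import Vale.Agent.P093.FinalDefs

set_option linter.all false

section

section

section

/-!
The star algebra generated by a covariant pair is spanned by the monomials `π(f) u^k`.
-/

open Topology

namespace Vale.Agent.P093

section Cov

variable {X : Type*} [TopologicalSpace X] [CompactSpace X] {B : Type*} [Ring B] [StarRing B]
  [Algebra ℂ B] [StarModule ℂ B]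

/-- composition of a function with a power of `h` -/
noncomputable def powComp (h : X ≃ₜ X) (k : ℤ) (f : C(X, ℂ)) : C(X, ℂ) :=
  f.comp ((h ^ k : X ≃ₜ X) : C(X, X))

omit [CompactSpace X] in
theorem powComp_apply (h : X ≃ₜ X) (k : ℤ) (f : C(X, ℂ)) (x : X) :
    powComp h k f x = f ((h ^ k) x) := rfl

variable {h : X ≃ₜ X} {π : C(X, ℂ) →⋆ₐ[ℂ] B} {U : Bˣ}

theorem cov_zpow (hcov : ∀ f, (U : B) * π f = π (powComp h (-1) f) * U) (k : ℤ) (f : C(X, ℂ)) :
    ((U ^ k : Bˣ) : B) * π f = π (powComp h (-k) f) * ((U ^ k : Bˣ) : B) := by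
  have hcov' : ∀ f, ((U⁻¹ : Bˣ) : B) * π f = π (powComp h 1 f) * ((U⁻¹ : Bˣ) : B) := by
    intro f
    have h1 := hcov (powComp h 1 f)
    have h2 : powComp h (-1) (powComp h 1 f) = f := by
      ext x
      rw [powComp_apply, powComp_apply]
      congr 1
      change ((h ^ (1 : ℤ)) * (h ^ (-1 : ℤ))) x = x
      rw [← zpow_add]
      simp
    rw [h2] at h1
    calc ((U⁻¹ : Bˣ) : B) * π f = ((U⁻¹ : Bˣ) : B) * (π f * U) * ((U⁻¹ : Bˣ) : B) := by
          rw [mul_assoc, mul_assoc, Units.mul_inv, mul_one]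
      _ = ((U⁻¹ : Bˣ) : B) * (U * π (powComp h 1 f)) * ((U⁻¹ : Bˣ) : B) := by rw [h1]
      _ = _ := by rw [← mul_assoc, Units.inv_mul, one_mul]
  induction k using Int.induction_on generalizing f with
  | zero =>
    simp only [zpow_zero, Units.val_one, one_mul, mul_one, neg_zero]
    congr 1
  | succ k ih =>
    rw [zpow_add_one, Units.val_mul, mul_assoc, hcov, ← mul_assoc, ih, mul_assoc]
    congr 2
    ext x
    rw [powComp_apply, powComp_apply, powComp_apply]
    congr 1
    change ((h ^ (-1 : ℤ)) * (h ^ (-(k : ℤ)))) x = _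
    rw [← zpow_add]
    congr 2
    ring
  | pred k ih =>
    rw [zpow_sub_one, Units.val_mul, mul_assoc, hcov', ← mul_assoc, ih, mul_assoc]
    congr 2
    ext x
    rw [powComp_apply, powComp_apply, powComp_apply]
    congr 1
    change ((h ^ (1 : ℤ)) * (h ^ (-(-(k : ℤ))))) x = _
    rw [← zpow_add]
    congr 2
    ring

/-- the span of the monomials -/
def monSpan (π : C(X, ℂ) →⋆ₐ[ℂ] B) (U : Bˣ) : Submodule ℂ B :=
  Submodule.span ℂ {b | ∃ (f : C(X, ℂ)) (k : ℤ), b = π f * ((U ^ k : Bˣ) : B)}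

omit [StarModule ℂ B] in
theorem mon_mem (f : C(X, ℂ)) (k : ℤ) : π f * ((U ^ k : Bˣ) : B) ∈ monSpan π U :=
  Submodule.subset_span ⟨f, k, rfl⟩

theorem mon_mul (hcov : ∀ f, (U : B) * π f = π (powComp h (-1) f) * U) (f g : C(X, ℂ)) (k l : ℤ) :
    (π f * ((U ^ k : Bˣ) : B)) * (π g * ((U ^ l : Bˣ) : B)) =
      π (f * powComp h (-k) g) * ((U ^ (k + l) : Bˣ) : B) := by
  calc (π f * ((U ^ k : Bˣ) : B)) * (π g * ((U ^ l : Bˣ) : B))
      = π f * (((U ^ k : Bˣ) : B) * π g) * ((U ^ l : Bˣ) : B) := by simp only [mul_assoc]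
    _ = π f * (π (powComp h (-k) g) * ((U ^ k : Bˣ) : B)) * ((U ^ l : Bˣ) : B) := by
        rw [cov_zpow hcov]
    _ = _ := by
        rw [map_mul, zpow_add, Units.val_mul]
        simp only [mul_assoc]

theorem star_units_zpow (hU : star (U : B) = ((U⁻¹ : Bˣ) : B)) (k : ℤ) :
    star ((U ^ k : Bˣ) : B) = ((U ^ (-k) : Bˣ) : B) := by
  have h1 : star U = U⁻¹ := Units.ext hU
  have h2 : star ((U ^ k : Bˣ) : B) = ((star (U ^ k) : Bˣ) : B) := rfl
  rw [h2, star_zpow, h1, inv_zpow, zpow_neg]

theorem mon_star (hcov : ∀ f, (U : B) * π f = π (powComp h (-1) f) * U)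
    (hU : star (U : B) = ((U⁻¹ : Bˣ) : B)) (f : C(X, ℂ)) (k : ℤ) :
    star (π f * ((U ^ k : Bˣ) : B)) = π (powComp h k (star f)) * ((U ^ (-k) : Bˣ) : B) := by
  rw [star_mul, star_units_zpow hU, ← map_star, cov_zpow hcov, neg_neg]

theorem monSpan_mul (hcov : ∀ f, (U : B) * π f = π (powComp h (-1) f) * U) {x y : B}
    (hx : x ∈ monSpan π U) (hy : y ∈ monSpan π U) : x * y ∈ monSpan π U := by
  unfold monSpan at hx
  induction hx using Submodule.span_induction with
  | mem x hx =>
    obtain ⟨f, k, rfl⟩ := hx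
    unfold monSpan at hy
    induction hy using Submodule.span_induction with
    | mem y hy =>
      obtain ⟨g, l, rfl⟩ := hy
      rw [mon_mul hcov]
      exact mon_mem _ _
    | zero => rw [mul_zero]; exact Submodule.zero_mem _
    | add y z _ _ hy hz => rw [mul_add]; exact Submodule.add_mem _ hy hz
    | smul a y _ hy => rw [mul_smul_comm]; exact Submodule.smul_mem _ _ hy
  | zero => rw [zero_mul]; exact Submodule.zero_mem _
  | add x z _ _ hx hz => rw [add_mul]; exact Submodule.add_mem _ hx hz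
  | smul a x _ hx => rw [smul_mul_assoc]; exact Submodule.smul_mem _ _ hx

theorem monSpan_star (hcov : ∀ f, (U : B) * π f = π (powComp h (-1) f) * U)
    (hU : star (U : B) = ((U⁻¹ : Bˣ) : B)) {x : B} (hx : x ∈ monSpan π U) :
    star x ∈ monSpan π U := by
  unfold monSpan at hx
  induction hx using Submodule.span_induction with
  | mem x hx =>
    obtain ⟨f, k, rfl⟩ := hx
    rw [mon_star hcov hU]
    exact mon_mem _ _
  | zero => rw [star_zero]; exact Submodule.zero_mem _
  | add x z _ _ hx hz => rw [star_add]; exact Submodule.add_mem _ hx hz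
  | smul a x _ hx => rw [star_smul]; exact Submodule.smul_mem _ _ hx

/-- **The generated star algebra is spanned by monomials.** -/
theorem mem_monSpan (hcov : ∀ f, (U : B) * π f = π (powComp h (-1) f) * U)
    (hU : star (U : B) = ((U⁻¹ : Bˣ) : B)) {b : B}
    (hb : b ∈ StarAlgebra.adjoin ℂ (Set.range π ∪ {(U : B)})) : b ∈ monSpan π U := by
  induction hb using StarAlgebra.adjoin_induction with
  | mem x hx =>
    rcases hx with ⟨f, rfl⟩ | hx
    · have := mon_mem (π := π) (U := U) f 0
      simpa using this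
    · rw [Set.mem_singleton_iff] at hx
      subst hx
      have := mon_mem (π := π) (U := U) 1 1
      simpa using this
  | algebraMap r =>
    have := (monSpan π U).smul_mem r (mon_mem (π := π) (U := U) 1 0)
    rw [Algebra.algebraMap_eq_smul_one]
    simpa only [map_one, zpow_ofNat, pow_zero, Units.val_one, mul_one] using this
  | add x y _ _ hx hy => exact (monSpan π U).add_mem hx hy
  | mul x y _ _ hx hy => exact monSpan_mul hcov hx hy
  | star x _ hx => exact monSpan_star hcov hU hx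

end Cov

end Vale.Agent.P093
end
end
end

section

section

section

open Filter Topology Set
open scoped ENNReal ComplexOrder

namespace Vale.Agent.P093

section CrossedProduct

/-- The Hilbert space `ℓ²(ℤ × X)`. -/
noncomputable abbrev Ell2 (X : Type*) := lp (fun _ : ℤ × X => ℂ) 2

section EllInst
variable (X : Type*)
noncomputable instance ell2NACG : NormedAddCommGroup (Ell2 X) := inferInstance
noncomputable instance ell2AG : AddCommGroup (Ell2 X) := inferInstance
noncomputable instance ell2ACM : AddCommMonoid (Ell2 X) := inferInstance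
noncomputable instance ell2AM : AddMonoid (Ell2 X) := inferInstance
noncomputable instance ell2AZ : AddZeroClass (Ell2 X) := inferInstance
noncomputable instance ell2US : UniformSpace (Ell2 X) := inferInstance
noncomputable instance ell2TS : TopologicalSpace (Ell2 X) := inferInstance
noncomputable instance ell2NS : NormedSpace ℂ (Ell2 X) := inferInstance
noncomputable instance ell2Mod : Module ℂ (Ell2 X) := inferInstance
noncomputable instance ell2SM : SMul ℂ (Ell2 X) := inferInstance
noncomputable instance ell2DSM : DistribSMul ℂ (Ell2 X) := inferInstance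
noncomputable instance ell2IPS : InnerProductSpace ℂ (Ell2 X) := inferInstance
noncomputable instance ell2OpNR : NormedRing (Ell2 X →L[ℂ] Ell2 X) := inferInstance
noncomputable instance ell2OpR : Ring (Ell2 X →L[ℂ] Ell2 X) := inferInstance
noncomputable instance ell2OpSR : Semiring (Ell2 X →L[ℂ] Ell2 X) := inferInstance
noncomputable instance ell2OpAlg : Algebra ℂ (Ell2 X →L[ℂ] Ell2 X) := inferInstance
noncomputable instance ell2OpTS : TopologicalSpace (Ell2 X →L[ℂ] Ell2 X) := inferInstance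
noncomputable instance ell2OpStR : StarRing (Ell2 X →L[ℂ] Ell2 X) := inferInstance
noncomputable instance ell2OpCS : ContinuousStar (Ell2 X →L[ℂ] Ell2 X) := inferInstance
noncomputable instance ell2OpACM : AddCommMonoid (Ell2 X →L[ℂ] Ell2 X) := inferInstance
end EllInst

/-- The shift unitary `(u ξ)(n, x) = ξ(n - 1, x)`. -/
noncomputable def shiftOp (X : Type*) : Ell2 X →L[ℂ] Ell2 X :=
  LinearMap.mkContinuous
    { toFun := fun ξ => ⟨fun i => ξ (i.1 - 1, i.2), by
        have h := (lp.memℓp ξ).summable (by norm_num)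
        refine memℓp_gen ?_
        exact h.comp_injective (i := fun i : ℤ × X => (i.1 - 1, i.2)) (by
          rintro ⟨a, b⟩ ⟨c, d⟩ hh
          simp only [Prod.mk.injEq, sub_left_inj] at hh
          simp [hh.1, hh.2])⟩
      map_add' := fun _ _ => rfl
      map_smul' := fun _ _ => rfl }
    1 (by
      intro ξ
      rw [one_mul]
      refine lp.norm_le_of_tsum_le (by norm_num) (norm_nonneg _) ?_
      rw [lp.norm_rpow_eq_tsum (by norm_num) ξ]
      refine le_of_eq ?_
      exact ((Equiv.subRight (1 : ℤ)).prodCongr (Equiv.refl X)).tsum_eq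
        (fun i => ‖ξ i‖ ^ (2 : ℝ≥0∞).toReal))

variable {X : Type*} [TopologicalSpace X] [CompactSpace X]

/-- The representation of `C(X)`: `(π(f) ξ)(n, x) = f(hⁿ x) ξ(n, x)`. -/
noncomputable def multOp (h : X ≃ₜ X) (f : C(X, ℂ)) : Ell2 X →L[ℂ] Ell2 X :=
  lp.mapCLM 2 (fun i : ℤ × X => f ((h ^ i.1) i.2) • ContinuousLinearMap.id ℂ ℂ) (norm_nonneg f)
    (fun i => (norm_smul_le _ _).trans (by
      have := f.norm_coe_le_norm ((h ^ i.1) i.2)
      have h1 : ‖ContinuousLinearMap.id ℂ ℂ‖ ≤ 1 := ContinuousLinearMap.norm_id_le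
      nlinarith [norm_nonneg (f ((h ^ i.1) i.2)), norm_nonneg f]))

/-- The crossed product `C(X) ⋊_h ℤ` as a closed star subalgebra of `B(ℓ²(ℤ × X))`:
generated by `C(X)` and the shift unitary `u`, which satisfies `u π(f) u^* = π(f ∘ h⁻¹)`. -/
noncomputable def crossedProductAlg (h : X ≃ₜ X) : StarSubalgebra ℂ (Ell2 X →L[ℂ] Ell2 X) :=
  (StarAlgebra.adjoin ℂ (Set.range (multOp h) ∪ {shiftOp X})).topologicalClosure

/-- The crossed product C*-algebra `C(X) ⋊_h ℤ`. -/
def CrossedProduct (h : X ≃ₜ X) : Type _ := crossedProductAlg h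

noncomputable instance (h : X ≃ₜ X) : CStarAlgebra (CrossedProduct h) :=
  StarSubalgebra.cstarAlgebra (crossedProductAlg h)
    (h_closed := StarSubalgebra.isClosed_topologicalClosure _)

noncomputable instance (h : X ≃ₜ X) : PartialOrder (CrossedProduct h) :=
  CStarAlgebra.spectralOrder _

instance (h : X ≃ₜ X) : StarOrderedRing (CrossedProduct h) :=
  CStarAlgebra.spectralOrderedRing _

end CrossedProduct

end Vale.Agent.P093
end
end
end

section

section

section
open Filter Topology Set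
open scoped ENNReal
set_option linter.unusedSectionVars false
namespace Vale.Agent.P093

variable {X : Type*} [TopologicalSpace X] [CompactSpace X] [T2Space X]

theorem zpow_add_apply' (h : X ≃ₜ X) (i j : ℤ) (x : X) : (h ^ (i + j)) x = (h ^ i) ((h ^ j) x) := by
  rw [zpow_add]
  rfl

/-- in an infinite minimal system no point is periodic -/
theorem not_periodic (h : X ≃ₜ X) (hmin : IsMinimalHomeo h) [Infinite X] (x : X) {n : ℤ}
    (hn : 0 < n) : (h ^ n) x ≠ x := by
  intro hx
  have h1 : ∀ k : ℤ, (h ^ (n * k)) x = x := by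
    intro k
    induction k using Int.induction_on with
    | zero => simp
    | succ k ih =>
      rw [mul_add, mul_one, zpow_add_apply', hx, ih]
    | pred k ih =>
      have h2 : (h ^ (-n)) x = x := by
        have h3 : (h ^ (-n)) ((h ^ n) x) = x := by
          rw [← zpow_add_apply']; simp
        rwa [hx] at h3
      rw [mul_sub, mul_one, sub_eq_add_neg, zpow_add_apply', h2, ih]
  have h2 : Set.range (fun k : ℤ => (h ^ k) x) ⊆ (fun k : ℤ => (h ^ k) x) '' Set.Ico 0 n := by
    rintro _ ⟨k, rfl⟩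
    refine ⟨k % n, ⟨Int.emod_nonneg _ hn.ne', Int.emod_lt_of_pos _ hn⟩, ?_⟩
    change (h ^ (k % n)) x = (h ^ k) x
    conv_rhs => rw [← Int.emod_add_mul_ediv k n, zpow_add_apply', h1]
  have h3 : (Set.range (fun k : ℤ => (h ^ k) x)).Finite :=
    ((Set.finite_Ico 0 n).image _).subset h2
  have h4 : (Set.univ : Set X).Finite := by
    rw [← (hmin x).closure_eq, h3.isClosed.closure_eq]
    exact h3
  exact Set.infinite_univ h4

/-- separated cutoff function with bounded backward return times -/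
theorem exists_cutoff (h : X ≃ₜ X) (hmin : IsMinimalHomeo h) [Infinite X] (L : ℕ) :
    ∃ (w : C(X, ℝ)) (T : ℕ), (∀ x, 0 ≤ w x) ∧ (∀ x, w x ≤ 1) ∧
      (∀ x (i j : ℤ), i < j → w ((h ^ i) x) ≠ 0 → w ((h ^ j) x) ≠ 0 → (L : ℤ) ≤ j - i) ∧
      ∀ x, ∃ i : ℕ, i < T ∧ w ((h ^ (-(i : ℤ))) x) = 1 := by
  classical
  obtain ⟨x₀⟩ : Nonempty X := inferInstance
  -- separated neighbourhood
  have hsep : ∃ V : Set X, IsOpen V ∧ x₀ ∈ V ∧ ∀ n : ℤ, 0 < n → n < L → ∀ x ∈ V, (h ^ n) x ∉ V := by
    have h1 : ∀ n : ℤ, 0 < n → ∃ V : Set X, IsOpen V ∧ x₀ ∈ V ∧ ∀ x ∈ V, (h ^ n) x ∉ V := by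
      intro n hn
      obtain ⟨U, V, hU, hV, hxU, hxV, hUV⟩ := t2_separation (not_periodic h hmin x₀ hn)
      refine ⟨V ∩ (h ^ n) ⁻¹' U, hV.inter (hU.preimage (h ^ n).continuous), ⟨hxV, hxU⟩, ?_⟩
      rintro x ⟨-, hx⟩ ⟨hx', -⟩
      exact Set.disjoint_left.1 hUV hx hx'
    choose V hV using h1
    refine ⟨⋂ n ∈ (Finset.Ioo (0 : ℤ) L).attach, V n.1 (Finset.mem_Ioo.1 n.2).1, ?_, ?_, ?_⟩
    · exact isOpen_biInter_finset fun n _ => (hV n.1 _).1
    · simp only [Set.mem_iInter]
      exact fun n _ => (hV n.1 _).2.1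
    · intro n hn hnL x hx hx'
      simp only [Set.mem_iInter] at hx hx'
      have hmem : n ∈ Finset.Ioo (0 : ℤ) L := Finset.mem_Ioo.2 ⟨hn, hnL⟩
      exact (hV n hn).2.2 x (hx ⟨n, hmem⟩ (Finset.mem_attach _ _))
        (hx' ⟨n, hmem⟩ (Finset.mem_attach _ _))
  obtain ⟨V, hVo, hx₀, hV⟩ := hsep
  obtain ⟨W, hW, hWcl, hWV⟩ : ∃ W ∈ 𝓝 x₀, IsClosed W ∧ W ⊆ V :=
    exists_mem_nhds_isClosed_subset (hVo.mem_nhds hx₀)
  obtain ⟨w, hw0, hw1, hw⟩ := exists_continuous_zero_one_of_isClosed (isClosed_compl_iff.2 hVo)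
    hWcl (Set.disjoint_left.2 fun x hx hx' => hx (hWV hx'))
  -- bounded return
  have hcov : ∃ T : ℕ, ∀ x, ∃ i : ℤ, |i| ≤ T ∧ (h ^ i) x ∈ W := by
    have h1 : (Set.univ : Set X) ⊆ ⋃ i : ℤ, (h ^ i) ⁻¹' interior W := by
      intro x _
      obtain ⟨y, hy, hyW⟩ := (hmin x).exists_mem_open isOpen_interior ⟨x₀, mem_interior_iff_mem_nhds.2 hW⟩
      obtain ⟨i, rfl⟩ := hy
      exact Set.mem_iUnion.2 ⟨i, hyW⟩
    obtain ⟨t, ht⟩ := isCompact_univ.elim_finite_subcover _
      (fun i => isOpen_interior.preimage (h ^ i).continuous) h1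
    refine ⟨∑ i ∈ t, i.natAbs, fun x => ?_⟩
    have := ht (Set.mem_univ x)
    simp only [Set.mem_iUnion] at this
    obtain ⟨i, hi, hx⟩ := this
    refine ⟨i, ?_, interior_subset hx⟩
    have := Finset.single_le_sum (f := fun i : ℤ => i.natAbs) (fun _ _ => Nat.zero_le _) hi
    have h5 : (i.natAbs : ℤ) = |i| := Int.natCast_natAbs i
    rw [← h5]
    exact_mod_cast this
  obtain ⟨T, hT⟩ := hcov
  refine ⟨w, 2 * T + 1, fun x => (hw x).1, fun x => (hw x).2, ?_, ?_⟩
  · intro x i j hij hi hj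
    by_contra hlt
    have h1 : ∀ y, w y ≠ 0 → y ∈ V := by
      intro y hy
      by_contra hyV
      exact hy (hw0 hyV)
    refine hV (j - i) (by omega) (by omega) _ (h1 _ hi) ?_
    rw [← zpow_add_apply', sub_add_cancel]
    exact h1 _ hj
  · intro x
    obtain ⟨i, hi, hiW⟩ := hT ((h ^ (-(T : ℤ))) x)
    rw [abs_le] at hi
    refine ⟨((T : ℤ) - i).toNat, by omega, ?_⟩
    have h2 : (-((((T : ℤ) - i).toNat : ℕ) : ℤ)) = i + -(T : ℤ) := by omega
    rw [h2, zpow_add_apply']
    exact hw1 hiW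

/-- Lindenstrauss function: a continuous function which increases by one along orbits except
near rare visits to a small set. -/
theorem exists_lind (h : X ≃ₜ X) (hmin : IsMinimalHomeo h) [Infinite X] (L : ℕ) :
    ∃ (w nn : C(X, ℝ)),
      (∀ x (i j : ℤ), i < j → w ((h ^ i) x) ≠ 0 → w ((h ^ j) x) ≠ 0 → (L : ℤ) ≤ j - i) ∧
      ∀ x, |w (h x)| ≤ 1 / 2 → nn (h x) = nn x + 1 := by
  obtain ⟨w, T, hw0, hw1, hsep, hret⟩ := exists_cutoff h hmin L
  -- sharper cutoff
  let w' : C(X, ℝ) := ⟨fun x => max 0 (2 * w x - 1), by (clear * -; fun_prop)⟩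
  have hw' : ∀ x, w' x = max 0 (2 * w x - 1) := fun x => rfl
  have hpart : ∀ k : ℕ, Continuous fun x => ∏ i ∈ Finset.range k, (1 - w' ((h ^ (-(i : ℤ))) x)) := by
    intro k
    refine continuous_finsetProd _ fun i _ => ?_
    have := (h ^ (-(i : ℤ))).continuous
    (clear * - this; fun_prop)
  let nn : C(X, ℝ) := ⟨fun x => ∑ k ∈ Finset.range (T + 1),
    ∏ i ∈ Finset.range (k + 1), (1 - w' ((h ^ (-(i : ℤ))) x)),
    continuous_finsetSum _ fun k _ => hpart (k + 1)⟩
  refine ⟨w, nn, hsep, fun x hx => ?_⟩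
  have hx0 : w' (h x) = 0 := by
    rw [hw', max_eq_left]
    have := (abs_le.1 hx).2
    linarith only [this]
  change ∑ k ∈ Finset.range (T + 1),
    ∏ i ∈ Finset.range (k + 1), (1 - w' ((h ^ (-(i : ℤ))) (h x))) = ∑ k ∈ Finset.range (T + 1),
    ∏ i ∈ Finset.range (k + 1), (1 - w' ((h ^ (-(i : ℤ))) x)) + 1
  have h1 : ∀ k : ℕ, ∏ i ∈ Finset.range (k + 1), (1 - w' ((h ^ (-(i : ℤ))) (h x))) =
      ∏ i ∈ Finset.range k, (1 - w' ((h ^ (-(i : ℤ))) x)) := by
    intro k
    rw [Finset.prod_range_succ']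
    have h2 : (1 - w' ((h ^ (-((0 : ℕ) : ℤ))) (h x))) = 1 := by
      have : (h ^ (-((0 : ℕ) : ℤ))) (h x) = h x := by simp only [CharP.cast_eq_zero, neg_zero, zpow_ofNat, pow_zero, Homeomorph.one_apply]
      rw [this, hx0, sub_zero]
    rw [h2, mul_one]
    refine Finset.prod_congr rfl fun i _ => ?_
    have h3 : (h ^ (-((i + 1 : ℕ) : ℤ))) (h x) = (h ^ (-(i : ℤ))) x := by
      have h4 : h x = (h ^ (1 : ℤ)) x := by rw [zpow_one]
      rw [h4, ← zpow_add_apply']
      congr 2
      push_cast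
      ring
    rw [h3]
  simp_rw [h1]
  rw [Finset.sum_range_succ']
  rw [Finset.prod_range_zero]
  congr 1
  rw [Finset.sum_range_succ]
  -- the last term vanishes
  obtain ⟨i, hiT, hi⟩ := hret x
  have h5 : ∏ i ∈ Finset.range (T + 1), (1 - w' ((h ^ (-(i : ℤ))) x)) = 0 := by
    refine Finset.prod_eq_zero (Finset.mem_range.2 (by omega : i < T + 1)) ?_
    rw [hw', hi]
    norm_num
  rw [h5, add_zero]

end Vale.Agent.P093
end
end
end

section

section

section
open Filter Topology Set
open scoped ENNReal ComplexOrder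
set_option linter.unusedSectionVars false
set_option linter.unusedSimpArgs false
namespace Vale.Agent.P093

variable {X : Type*}

open Classical in
/-- basis vector -/
noncomputable def dvec (j : ℤ) (x : X) : Ell2 X := lp.single 2 (j, x) (1 : ℂ)

open Classical in
theorem dvec_apply (j : ℤ) (x : X) (i : ℤ) (y : X) :
    (dvec j x : Ell2 X) (i, y) = if i = j ∧ y = x then 1 else 0 := by
  have : (dvec j x : Ell2 X) (i, y) = (Pi.single (j, x) (1:ℂ) : ℤ × X → ℂ) (i, y) := by
    unfold dvec
    rw [lp.coeFn_single]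
  rw [this, Pi.single_apply]
  simp [Prod.mk.injEq]

theorem inner_dvec_left (j : ℤ) (x : X) (v : Ell2 X) :
    inner ℂ (dvec j x : Ell2 X) v = v (j, x) := by
  classical
  unfold dvec
  have := lp.inner_single_left (𝕜 := ℂ) (G := fun _ : ℤ × X => ℂ) (j, x) (1:ℂ) v
  simpa only [RCLike.inner_apply, map_one, mul_one] using this

theorem shiftOp_apply (v : Ell2 X) (i : ℤ × X) : (shiftOp X v) i = v (i.1 - 1, i.2) := rfl

theorem shiftOp_dvec (j : ℤ) (x : X) :
    shiftOp X (dvec j x) = (dvec (j + 1) x : Ell2 X) := by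
  classical
  ext i
  obtain ⟨i, y⟩ := i
  rw [shiftOp_apply, dvec_apply, dvec_apply]
  congr 1
  simp only [eq_iff_iff, and_congr_left_iff]
  intro _
  constructor <;> intro h <;> omega

variable [TopologicalSpace X] [CompactSpace X]

theorem multOp_apply (h : X ≃ₜ X) (f : C(X, ℂ)) (v : Ell2 X) (i : ℤ × X) :
    (multOp h f v) i = f ((h ^ i.1) i.2) * v i := by
  simp only [multOp, lp.mapCLM, smul_apply, ContinuousLinearMap.id_apply, smul_eq_mul, LinearMap.mkContinuous_apply, LinearMap.coe_mk, AddHom.coe_mk]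

theorem multOp_dvec (h : X ≃ₜ X) (f : C(X, ℂ)) (j : ℤ) (x : X) :
    multOp h f (dvec j x) = f ((h ^ j) x) • (dvec j x : Ell2 X) := by
  classical
  ext i
  obtain ⟨i, y⟩ := i
  rw [multOp_apply, lp.coeFn_smul, Pi.smul_apply, dvec_apply, smul_eq_mul]
  by_cases hh : i = j ∧ y = x
  · obtain ⟨rfl, rfl⟩ := hh; simp
  · simp [hh]

/-- finite propagation operators with continuous kernel -/
def FinProp (T : Ell2 X →L[ℂ] Ell2 X) : Prop :=
  ∃ R : ℕ, ∃ K : ℤ → ℤ → C(X, ℂ), ∀ j x,
    T (dvec j x) = ∑ i ∈ Finset.Icc (j - R) (j + R), K i j x • (dvec i x : Ell2 X)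

theorem FinProp.mono {T : Ell2 X →L[ℂ] Ell2 X} {R R' : ℕ} (hR : R ≤ R')
    {K : ℤ → ℤ → C(X, ℂ)} (hT : ∀ j x,
    T (dvec j x) = ∑ i ∈ Finset.Icc (j - R) (j + R), K i j x • (dvec i x : Ell2 X)) :
    ∃ K' : ℤ → ℤ → C(X, ℂ), ∀ j x,
      T (dvec j x) = ∑ i ∈ Finset.Icc (j - R') (j + R'), K' i j x • (dvec i x : Ell2 X) := by
  classical
  refine ⟨fun i j => if i ∈ Finset.Icc (j - (R:ℤ)) (j + R) then K i j else 0, fun j x => ?_⟩
  rw [hT]
  have hsub : Finset.Icc (j - (R:ℤ)) (j + R) ⊆ Finset.Icc (j - (R':ℤ)) (j + R') := by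
    apply Finset.Icc_subset_Icc <;> omega
  rw [← Finset.sum_subset hsub]
  · refine Finset.sum_congr rfl fun i hi => ?_
    simp [hi]
  · intro i _ hi
    simp [hi]

theorem finProp_mul {T S : Ell2 X →L[ℂ] Ell2 X} (hT : FinProp T) (hS : FinProp S) :
    FinProp (T * S) := by
  classical
  obtain ⟨R, K, hK⟩ := hT
  obtain ⟨R', K', hK'⟩ := hS
  refine ⟨R + R', fun i j => ∑ l ∈ Finset.Icc (j - (R':ℤ)) (j + R'),
    if i ∈ Finset.Icc (l - (R:ℤ)) (l + R) then K i l * K' l j else 0, fun j x => ?_⟩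
  have h1 : (T * S) (dvec j x) = ∑ l ∈ Finset.Icc (j - (R':ℤ)) (j + R'), K' l j x •
      ∑ i ∈ Finset.Icc (l - (R:ℤ)) (l + R), K i l x • (dvec i x : Ell2 X) := by
    change T (S (dvec j x)) = _
    rw [hK', map_sum]
    refine Finset.sum_congr rfl fun l _ => ?_
    rw [map_smul, hK]
  rw [h1]
  simp only [ContinuousMap.coe_sum, Finset.sum_apply, Finset.sum_smul]
  rw [Finset.sum_comm' (s := Finset.Icc (j - ((R + R' : ℕ):ℤ)) (j + (R + R' : ℕ))) (t := fun _ => Finset.Icc (j - (R':ℤ)) (j + R'))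
     (t' := Finset.Icc (j - (R':ℤ)) (j + R')) (s' := fun _ => Finset.Icc (j - ((R + R' : ℕ):ℤ)) (j + (R + R' : ℕ))) (by (clear * -; tauto))]
  refine Finset.sum_congr rfl fun l hl => ?_
  rw [Finset.mem_Icc] at hl
  rw [Finset.smul_sum]
  have hsub : Finset.Icc (l - (R:ℤ)) (l + R) ⊆ Finset.Icc (j - ((R + R' : ℕ):ℤ)) (j + (R + R' : ℕ)) := by
    apply Finset.Icc_subset_Icc <;> push_cast <;> omega
  rw [← Finset.sum_subset hsub]
  · refine Finset.sum_congr rfl fun i hi => ?_
    rw [if_pos hi, smul_smul, ContinuousMap.mul_apply, mul_comm]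
  · intro i _ hi
    rw [if_neg hi]
    simp

theorem finProp_add {T S : Ell2 X →L[ℂ] Ell2 X} (hT : FinProp T) (hS : FinProp S) :
    FinProp (T + S) := by
  classical
  obtain ⟨R, K, hK⟩ := hT
  obtain ⟨R', K', hK'⟩ := hS
  obtain ⟨K₁, hK₁⟩ := FinProp.mono (le_max_left R R') hK
  obtain ⟨K₂, hK₂⟩ := FinProp.mono (le_max_right R R') hK'
  refine ⟨max R R', fun i j => K₁ i j + K₂ i j, fun j x => ?_⟩
  change T (dvec j x) + S (dvec j x) = _
  rw [hK₁, hK₂, ← Finset.sum_add_distrib]
  refine Finset.sum_congr rfl fun i _ => ?_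
  rw [ContinuousMap.add_apply, add_smul]

theorem finProp_smul {T : Ell2 X →L[ℂ] Ell2 X} (c : ℂ) (hT : FinProp T) :
    FinProp (c • T) := by
  obtain ⟨R, K, hK⟩ := hT
  refine ⟨R, fun i j => c • K i j, fun j x => ?_⟩
  change c • T (dvec j x) = _
  rw [hK, Finset.smul_sum]
  refine Finset.sum_congr rfl fun i _ => ?_
  rw [ContinuousMap.smul_apply, smul_assoc]

theorem finProp_multOp (h : X ≃ₜ X) (f : C(X, ℂ)) : FinProp (multOp h f) := by
  classical
  refine ⟨0, fun i j => f.comp ⟨(h ^ j : X ≃ₜ X), (h ^ j).continuous⟩, fun j x => ?_⟩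
  rw [multOp_dvec]
  simp only [CharP.cast_eq_zero, sub_zero, add_zero, Finset.Icc_self, ContinuousMap.comp_apply, ContinuousMap.coe_mk, Finset.sum_singleton]

theorem finProp_one : FinProp (1 : Ell2 X →L[ℂ] Ell2 X) := by
  refine ⟨0, fun i j => 1, fun j x => ?_⟩
  simp only [one_apply_eq_self, CharP.cast_eq_zero, sub_zero, add_zero, Finset.Icc_self, ContinuousMap.one_apply, one_smul, Finset.sum_singleton]

theorem finProp_shiftOp : FinProp (shiftOp X) := by
  classical
  refine ⟨1, fun i j => if i = j + 1 then 1 else 0, fun j x => ?_⟩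
  rw [shiftOp_dvec]
  rw [Finset.sum_eq_single (j+1)]
  · simp
  · intro b _ hb
    simp [hb]
  · intro hh
    exfalso
    apply hh
    rw [Finset.mem_Icc]
    push_cast
    omega

/-- star -/
theorem finProp_star {T : Ell2 X →L[ℂ] Ell2 X} (hT : FinProp T) : FinProp (star T) := by
  classical
  obtain ⟨R, K, hK⟩ := hT
  refine ⟨R, fun i j => star (K j i), fun j x => ?_⟩
  ext q
  obtain ⟨i, y⟩ := q
  rw [← inner_dvec_left, ← inner_dvec_left, ContinuousLinearMap.star_eq_adjoint,
    ContinuousLinearMap.adjoint_inner_right, hK, sum_inner, inner_sum]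
  simp only [inner_smul_left, inner_smul_right, inner_dvec_left, dvec_apply]
  by_cases hxy : y = x
  · subst hxy
    simp only [and_true, mul_ite, mul_one, mul_zero, Finset.sum_ite_eq, Finset.mem_Icc]
    by_cases hm : i - (R:ℤ) ≤ j ∧ j ≤ i + R
    · have hm' : j - (R:ℤ) ≤ i ∧ i ≤ j + R := by omega
      simp only [Finset.sum_ite_eq', Finset.mem_Icc, hm, and_self, ↓reduceIte, hm', ContinuousMap.star_apply, RCLike.star_def]
    · have hm' : ¬ (j - (R:ℤ) ≤ i ∧ i ≤ j + R) := by omega
      rw [if_neg hm', Finset.sum_ite_eq', if_neg (by rw [Finset.mem_Icc]; exact hm)]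
  · have hxy' : ¬ x = y := fun h => hxy h.symm
    simp only [hxy, and_false, ↓reduceIte, mul_zero, Finset.sum_const_zero, ContinuousMap.star_apply, RCLike.star_def]

theorem finProp_of_mem_adjoin (h : X ≃ₜ X) {T : Ell2 X →L[ℂ] Ell2 X}
    (hT : T ∈ StarAlgebra.adjoin ℂ (Set.range (multOp h) ∪ {shiftOp X})) : FinProp T := by
  induction hT using StarAlgebra.adjoin_induction with
  | mem x hx =>
    rcases hx with ⟨f, rfl⟩ | hx
    · exact finProp_multOp h f
    · rw [Set.mem_singleton_iff] at hx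
      subst hx
      exact finProp_shiftOp
  | algebraMap r =>
    rw [Algebra.algebraMap_eq_smul_one]
    exact finProp_smul r finProp_one
  | add x y _ _ hx hy => exact finProp_add hx hy
  | mul x y _ _ hx hy => exact finProp_mul hx hy
  | star x _ hx => exact finProp_star hx

end Vale.Agent.P093
end
end
end

section

section

section
open Filter Topology Set
open scoped ENNReal ComplexOrder
set_option linter.unusedSectionVars false
set_option linter.unusedSimpArgs false
namespace Vale.Agent.P093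

section Hilbert
variable {H : Type*} [NormedAddCommGroup H] [InnerProductSpace ℂ H] [CompleteSpace H]

theorem hilbert_core {m n : ℕ} (x : Fin m → Fin n → H →L[ℂ] H) (bo : Fin m → Fin m → H →L[ℂ] H)
    (a : Fin n → H →L[ℂ] H) (δ c : ℝ) (hδ : 0 ≤ δ) (hc : δ * n < c)
    (hx : ∀ i l, ‖(∑ κ, ∑ κ', star (x κ i) * bo κ κ' * x κ' l) -
      (if i = l then a l else 0)‖ ≤ δ)
    (ζ : Fin n → H) (hζ : ∀ κ, ∑ κ', bo κ κ' (∑ l, x κ' l (ζ l)) = 0)
    (ha : c * ∑ l, ‖ζ l‖ ^ 2 ≤ (∑ l, inner ℂ (ζ l) (a l (ζ l))).re) : ∀ l, ζ l = 0 := by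
  set T : Fin n → Fin n → H →L[ℂ] H := fun i l =>
    (∑ κ, ∑ κ', star (x κ i) * bo κ κ' * x κ' l) - (if i = l then a l else 0) with hT
  have h1 : ∑ i, ∑ l, inner ℂ (ζ i) (T i l (ζ l)) = - ∑ l, inner ℂ (ζ l) (a l (ζ l)) := by
    have e1 : ∀ i l, inner ℂ (ζ i) (T i l (ζ l)) =
        (∑ κ, inner ℂ (x κ i (ζ i)) (∑ κ', bo κ κ' (x κ' l (ζ l)))) -
          (if i = l then inner ℂ (ζ i) (a l (ζ l)) else 0) := by
      intro i l
      simp only [hT, _root_.sub_apply, inner_sub_right]
      congr 1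
      · rw [_root_.sum_apply, inner_sum]
        refine Finset.sum_congr rfl fun κ _ => ?_
        rw [_root_.sum_apply, inner_sum, inner_sum]
        refine Finset.sum_congr rfl fun κ' _ => ?_
        change inner ℂ (ζ i) ((star (x κ i)) (bo κ κ' (x κ' l (ζ l)))) = _
        rw [ContinuousLinearMap.star_eq_adjoint, ContinuousLinearMap.adjoint_inner_right]
      · split_ifs <;> simp
    simp_rw [e1, Finset.sum_sub_distrib]
    have e2 : ∑ i, ∑ l, ∑ κ, inner ℂ (x κ i (ζ i)) (∑ κ', bo κ κ' (x κ' l (ζ l))) = 0 := by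
      have : ∑ i, ∑ l, ∑ κ, inner ℂ (x κ i (ζ i)) (∑ κ', bo κ κ' (x κ' l (ζ l))) =
        ∑ i, ∑ κ, inner ℂ (x κ i (ζ i)) (∑ κ', bo κ κ' (∑ l, x κ' l (ζ l))) := by
        refine Finset.sum_congr rfl fun i _ => ?_
        rw [Finset.sum_comm]
        refine Finset.sum_congr rfl fun κ _ => ?_
        rw [← inner_sum]
        congr 1
        rw [Finset.sum_comm]
        refine Finset.sum_congr rfl fun κ' _ => ?_
        rw [map_sum]
      rw [this]
      exact Finset.sum_eq_zero fun i _ => Finset.sum_eq_zero fun κ _ => by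
        rw [hζ, inner_zero_right]
    rw [e2]
    simp only [Finset.sum_ite_eq, Finset.mem_univ, ↓reduceIte, zero_sub]
  have h2 : ‖∑ i, ∑ l, inner ℂ (ζ i) (T i l (ζ l))‖ ≤ δ * n * ∑ l, ‖ζ l‖ ^ 2 := by
    calc ‖∑ i, ∑ l, inner ℂ (ζ i) (T i l (ζ l))‖ ≤ ∑ i, ∑ l, ‖ζ i‖ * (δ * ‖ζ l‖) := by
          refine (norm_sum_le _ _).trans (Finset.sum_le_sum fun i _ => ?_)
          refine (norm_sum_le _ _).trans (Finset.sum_le_sum fun l _ => ?_)
          refine (norm_inner_le_norm _ _).trans ?_
          gcongr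
          exact (T i l).le_of_opNorm_le (hx i l) _
      _ = δ * (∑ i, ‖ζ i‖) ^ 2 := by
          rw [sq, Finset.sum_mul_sum, Finset.mul_sum]
          refine Finset.sum_congr rfl fun i _ => ?_
          rw [Finset.mul_sum]
          refine Finset.sum_congr rfl fun l _ => ?_
          ring
      _ ≤ δ * (n * ∑ l, ‖ζ l‖ ^ 2) := by
          gcongr
          have := sq_sum_le_card_mul_sum_sq (s := (Finset.univ : Finset (Fin n))) (f := fun i => ‖ζ i‖)
          simpa only [ge_iff_le, Finset.card_univ, Fintype.card_fin] using this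
      _ = _ := by ring
  rw [h1, norm_neg] at h2
  have h3 := (Complex.re_le_norm (∑ l, inner ℂ (ζ l) (a l (ζ l)))).trans h2
  have h4 : ∑ l, ‖ζ l‖ ^ 2 = 0 := by
    have hnn : 0 ≤ ∑ l, ‖ζ l‖ ^ 2 := Finset.sum_nonneg fun _ _ => by (clear * -; positivity)
    nlinarith only [hnn, ha, h3, hc]
  intro l
  rw [Finset.sum_eq_zero_iff_of_nonneg (fun _ _ => by (clear * -; positivity))] at h4
  have := h4 l (Finset.mem_univ l)
  simpa using this

end Hilbert

section Core

variable {X : Type*} [TopologicalSpace X] [CompactSpace X]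

theorem multOp_mem (h : X ≃ₜ X) (f : C(X, ℂ)) : multOp h f ∈ crossedProductAlg h := by
  apply StarSubalgebra.le_topologicalClosure
  exact StarAlgebra.subset_adjoin ℂ _ (Or.inl ⟨f, rfl⟩)

theorem shiftOp_mem (h : X ≃ₜ X) : shiftOp X ∈ crossedProductAlg h := by
  apply StarSubalgebra.le_topologicalClosure
  exact StarAlgebra.subset_adjoin ℂ _ (Or.inr rfl)

/-- operator underlying an element of the crossed product -/
def toOp {h : X ≃ₜ X} (a : CrossedProduct h) : Ell2 X →L[ℂ] Ell2 X := Subtype.val a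

theorem toOp_mul {h : X ≃ₜ X} (a b : CrossedProduct h) : toOp (a * b) = toOp a * toOp b := rfl
theorem toOp_add {h : X ≃ₜ X} (a b : CrossedProduct h) : toOp (a + b) = toOp a + toOp b := rfl
theorem toOp_sub {h : X ≃ₜ X} (a b : CrossedProduct h) : toOp (a - b) = toOp a - toOp b := rfl
theorem toOp_star {h : X ≃ₜ X} (a : CrossedProduct h) : toOp (star a) = star (toOp a) := rfl
theorem toOp_zero {h : X ≃ₜ X} : toOp (0 : CrossedProduct h) = 0 := rfl
theorem toOp_one {h : X ≃ₜ X} : toOp (1 : CrossedProduct h) = 1 := rfl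
theorem norm_toOp {h : X ≃ₜ X} (a : CrossedProduct h) : ‖toOp a‖ = ‖a‖ := rfl
theorem toOp_injective {h : X ≃ₜ X} : Function.Injective (toOp (h := h)) := Subtype.val_injective
theorem toOp_sum {h : X ≃ₜ X} {ι : Type*} (s : Finset ι) (f : ι → CrossedProduct h) :
    toOp (∑ i ∈ s, f i) = ∑ i ∈ s, toOp (f i) := by
  classical
  induction s using Finset.induction_on with
  | empty => simp [toOp_zero]
  | insert a s ha ih => rw [Finset.sum_insert ha, Finset.sum_insert ha, toOp_add, ih]
theorem ell2_ext {T S : Ell2 X →L[ℂ] Ell2 X} (hTS : ∀ v i, T v i = S v i) : T = S := by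
  apply ContinuousLinearMap.ext
  intro v
  ext i
  exact hTS v i

/-- The embedding `C(X) → C(X) ⋊ ℤ`. -/
noncomputable def piHom (h : X ≃ₜ X) : C(X, ℂ) →⋆ₐ[ℂ] CrossedProduct h where
  toFun f := ⟨multOp h f, multOp_mem h f⟩
  map_one' := by
    apply toOp_injective
    apply ell2_ext
    intro v i
    change multOp h 1 v i = v i
    rw [multOp_apply]; simp
  map_mul' f g := by
    apply toOp_injective
    apply ell2_ext
    intro v i
    change multOp h (f * g) v i = multOp h f (multOp h g v) i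
    rw [multOp_apply, multOp_apply, multOp_apply, ContinuousMap.mul_apply, mul_assoc]
  map_zero' := by
    apply toOp_injective
    apply ell2_ext
    intro v i
    change multOp h 0 v i = 0
    rw [multOp_apply]; simp
  map_add' f g := by
    apply toOp_injective
    apply ell2_ext
    intro v i
    change multOp h (f + g) v i = multOp h f v i + multOp h g v i
    rw [multOp_apply, multOp_apply, multOp_apply, ContinuousMap.add_apply, add_mul]
  commutes' r := by
    apply toOp_injective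
    apply ell2_ext
    intro v i
    have : (toOp ((algebraMap ℂ (CrossedProduct h)) r)) v i = r * v i := rfl
    rw [this]
    change multOp h (algebraMap ℂ C(X, ℂ) r) v i = _
    rw [multOp_apply]; simp
  map_star' f := by
    apply toOp_injective
    change multOp h (star f) = star (multOp h f)
    rw [ContinuousLinearMap.star_eq_adjoint, ContinuousLinearMap.eq_adjoint_iff]
    intro v w
    rw [lp.inner_eq_tsum, lp.inner_eq_tsum]
    refine tsum_congr fun i => ?_
    rw [multOp_apply, multOp_apply]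
    have key : ∀ c a b : ℂ, inner ℂ (star c * a) b = inner ℂ a (c * b) := by
      intro c a b
      simp only [RCLike.inner_apply, map_mul, RCLike.star_def, RingHomCompTriple.comp_apply,
        RingHom.id_apply, Complex.conj_conj]
      ring
    exact key _ _ _

theorem toOp_piHom (h : X ≃ₜ X) (f : C(X, ℂ)) : toOp (piHom h f) = multOp h f := rfl

theorem exists_seq_finProp (h : X ≃ₜ X) (a : CrossedProduct h) :
    ∃ s : ℕ → CrossedProduct h, (∀ k, FinProp (toOp (s k))) ∧ Tendsto s atTop (𝓝 a) := by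
  have h1 : (toOp a) ∈ closure
      ((StarAlgebra.adjoin ℂ (Set.range (multOp h) ∪ {shiftOp X}) :
        StarSubalgebra ℂ (Ell2 X →L[ℂ] Ell2 X)) : Set (Ell2 X →L[ℂ] Ell2 X)) := by
    have h1 : toOp a ∈ (crossedProductAlg h : Set (Ell2 X →L[ℂ] Ell2 X)) := a.2
    unfold crossedProductAlg at h1
    rw [StarSubalgebra.topologicalClosure_coe] at h1
    exact h1
  obtain ⟨s, hs, hlim⟩ := mem_closure_iff_seq_limit.1 h1
  refine ⟨fun k => (⟨s k, StarSubalgebra.le_topologicalClosure _ (hs k)⟩ : crossedProductAlg h),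
    fun k => finProp_of_mem_adjoin h (hs k), ?_⟩
  exact tendsto_subtype_rng.2 hlim

/-- the diagonal matrix over the crossed product with entries `g l` -/
noncomputable def diagMat (h : X ≃ₜ X) {n : ℕ} (g : Fin n → C(X, ℂ)) :
    CStarMatrix (Fin n) (Fin n) (CrossedProduct h) :=
  CStarMatrix.ofMatrix fun i l => if i = l then piHom h (g l) else 0

/-- the matrix over the crossed product with entries in `C(X)` -/
noncomputable def fullMat (h : X ≃ₜ X) {m : ℕ} (β : Fin m → Fin m → C(X, ℂ)) :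
    CStarMatrix (Fin m) (Fin m) (CrossedProduct h) :=
  CStarMatrix.ofMatrix fun i l => piHom h (β i l)

theorem sum_swap_aux {A : Type*} [Ring A] {m : ℕ} (s : Fin m → A) (b : Fin m → Fin m → A)
    (y : Fin m → A) :
    ∑ κ', (∑ κ, s κ * b κ κ') * y κ' = ∑ κ, ∑ κ', s κ * b κ κ' * y κ' := by
  simp_rw [Finset.sum_mul]
  rw [Finset.sum_comm]

theorem mul_entry {h : X ≃ₜ X} {m n : ℕ} (x : CStarMatrix (Fin m) (Fin n) (CrossedProduct h))
    (β : Fin m → Fin m → C(X, ℂ)) (i l : Fin n) :
    (x.conjTranspose * fullMat h β * x) i l =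
      ∑ κ, ∑ κ', star (x κ i) * piHom h (β κ κ') * x κ' l := by
  have h1 : (x.conjTranspose * fullMat h β * x) i l =
      ∑ κ', (∑ κ, star (x κ i) * piHom h (β κ κ')) * x κ' l := rfl
  rw [h1]
  exact sum_swap_aux (fun κ => star (x κ i)) (fun κ κ' => piHom h (β κ κ')) (fun κ' => x κ' l)

/-- approximation step -/
theorem exists_approx {h : X ≃ₜ X} {m n : ℕ} (β : Fin m → Fin m → C(X, ℂ))
    (g : Fin n → C(X, ℂ)) (hle : CuntzLE (diagMat h g) (fullMat h β)) (δ : ℝ) (hδ : 0 < δ) :
    ∃ x : Fin m → Fin n → Ell2 X →L[ℂ] Ell2 X, (∀ κ l, FinProp (x κ l)) ∧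
      ∀ i l, ‖(∑ κ, ∑ κ', star (x κ i) * multOp h (β κ κ') * x κ' l) -
        (if i = l then multOp h (g l) else 0)‖ ≤ δ := by
  obtain ⟨x, hx⟩ := hle
  have hx' : ∀ i l, Tendsto (fun k => ((x k).conjTranspose * fullMat h β * x k) i l) atTop
      (𝓝 (diagMat h g i l)) := by
    intro i l
    exact ((continuous_apply_apply i l).tendsto _).comp hx
  have h1 : ∀ᶠ k in atTop, ∀ i l, ‖((x k).conjTranspose * fullMat h β * x k) i l -
      diagMat h g i l‖ < δ := by
    rw [eventually_all]
    intro i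
    rw [eventually_all]
    intro l
    have := (tendsto_iff_norm_sub_tendsto_zero.1 (hx' i l))
    exact this.eventually_lt_const hδ
  obtain ⟨k, hk⟩ := h1.exists
  choose s hs hlim using fun κ l => exists_seq_finProp h (x k κ l)
  have h2 : ∀ i l, Tendsto (fun p => ∑ κ, ∑ κ', star (s κ i p) * piHom h (β κ κ') * s κ' l p)
      atTop (𝓝 (∑ κ, ∑ κ', star (x k κ i) * piHom h (β κ κ') * x k κ' l)) := by
    intro i l
    refine tendsto_finsetSum _ fun κ _ => tendsto_finsetSum _ fun κ' _ => ?_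
    exact (((continuous_star.tendsto _).comp (hlim κ i)).mul tendsto_const_nhds).mul (hlim κ' l)
  have h3 : ∀ᶠ p in atTop, ∀ i l, ‖(∑ κ, ∑ κ', star (s κ i p) * piHom h (β κ κ') * s κ' l p) -
      diagMat h g i l‖ < δ := by
    rw [eventually_all]
    intro i
    rw [eventually_all]
    intro l
    have := ((h2 i l).sub_const (diagMat h g i l)).norm
    refine this.eventually_lt_const ?_
    rw [← mul_entry]
    exact hk i l
  obtain ⟨p, hp⟩ := h3.exists
  refine ⟨fun κ l => toOp (s κ l p), fun κ l => hs κ l p, fun i l => ?_⟩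
  have := (hp i l).le
  rw [← norm_toOp, toOp_sub, toOp_sum] at this
  simp_rw [toOp_sum, toOp_mul, toOp_star, toOp_piHom] at this
  have h4 : toOp (diagMat h g i l) = if i = l then multOp h (g l) else 0 := by
    change toOp (if i = l then piHom h (g l) else 0) = _
    split_ifs
    · rfl
    · rfl
  rw [h4] at this
  exact this

/-- common propagation bound -/
theorem exists_kernel {m n : ℕ} (x : Fin m → Fin n → Ell2 X →L[ℂ] Ell2 X)
    (hx : ∀ κ l, FinProp (x κ l)) :
    ∃ (R : ℕ) (K : Fin m → Fin n → ℤ → ℤ → C(X, ℂ)), ∀ κ l j (x0 : X),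
      x κ l (dvec j x0) = ∑ i ∈ Finset.Icc (j - R) (j + R), K κ l i j x0 • (dvec i x0 : Ell2 X) := by
  choose R K hK using hx
  let R' : ℕ := ∑ κ, ∑ l, R κ l
  have hR : ∀ κ l, R κ l ≤ R' := fun κ l =>
    (Finset.single_le_sum (f := fun l => R κ l) (fun _ _ => Nat.zero_le _)
      (Finset.mem_univ l)).trans
    (Finset.single_le_sum (f := fun κ => ∑ l, R κ l) (fun _ _ => Nat.zero_le _)
      (Finset.mem_univ κ))
  choose K' hK' using fun κ l => FinProp.mono (hR κ l) (hK κ l)
  exact ⟨R', K', fun κ l j x0 => hK' κ l j x0⟩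

theorem inner_dvec_dvec (i j : ℤ) (x0 : X) :
    inner ℂ (dvec i x0 : Ell2 X) (dvec j x0 : Ell2 X) = if i = j then 1 else 0 := by
  classical
  rw [inner_dvec_left, dvec_apply]
  simp

theorem norm_sum_dvec (I : Finset ℤ) (c : ℤ → ℂ) (x0 : X) :
    ‖∑ j ∈ I, c j • (dvec j x0 : Ell2 X)‖ ^ 2 = ∑ j ∈ I, ‖c j‖ ^ 2 := by
  classical
  rw [@norm_sq_eq_re_inner ℂ, sum_inner]
  simp_rw [inner_sum, inner_smul_left, inner_smul_right, inner_dvec_dvec]
  simp only [mul_ite, mul_one, mul_zero, Finset.sum_ite_eq]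
  rw [map_sum]
  refine Finset.sum_congr rfl fun i hi => ?_
  rw [if_pos hi]
  simp only [RCLike.conj_mul]
  norm_cast

theorem core (h : X ≃ₜ X) {m n : ℕ} (β : Fin m → Fin m → C(X, ℂ)) (g : Fin n → C(X, ℝ))
    (hle : CuntzLE (diagMat h (fun l => ⟨fun x => (g l x : ℂ), by fun_prop⟩)) (fullMat h β)) :
    ∃ (R : ℕ) (K : Fin m → Fin n → ℤ → ℤ → C(X, ℂ)), ∀ (x0 : X) (I : Finset ℤ)
      (z : ℤ → Fin n → ℂ), (∀ j ∈ I, ∀ l, z j l ≠ 0 → 3 / 4 ≤ g l ((h ^ j) x0)) →
      (∀ (i : ℤ) (κ : Fin m), ∑ κ', β κ κ' ((h ^ i) x0) *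
        (∑ l, ∑ j ∈ I, if i ∈ Finset.Icc (j - (R:ℤ)) (j + R) then K κ' l i j x0 * z j l else 0)
          = 0) →
      ∀ j ∈ I, ∀ l, z j l = 0 := by
  classical
  obtain ⟨x, hxf, hx⟩ := exists_approx β _ hle (1 / (2 * (n + 1))) (by positivity)
  obtain ⟨R, K, hK⟩ := exists_kernel x hxf
  refine ⟨R, K, fun x0 I z hz hker => ?_⟩
  set ζ : Fin n → Ell2 X := fun l => ∑ j ∈ I, z j l • (dvec j x0 : Ell2 X) with hζ
  have hxζ : ∀ κ', ∑ l, x κ' l (ζ l) = ∑ i ∈ I.biUnion (fun j => Finset.Icc (j - (R:ℤ)) (j + R)),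
      (∑ l, ∑ j ∈ I, if i ∈ Finset.Icc (j - (R:ℤ)) (j + R) then K κ' l i j x0 * z j l else 0) •
        (dvec i x0 : Ell2 X) := by
    intro κ'
    simp_rw [Finset.sum_smul]
    rw [Finset.sum_comm]
    refine Finset.sum_congr rfl fun l _ => ?_
    rw [Finset.sum_comm]
    rw [hζ, map_sum]
    refine Finset.sum_congr rfl fun j hj => ?_
    rw [map_smul, hK, Finset.smul_sum]
    rw [← Finset.sum_subset (Finset.subset_biUnion_of_mem
      (fun j => Finset.Icc (j - (R:ℤ)) (j + R)) hj)]
    · refine Finset.sum_congr rfl fun i hi => ?_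
      rw [if_pos hi, smul_smul, mul_comm]
    · intro i _ hi
      rw [if_neg hi, zero_smul]
  have hmain := hilbert_core x (fun κ κ' => multOp h (β κ κ'))
    (fun l => multOp h ⟨fun x => (g l x : ℂ), by (clear * -; fun_prop)⟩) (1 / (2 * (n + 1))) (3 / 4)
    (by (clear * -; positivity)) (by
      have : (0:ℝ) < n + 1 := by positivity
      rw [div_mul_eq_mul_div, div_lt_div_iff₀ (by positivity) (by positivity)]
      linarith) hx ζ (by
      intro κ
      simp_rw [hxζ, map_sum, map_smul, multOp_dvec, smul_smul]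
      rw [Finset.sum_comm]
      refine Finset.sum_eq_zero fun i _ => ?_
      rw [← Finset.sum_smul]
      have := hker i κ
      simp_rw [mul_comm (β κ _ _)] at this
      rw [this, zero_smul]) (by
      simp_rw [hζ, norm_sum_dvec, map_sum, map_smul, multOp_dvec, smul_smul]
      rw [Complex.re_sum, Finset.mul_sum]
      refine Finset.sum_le_sum fun l _ => ?_
      simp_rw [sum_inner, inner_sum, inner_smul_left, inner_smul_right, inner_dvec_dvec]
      simp only [mul_ite, mul_one, mul_zero, Finset.sum_ite_eq]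
      rw [Complex.re_sum, Finset.mul_sum]
      refine Finset.sum_le_sum fun j hj => ?_
      rw [if_pos hj]
      by_cases hzz : z j l = 0
      · simp only [hzz, norm_zero, ne_eq, OfNat.ofNat_ne_zero, not_false_eq_true, zero_pow, mul_zero, map_zero, ContinuousMap.coe_mk, zero_mul, Complex.zero_re, Std.le_refl]
      · have h1 := hz j hj l hzz
        have h2 : ((starRingEnd ℂ) (z j l) * (z j l * ((g l ((h ^ j) x0) : ℝ) : ℂ))).re =
            g l ((h ^ j) x0) * ‖z j l‖ ^ 2 := by
          rw [← mul_assoc, RCLike.conj_mul]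
          change (((‖z j l‖ : ℝ) : ℂ) ^ 2 * ((g l ((h ^ j) x0) : ℝ) : ℂ)).re = _
          rw [← Complex.ofReal_pow, ← Complex.ofReal_mul, Complex.ofReal_re]
          ring
        change _ ≤ ((starRingEnd ℂ) (z j l) * (z j l * ((g l ((h ^ j) x0) : ℝ) : ℂ))).re
        rw [h2]
        gcongr)
  intro j hj l
  have h0 := hmain l
  have h1 : ‖ζ l‖ ^ 2 = 0 := by rw [h0]; simp
  rw [hζ, norm_sum_dvec, Finset.sum_eq_zero_iff_of_nonneg (fun _ _ => by (clear * -; positivity))] at h1
  simpa using h1 j hj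

end Core

end Vale.Agent.P093
end
end
end

section

section

section
open Filter Topology Set
open scoped ENNReal ComplexOrder
set_option linter.unusedSectionVars false
set_option linter.unusedSimpArgs false
namespace Vale.Agent.P093

section Factor
open scoped MatrixOrder Matrix.Norms.L2Operator
theorem psd_factor {m : ℕ} {A : Matrix (Fin m) (Fin m) ℂ} (hA : A.PosSemidef) :
    ∃ B : Matrix (Fin m) (Fin m) ℂ, A = B.conjTranspose * B :=
  CStarAlgebra.nonneg_iff_eq_star_mul_self.mp hA.nonneg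
end Factor

section General
variable {A : Type*} [CStarAlgebra A] [PartialOrder A] [StarOrderedRing A]

set_option backward.isDefEq.respectTransparency false in
theorem traceEval_nonneg (τ : TracialState A) {n : ℕ} {a : CStarMatrix (Fin n) (Fin n) A}
    (ha : 0 ≤ a) : 0 ≤ traceEval τ a := by
  obtain ⟨b, rfl⟩ := CStarAlgebra.nonneg_iff_eq_star_mul_self.1 ha
  unfold traceEval
  have h1 : ∀ i, (star b * b) i i = ∑ k, star (b k i) * b k i := fun i => rfl
  simp_rw [h1, map_sum]
  have h2 : ∀ i k, 0 ≤ τ.toFun (star (b k i) * b k i) := fun i k => τ.nonneg _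
  rw [Complex.re_sum]
  refine Finset.sum_nonneg fun i _ => ?_
  rw [Complex.re_sum]
  exact Finset.sum_nonneg fun k _ => (Complex.nonneg_iff.1 (h2 i k)).1

theorem traceEval_sub (τ : TracialState A) {n : ℕ} (a b : CStarMatrix (Fin n) (Fin n) A) :
    traceEval τ (a - b) = traceEval τ a - traceEval τ b := by
  unfold traceEval
  rw [← Complex.sub_re, ← Finset.sum_sub_distrib]
  simp_rw [CStarMatrix.sub_apply, map_sub]

theorem traceEval_mono (τ : TracialState A) {n : ℕ} {a b : CStarMatrix (Fin n) (Fin n) A}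
    (hab : a ≤ b) : traceEval τ a ≤ traceEval τ b := by
  have := traceEval_nonneg τ (sub_nonneg.2 hab)
  rw [traceEval_sub] at this
  linarith only [this]

set_option backward.isDefEq.respectTransparency false in
theorem root_mono {n : ℕ} {a : CStarMatrix (Fin n) (Fin n) A}
    (ha : 0 ≤ a) (ha1 : a ≤ 1) {m m' : ℕ} (hm : 1 ≤ m) (hm' : m ≤ m') :
    cfc (fun t : ℝ => t ^ (1 / (m : ℝ))) a ≤ cfc (fun t : ℝ => t ^ (1 / (m' : ℝ))) a := by
  have hs : IsSelfAdjoint a := IsSelfAdjoint.of_nonneg ha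
  have hm0 : (0 : ℝ) < m := by exact_mod_cast hm
  have hm0' : (0 : ℝ) < m' := by exact_mod_cast (lt_of_lt_of_le hm hm')
  refine cfc_mono ?_ ?_ ?_
  · intro x hx
    have hx0 : 0 ≤ x := spectrum_nonneg_of_nonneg ha hx
    have hx1 : x ≤ 1 := by
      have := (cfc_le_one_iff (R := ℝ) (fun t => t) a (by fun_prop) hs).1 (by
        rw [cfc_id' ℝ a]; exact ha1)
      exact this x hx
    rcases hx0.eq_or_lt with h0 | h0
    · rw [← h0, Real.zero_rpow (by positivity), Real.zero_rpow (by positivity)]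
    · apply Real.rpow_le_rpow_of_exponent_ge h0 hx1
      exact one_div_le_one_div_of_le hm0 (by exact_mod_cast hm')
  · exact (Real.continuous_rpow_const (by positivity)).continuousOn
  · exact (Real.continuous_rpow_const (by positivity)).continuousOn

theorem traceEval_one (τ : TracialState A) (n : ℕ) :
    traceEval τ (1 : CStarMatrix (Fin n) (Fin n) A) = n := by
  unfold traceEval
  simp_rw [CStarMatrix.one_apply_eq, τ.map_one]
  simp only [Finset.sum_const, Finset.card_univ, Fintype.card_fin, nsmul_eq_mul, mul_one, Complex.natCast_re]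

set_option backward.isDefEq.respectTransparency false in
theorem spec_le_one {n : ℕ} {a : CStarMatrix (Fin n) (Fin n) A}
    (ha : 0 ≤ a) (ha1 : a ≤ 1) {x : ℝ} (hx : x ∈ spectrum ℝ a) : 0 ≤ x ∧ x ≤ 1 := by
  have hs : IsSelfAdjoint a := IsSelfAdjoint.of_nonneg ha
  refine ⟨spectrum_nonneg_of_nonneg ha hx, ?_⟩
  have := (cfc_le_one_iff (R := ℝ) (fun t => t) a (by fun_prop) hs).1 (by
    rw [cfc_id' ℝ a]; exact ha1)
  exact this x hx

set_option backward.isDefEq.respectTransparency false in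
theorem root_le_one {n : ℕ} {a : CStarMatrix (Fin n) (Fin n) A}
    (ha : 0 ≤ a) (ha1 : a ≤ 1) (m : ℕ) :
    cfc (fun t : ℝ => t ^ (1 / (m : ℝ))) a ≤ 1 := by
  refine cfc_le_one _ _ fun x hx => ?_
  obtain ⟨h0, h1⟩ := spec_le_one ha ha1 hx
  exact Real.rpow_le_one h0 h1 (by positivity)

set_option backward.isDefEq.respectTransparency false in
theorem tendsto_dTau (τ : TracialState A) {n : ℕ} {a : CStarMatrix (Fin n) (Fin n) A}
    (ha : 0 ≤ a) (ha1 : a ≤ 1) :
    Tendsto (fun m : ℕ => traceEval τ (cfc (fun t : ℝ => t ^ (1 / (m : ℝ))) a)) atTop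
      (𝓝 (dTau τ a)) := by
  have hmono : Monotone fun m : ℕ =>
      traceEval τ (cfc (fun t : ℝ => t ^ (1 / ((m + 1 : ℕ) : ℝ))) a) := by
    intro m m' hmm
    exact traceEval_mono τ (root_mono ha ha1 (by omega) (by omega))
  have hbdd : BddAbove (Set.range fun m : ℕ =>
      traceEval τ (cfc (fun t : ℝ => t ^ (1 / ((m + 1 : ℕ) : ℝ))) a)) := by
    refine ⟨n, ?_⟩
    rintro _ ⟨m, rfl⟩
    rw [← traceEval_one τ n]
    exact traceEval_mono τ (root_le_one ha ha1 _)
  have h1 := tendsto_atTop_ciSup hmono hbdd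
  have h2 := (tendsto_add_atTop_iff_nat (f := fun m : ℕ =>
    traceEval τ (cfc (fun t : ℝ => t ^ (1 / (m : ℝ))) a)) 1).1 h1
  have h3 : dTau τ a = _ := h2.limUnder_eq
  rw [h3]
  exact h2

set_option backward.isDefEq.respectTransparency false in
theorem traceEval_le_dTau (τ : TracialState A) {n : ℕ} {a : CStarMatrix (Fin n) (Fin n) A}
    (ha : 0 ≤ a) (ha1 : a ≤ 1) : traceEval τ a ≤ dTau τ a := by
  refine ge_of_tendsto (tendsto_dTau τ ha ha1) ?_
  filter_upwards [eventually_ge_atTop 1] with m hm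
  have h1 := traceEval_mono τ (root_mono ha ha1 le_rfl hm)
  have h2 : cfc (fun t : ℝ => t ^ (1 / ((1 : ℕ) : ℝ))) a = a := by
    have hs : IsSelfAdjoint a := IsSelfAdjoint.of_nonneg ha
    have h3 : (fun t : ℝ => t ^ (1 / ((1 : ℕ) : ℝ))) = fun t => t := by
      funext t
      simp only [Nat.cast_one, ne_eq, one_ne_zero, not_false_eq_true, div_self, Real.rpow_one]
    rw [h3, cfc_id' ℝ a]
  rwa [h2] at h1

set_option backward.isDefEq.respectTransparency false in
theorem dTau_le (τ : TracialState A) {n : ℕ} {a : CStarMatrix (Fin n) (Fin n) A}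
    (ha : 0 ≤ a) (ha1 : a ≤ 1) (C : ℝ)
    (hC : ∀ m : ℕ, 1 ≤ m → traceEval τ (cfc (fun t : ℝ => t ^ (1 / (m : ℝ))) a) ≤ C) :
    dTau τ a ≤ C := by
  refine le_of_tendsto (tendsto_dTau τ ha ha1) ?_
  filter_upwards [eventually_ge_atTop 1] with m hm
  exact hC m hm

set_option backward.isDefEq.respectTransparency false in
/-- an `m`-th root -/
theorem cfc_root {n : ℕ} {a c : CStarMatrix (Fin n) (Fin n) A} {m : ℕ} (hm : 1 ≤ m)
    (hc : 0 ≤ c) (hca : c ^ m = a) :
    cfc (fun t : ℝ => t ^ (1 / (m : ℝ))) a = c := by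
  have hs : IsSelfAdjoint c := IsSelfAdjoint.of_nonneg hc
  have hm0 : (0 : ℝ) < m := by exact_mod_cast hm
  rw [← hca, ← cfc_comp_pow (fun t : ℝ => t ^ (1 / (m : ℝ))) m c
    (Real.continuous_rpow_const (by positivity)).continuousOn hs]
  have h1 : cfc (fun x : ℝ => (x ^ m) ^ (1 / (m : ℝ))) c = cfc (fun x : ℝ => x) c := by
    refine cfc_congr fun x hx => ?_
    have hx0 : 0 ≤ x := spectrum_nonneg_of_nonneg hc hx
    change (x ^ m) ^ (1 / (m : ℝ)) = x
    rw [one_div, Real.pow_rpow_inv_natCast hx0 (by omega)]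
  rw [h1, cfc_id' ℝ c]

end General

section Crossed

variable {X : Type*} [TopologicalSpace X] [CompactSpace X]

/-- real function as a complex function -/
def cf (g : C(X, ℝ)) : C(X, ℂ) := ⟨fun x => (g x : ℂ), by fun_prop⟩

theorem cf_apply (g : C(X, ℝ)) (x : X) : cf g x = (g x : ℂ) := rfl

/-- shift unitary as an element of the crossed product -/
noncomputable def uElt (h : X ≃ₜ X) : CrossedProduct h := (⟨shiftOp X, shiftOp_mem h⟩ :
  crossedProductAlg h)

theorem toOp_uElt (h : X ≃ₜ X) : toOp (uElt h) = shiftOp X := rfl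

theorem star_u_mul_u (h : X ≃ₜ X) : star (uElt h) * uElt h = 1 := by
  apply toOp_injective
  rw [toOp_mul, toOp_star, toOp_uElt, toOp_one]
  apply ContinuousLinearMap.ext
  intro v
  refine ext_inner_left ℂ fun w => ?_
  change inner ℂ w ((star (shiftOp X)) (shiftOp X v)) = inner ℂ w v
  rw [ContinuousLinearMap.star_eq_adjoint, ContinuousLinearMap.adjoint_inner_right,
    lp.inner_eq_tsum, lp.inner_eq_tsum]
  exact ((Equiv.subRight (1 : ℤ)).prodCongr (Equiv.refl X)).tsum_eq
        (fun i => inner ℂ (w i) (v i))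

theorem u_mul_star_u (h : X ≃ₜ X) : uElt h * star (uElt h) = 1 := by
  apply toOp_injective
  rw [toOp_mul, toOp_star, toOp_uElt, toOp_one]
  apply ell2_ext
  intro v i
  obtain ⟨n, x⟩ := i
  change (star (shiftOp X) v) (n - 1, x) = v (n, x)
  rw [← inner_dvec_left, ContinuousLinearMap.star_eq_adjoint,
    ContinuousLinearMap.adjoint_inner_right, shiftOp_dvec, inner_dvec_left, sub_add_cancel]

theorem u_pi (h : X ≃ₜ X) (f : C(X, ℂ)) :
    uElt h * piHom h (f.comp (h : C(X, X))) = piHom h f * uElt h := by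
  apply toOp_injective
  rw [toOp_mul, toOp_mul, toOp_uElt, toOp_piHom, toOp_piHom]
  apply ell2_ext
  intro v i
  change (multOp h (f.comp (h : C(X, X))) v) (i.1 - 1, i.2) = multOp h f (shiftOp X v) i
  rw [multOp_apply, multOp_apply]
  change f (h ((h ^ (i.1 - 1)) i.2)) * v (i.1 - 1, i.2) = f ((h ^ i.1) i.2) * v (i.1 - 1, i.2)
  have : h ((h ^ (i.1 - 1)) i.2) = (h ^ i.1) i.2 := by
    change (h * h ^ (i.1 - 1)) i.2 = _
    rw [← zpow_one_add]
    congr 2
    ring
  rw [this]

/-- entries of a matrix valued function, as matrices over the complex numbers -/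
noncomputable def matAt {m : ℕ} (β : Fin m → Fin m → C(X, ℂ)) (x : X) :
    CStarMatrix (Fin m) (Fin m) ℂ := CStarMatrix.ofMatrix fun k k' => β k k' x

theorem continuous_matAt {m : ℕ} (β : Fin m → Fin m → C(X, ℂ)) : Continuous (matAt β) := by
  have : Continuous fun x => (fun k k' => β k k' x : Matrix (Fin m) (Fin m) ℂ) := by
    refine continuous_pi fun k => continuous_pi fun k' => (β k k').continuous
  exact this

/-- the trace of a positive matrix valued function, as a real function -/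
noncomputable def trFun {m : ℕ} (β : Fin m → Fin m → C(X, ℂ)) : C(X, ℝ) :=
  ⟨fun x => ∑ k, (β k k x).re, by fun_prop⟩

theorem trFun_apply {m : ℕ} (β : Fin m → Fin m → C(X, ℂ)) (x : X) :
    trFun β x = ∑ k, (β k k x).re := rfl

end Crossed

end Vale.Agent.P093
end
end
end

section

section

section

/-!
Mean topological dimension of a homeomorphism, exactly as in the problem statement.
-/

open Set Filter
open scoped ENNReal

namespace Vale.Agent.P093

noncomputable section

variable {X : Type*} [TopologicalSpace X]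

/-- a finite open cover of `X`, given as a set of subsets -/
def IsFinCover (U : Set (Set X)) : Prop :=
  U.Finite ∧ (∀ u ∈ U, IsOpen u) ∧ ⋃₀ U = Set.univ

/-- every member of `V` is contained in a member of `U` -/
def Refines (V U : Set (Set X)) : Prop := ∀ v ∈ V, ∃ u ∈ U, v ⊆ u

/-- one less than the largest number of members with nonempty common intersection -/
def coverOrder (V : Set (Set X)) : ℕ :=
  sSup {k | ∃ S : Finset (Set X), ↑S ⊆ V ∧ (⋂₀ (S : Set (Set X))).Nonempty ∧ S.card = k} - 1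

/-- the least order of a finite open refinement of `U` -/
def coverD (U : Set (Set X)) : ℕ :=
  sInf {k | ∃ V : Set (Set X), IsFinCover V ∧ Refines V U ∧ coverOrder V = k}

/-- the join of the preimages of `U` under `h ^ j`, for `0 ≤ j < N` -/
def coverJoin (h : X ≃ₜ X) (U : Set (Set X)) (N : ℕ) : Set (Set X) :=
  {s | ∃ f : Fin N → Set X, (∀ j, f j ∈ U) ∧ s = ⋂ j : Fin N, (⇑h)^[(j : ℕ)] ⁻¹' f j}

/-- mean dimension -/
def mdim (h : X ≃ₜ X) : ℝ≥0∞ :=
  ⨆ (U : Set (Set X)) (_ : IsFinCover U),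
    limsup (fun N : ℕ => (coverD (coverJoin h U N) : ℝ≥0∞) / (N : ℝ≥0∞)) atTop

/-- covering dimension, as an element of `[0, ∞]` -/
def covDim (K : Type*) [TopologicalSpace K] : ℝ≥0∞ :=
  ⨆ (U : Set (Set K)) (_ : IsFinCover U), (coverD U : ℝ≥0∞)

end

end Vale.Agent.P093
end
end
end

section

section

section

/-!
Ostrand's coloured covers.
-/

open Set Filter

namespace Vale.Agent.P093

noncomputable section

open scoped Classical in
/-- number of colours missed by a point -/
def misses {K : Type*} {k : ℕ} (C : Fin k → Set (Set K)) (x : K) : ℕ :=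
  ∑ c, if x ∈ ⋃₀ C c then 0 else 1

/-- a coloured family of small open sets such that every point misses at most `q` colours -/
structure Colored {K : Type*} [TopologicalSpace K] (W : Set (Set K)) (q k : ℕ)
    (C : Fin k → Set (Set K)) : Prop where
  fin : ∀ c, (C c).Finite
  op : ∀ c, ∀ s ∈ C c, IsOpen s
  ref : ∀ c, Refines (C c) W
  disj : ∀ c, ∀ s ∈ C c, ∀ t ∈ C c, (s ∩ t).Nonempty → s = t
  miss : ∀ x, misses C x ≤ q

theorem misses_le {K : Type*} {k : ℕ} (C : Fin k → Set (Set K)) (x : K) : misses C x ≤ k := by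
  classical
  unfold misses
  calc (∑ c, if x ∈ ⋃₀ C c then 0 else 1) ≤ ∑ _c : Fin k, 1 := by
        apply Finset.sum_le_sum
        intro c _
        split_ifs <;> simp
    _ = k := by simp only [Finset.sum_const, Finset.card_univ, Fintype.card_fin, smul_eq_mul, mul_one]

theorem colored_empty {K : Type*} [TopologicalSpace K] (W : Set (Set K)) {q k : ℕ} (h : k ≤ q) :
    Colored W q k (fun _ => ∅) where
  fin := fun _ => Set.finite_empty
  op := fun _ s hs => absurd hs (Set.notMem_empty s)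
  ref := fun _ s hs => absurd hs (Set.notMem_empty s)
  disj := fun _ s hs => absurd hs (Set.notMem_empty s)
  miss := fun x => (misses_le _ x).trans h

/-- first step: `q + 1` colours -/
theorem colored_base {K : Type*} [TopologicalSpace K] [NormalSpace K] {W V : Set (Set K)} {q : ℕ}
    (hV : IsFinCover V) (hr : Refines V W)
    (hq : ∀ x : K, ∀ S : Finset (Set K), ↑S ⊆ V → (∀ s ∈ S, x ∈ s) → S.card ≤ q + 1) :
    ∃ C : Fin (q + 1) → Set (Set K), Colored W q (q + 1) C := by
  classical
  have : Finite V := hV.1.to_subtype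
  have : Fintype V := Fintype.ofFinite V
  obtain ⟨f, hf⟩ := PartitionOfUnity.exists_isSubordinate_of_locallyFinite (s := (Set.univ : Set K))
    isClosed_univ (fun v : V => (v : Set K)) (fun v => hV.2.1 v v.2) (locallyFinite_of_finite _)
    (by
      intro x _
      have : x ∈ ⋃₀ V := by rw [hV.2.2]; trivial
      obtain ⟨v, hv, hxv⟩ := this
      exact Set.mem_iUnion.mpr ⟨⟨v, hv⟩, hxv⟩)
  have hsum : ∀ x, ∑ v, f v x = 1 := by
    intro x
    have := f.sum_eq_one (x := x) (Set.mem_univ x)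
    rwa [finsum_eq_sum_of_fintype] at this
  let US : Finset V → Set K := fun S => {x | (∀ i ∈ S, 0 < f i x) ∧ ∀ i ∈ S, ∀ i' ∉ S, f i' x < f i x}
  have hUo : ∀ S, IsOpen (US S) := by
    intro S
    have h1 : US S = (⋂ i ∈ S, {x | 0 < f i x}) ∩ ⋂ i ∈ S, ⋂ i' ∈ (Sᶜ : Finset V),
        {x | f i' x < f i x} := by
      ext x
      simp only [Subtype.forall, mem_ofPred_eq, iInter_coe_set, Finset.mem_compl, mem_inter_iff, mem_iInter, US]
    rw [h1]
    apply IsOpen.inter
    · apply isOpen_biInter_finset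
      intro i _
      exact isOpen_lt continuous_const (f i).continuous
    · apply isOpen_biInter_finset
      intro i _
      apply isOpen_biInter_finset
      intro i' _
      exact isOpen_lt (f i').continuous (f i).continuous
  have hmem : ∀ i x, 0 < f i x → x ∈ (i : Set K) := by
    intro i x h
    apply hf i
    apply subset_tsupport
    exact h.ne'
  refine ⟨fun c => {s | ∃ S : Finset V, S.card = c + 1 ∧ s = US S}, ?_, ?_, ?_, ?_, ?_⟩
  · intro c
    apply (Set.finite_range US).subset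
    rintro s ⟨S, _, rfl⟩
    exact ⟨S, rfl⟩
  · rintro c s ⟨S, _, rfl⟩
    exact hUo S
  · rintro c s ⟨S, hS, rfl⟩
    have hne : S.Nonempty := by
      rw [← Finset.card_pos, hS]; omega
    obtain ⟨i, hi⟩ := hne
    obtain ⟨w, hw, hiw⟩ := hr i i.2
    exact ⟨w, hw, fun x hx => hiw (hmem i x (hx.1 i hi))⟩
  · rintro c s ⟨S, hS, rfl⟩ t ⟨T, hT, rfl⟩ ⟨x, hxS, hxT⟩
    by_contra hne
    have hST : S ≠ T := fun h => hne (by rw [h])
    have hcard : S.card = T.card := by rw [hS, hT]
    have h1 : ∃ i ∈ S, i ∉ T := by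
      by_contra hcon
      push Not at hcon
      exact hST (Finset.eq_of_subset_of_card_le hcon hcard.ge)
    have h2 : ∃ i ∈ T, i ∉ S := by
      by_contra hcon
      push Not at hcon
      exact hST (Finset.eq_of_subset_of_card_le hcon hcard.le).symm
    obtain ⟨i, hiS, hiT⟩ := h1
    obtain ⟨j, hjT, hjS⟩ := h2
    have a1 := hxS.2 i hiS j hjS
    have a2 := hxT.2 j hjT i hiT
    exact absurd (a1.trans a2) (lt_irrefl _)
  · intro x
    let S : Finset V := Finset.univ.filter fun i => 0 < f i x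
    have hS1 : S.Nonempty := by
      by_contra hcon
      rw [Finset.not_nonempty_iff_eq_empty] at hcon
      have : ∀ v, f v x = 0 := by
        intro v
        have : v ∉ S := by rw [hcon]; simp
        have h2 : ¬ 0 < f v x := by simpa [S] using this
        exact le_antisymm (not_lt.mp h2) (f.nonneg v x)
      have h3 := hsum x
      simp only [this, Finset.sum_const_zero, zero_ne_one] at h3
    have hS2 : S.card ≤ q + 1 := by
      have := hq x (S.map ⟨Subtype.val, Subtype.val_injective⟩) (by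
        intro s hs
        simp only [Finset.coe_map, Function.Embedding.coeFn_mk, Set.mem_image] at hs
        obtain ⟨v, _, rfl⟩ := hs
        exact v.2) (by
        intro s hs
        rw [Finset.mem_map] at hs
        obtain ⟨v, hv, rfl⟩ := hs
        apply hmem
        simpa only [Finset.mem_filter, Finset.mem_univ, true_and, S] using hv)
      rwa [Finset.card_map] at this
    have hc : S.card - 1 < q + 1 := by omega
    have hcp := Finset.card_pos.mpr hS1
    have hx : x ∈ ⋃₀ {s | ∃ S' : Finset V, S'.card = ((⟨S.card - 1, hc⟩ : Fin (q + 1)) : ℕ) + 1 ∧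
        s = US S'} := by
      refine ⟨US S, ⟨S, ?_, rfl⟩, ?_, ?_⟩
      · simp only; omega
      · intro i hi
        simpa [S] using hi
      · intro i hi i' hi'
        have h1 : 0 < f i x := by simpa [S] using hi
        have h2 : ¬ 0 < f i' x := by simpa [S] using hi'
        linarith only [h1, h2]
    unfold misses
    rw [← Finset.add_sum_erase _ _ (Finset.mem_univ (⟨S.card - 1, hc⟩ : Fin (q + 1)))]
    rw [if_pos hx, zero_add]
    refine (Finset.sum_le_sum (g := fun _ => 1) (fun c _ => by split_ifs <;> simp)).trans ?_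
    rw [Finset.sum_const, Finset.card_erase_of_mem (Finset.mem_univ _), Finset.card_univ,
      Fintype.card_fin]
    simp only [add_tsub_cancel_right, smul_eq_mul, mul_one, Std.le_refl]

/-- disjoint open neighbourhoods of finitely many pairwise disjoint closed sets -/
theorem exists_disjoint_nhds {K ι : Type*} [TopologicalSpace K] [NormalSpace K] [Finite ι]
    (F : ι → Set K) (hF : ∀ i, IsClosed (F i)) (hd : ∀ i j, i ≠ j → Disjoint (F i) (F j)) :
    ∃ N : ι → Set K, (∀ i, IsOpen (N i)) ∧ (∀ i, F i ⊆ N i) ∧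
      ∀ i j, i ≠ j → Disjoint (N i) (N j) := by
  classical
  have h : ∀ i j : ι, i ≠ j → ∃ U V : Set K, IsOpen U ∧ IsOpen V ∧ F i ⊆ U ∧ F j ⊆ V ∧
      Disjoint U V := fun i j hij => by
    obtain ⟨U, V, hU, hV, h1, h2, h3⟩ := normal_separation (hF i) (hF j) (hd i j hij)
    exact ⟨U, V, hU, hV, h1, h2, h3⟩
  choose! U V hU hV h1 h2 h3 using h
  refine ⟨fun i => ⋂ j : {j : ι // j ≠ i}, (U i j ∩ V j i), ?_, ?_, ?_⟩
  · intro i
    apply isOpen_iInter_of_finite
    rintro ⟨j, hj⟩
    exact (hU i j hj.symm).inter (hV j i hj)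
  · intro i x hx
    rw [Set.mem_iInter]
    rintro ⟨j, hj⟩
    exact ⟨h1 i j hj.symm hx, h2 j i hj hx⟩
  · intro i j hij
    rw [Set.disjoint_left]
    intro x hx hx'
    rw [Set.mem_iInter] at hx hx'
    have a := (hx ⟨j, hij.symm⟩).1
    have b := (hx' ⟨i, hij⟩).2
    exact Set.disjoint_left.mp (h3 i j hij) a b

/-- one more colour -/
theorem colored_step {K : Type*} [TopologicalSpace K] [NormalSpace K] {W : Set (Set K)} {q k : ℕ}
    (hk : q < k) {C : Fin k → Set (Set K)} (hC : Colored W q k C) :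
    ∃ C' : Fin (k + 1) → Set (Set K), Colored W q (k + 1) C' := by
  classical
  -- sets of colours of cardinality `k - q`
  let I := {A : Finset (Fin k) // A.card = k - q}
  have hIne : ∀ A : I, (A : Finset (Fin k)).Nonempty := by
    intro A
    rw [← Finset.card_pos, A.2]
    omega
  let i0 : I → Fin k := fun A => (hIne A).choose
  have hi0 : ∀ A : I, i0 A ∈ (A : Finset (Fin k)) := fun A => (hIne A).choose_spec
  let F : I → Set K := fun A => {x | ∀ c, c ∉ (A : Finset (Fin k)) → x ∉ ⋃₀ C c}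
  have hUo : ∀ c, IsOpen (⋃₀ C c) := fun c => isOpen_sUnion (hC.op c)
  have hFc : ∀ A, IsClosed (F A) := by
    intro A
    have : F A = ⋂ c, ⋂ (_ : c ∉ (A : Finset (Fin k))), (⋃₀ C c)ᶜ := by
      ext x; simp only [mem_sUnion, not_exists, not_and, mem_ofPred_eq, mem_iInter, mem_compl_iff, F]
    rw [this]
    exact isClosed_iInter fun c => isClosed_iInter fun _ => (hUo c).isClosed_compl
  have hmissF : ∀ A x, x ∈ F A → misses C x = q ∧
      (Finset.univ.filter fun c => x ∉ ⋃₀ C c) = (A : Finset (Fin k))ᶜ := by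
    intro A x hx
    have h1 : misses C x = (Finset.univ.filter fun c => x ∉ ⋃₀ C c).card := by
      unfold misses
      rw [Finset.card_filter]
      apply Finset.sum_congr rfl
      intro c _
      by_cases h : x ∈ ⋃₀ C c <;> simp [h]
    have h2 : (A : Finset (Fin k))ᶜ ⊆ Finset.univ.filter fun c => x ∉ ⋃₀ C c := by
      intro c hc
      rw [Finset.mem_compl] at hc
      simp only [Finset.mem_filter, Finset.mem_univ, true_and]
      exact hx c hc
    have h3 : ((A : Finset (Fin k))ᶜ).card = q := by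
      rw [Finset.card_compl, A.2, Fintype.card_fin]
      omega
    have h4 := hC.miss x
    rw [h1] at h4
    have h5 : (A : Finset (Fin k))ᶜ = Finset.univ.filter fun c => x ∉ ⋃₀ C c :=
      Finset.eq_of_subset_of_card_le h2 (by rw [h3]; exact h4)
    refine ⟨?_, h5.symm⟩
    rw [h1, ← h5, h3]
  have hFd : ∀ A B, A ≠ B → Disjoint (F A) (F B) := by
    intro A B hAB
    rw [Set.disjoint_left]
    intro x hxA hxB
    apply hAB
    apply Subtype.ext
    have := (hmissF A x hxA).2.symm.trans (hmissF B x hxB).2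
    exact compl_injective this
  obtain ⟨N, hNo, hNF, hNd⟩ := exists_disjoint_nhds F hFc hFd
  let newC : Set (Set K) := {s | ∃ A : I, ∃ t ∈ C (i0 A), s = N A ∩ t}
  refine ⟨Fin.snoc C newC, ?_, ?_, ?_, ?_, ?_⟩
  · intro c
    refine Fin.lastCases ?_ (fun c => ?_) c
    · rw [Fin.snoc_last]
      have : newC = ⋃ A : I, (fun t => N A ∩ t) '' C (i0 A) := by
        ext s
        simp only [newC, Set.mem_setOf_eq, Set.mem_iUnion, Set.mem_image]
        constructor
        · rintro ⟨A, t, ht, rfl⟩; exact ⟨A, t, ht, rfl⟩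
        · rintro ⟨A, t, ht, rfl⟩; exact ⟨A, t, ht, rfl⟩
      rw [this]
      exact Set.finite_iUnion fun A => (hC.fin _).image _
    · rw [Fin.snoc_castSucc]
      exact hC.fin c
  · intro c
    refine Fin.lastCases ?_ (fun c => ?_) c
    · rw [Fin.snoc_last]
      rintro s ⟨A, t, ht, rfl⟩
      exact (hNo A).inter (hC.op _ t ht)
    · rw [Fin.snoc_castSucc]
      exact hC.op c
  · intro c
    refine Fin.lastCases ?_ (fun c => ?_) c
    · rw [Fin.snoc_last]
      rintro s ⟨A, t, ht, rfl⟩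
      obtain ⟨w, hw, htw⟩ := hC.ref _ t ht
      exact ⟨w, hw, Set.inter_subset_right.trans htw⟩
    · rw [Fin.snoc_castSucc]
      exact hC.ref c
  · intro c
    refine Fin.lastCases ?_ (fun c => ?_) c
    · rw [Fin.snoc_last]
      rintro s ⟨A, t, ht, rfl⟩ s' ⟨B, t', ht', rfl⟩ ⟨x, hx, hx'⟩
      have hAB : A = B := by
        by_contra hne
        exact Set.disjoint_left.mp (hNd A B hne) hx.1 hx'.1
      subst hAB
      rw [hC.disj _ t ht t' ht' ⟨x, hx.2, hx'.2⟩]
    · rw [Fin.snoc_castSucc]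
      exact hC.disj c
  · intro x
    have h1 : misses (Fin.snoc C newC : Fin (k + 1) → Set (Set K)) x =
        misses C x + if x ∈ ⋃₀ newC then 0 else 1 := by
      unfold misses
      rw [Fin.sum_univ_castSucc]
      simp only [Fin.snoc_castSucc, Fin.snoc_last]
    rw [h1]
    by_cases hlt : misses C x < q
    · split_ifs <;> omega
    · have heq : misses C x = q := le_antisymm (hC.miss x) (not_lt.mp hlt)
      have hcard : (Finset.univ.filter fun c => x ∉ ⋃₀ C c).card = q := by
        rw [← heq]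
        unfold misses
        rw [Finset.card_filter]
        apply Finset.sum_congr rfl
        intro c _
        by_cases h : x ∈ ⋃₀ C c <;> simp [h]
      let A : I := ⟨(Finset.univ.filter fun c => x ∉ ⋃₀ C c)ᶜ, by
        rw [Finset.card_compl, hcard, Fintype.card_fin]⟩
      have hxF : x ∈ F A := by
        intro c hc
        simpa [A] using hc
      have hx0 : x ∈ ⋃₀ C (i0 A) := by
        have := hi0 A
        simpa [A] using this
      obtain ⟨t, ht, hxt⟩ := hx0
      have : x ∈ ⋃₀ newC := ⟨N A ∩ t, ⟨A, t, ht, rfl⟩, hNF A hxF, hxt⟩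
      rw [if_pos this, heq, add_zero]

/-- Ostrand's theorem for finite covers -/
theorem exists_colored {K : Type*} [TopologicalSpace K] [NormalSpace K] {W V : Set (Set K)} {q : ℕ}
    (hV : IsFinCover V) (hr : Refines V W)
    (hq : ∀ x : K, ∀ S : Finset (Set K), ↑S ⊆ V → (∀ s ∈ S, x ∈ s) → S.card ≤ q + 1) (k : ℕ) :
    ∃ C : Fin k → Set (Set K), Colored W q k C := by
  rcases le_or_gt k q with h | h
  · exact ⟨_, colored_empty W h⟩
  · induction k, h using Nat.le_induction with
    | base => exact colored_base hV hr hq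
    | succ k hk ih =>
      obtain ⟨C, hC⟩ := ih
      exact colored_step (by omega) hC

end

end Vale.Agent.P093
end
end
end

section

section

section

/-!
Trace computations in a C*-algebra that contains a covariant pair.
-/

open Filter Topology Set
open scoped ENNReal ComplexOrder
set_option linter.unusedSectionVars false
set_option linter.unusedSimpArgs false
namespace Vale.Agent.P093

section CrossedG

variable {X : Type*} [TopologicalSpace X] [CompactSpace X]
  {A : Type*} [CStarAlgebra A] [PartialOrder A] [StarOrderedRing A] (π : C(X, ℂ) →⋆ₐ[ℂ] A)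

/-- the diagonal matrix with entries `π (g l)` -/
noncomputable def diagM {n : ℕ} (g : Fin n → C(X, ℂ)) : CStarMatrix (Fin n) (Fin n) A :=
  CStarMatrix.ofMatrix fun i l => if i = l then π (g l) else 0

/-- the matrix with entries `π (β i l)` -/
noncomputable def fullM {m : ℕ} (β : Fin m → Fin m → C(X, ℂ)) :
    CStarMatrix (Fin m) (Fin m) A :=
  CStarMatrix.ofMatrix fun i l => π (β i l)

theorem fullM_apply {m : ℕ} (β : Fin m → Fin m → C(X, ℂ)) (i j : Fin m) :
    fullM π β i j = π (β i j) := rfl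

theorem fullM_mul {m : ℕ} (β γ : Fin m → Fin m → C(X, ℂ)) :
    fullM π β * fullM π γ = fullM π fun i k => ∑ j, β i j * γ j k := by
  ext i k
  rw [fullM_apply]
  have h1 : (fullM π β * fullM π γ) i k = ∑ j, π (β i j) * π (γ j k) := rfl
  rw [h1, map_sum]
  simp_rw [map_mul]

theorem fullM_star {m : ℕ} (β : Fin m → Fin m → C(X, ℂ)) :
    star (fullM π β) = fullM π fun i j => star (β j i) := by
  ext i j
  rw [fullM_apply, map_star]
  rfl

theorem fullM_one {m : ℕ} :
    fullM π (fun i j => if i = j then (1 : C(X, ℂ)) else 0) =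
      (1 : CStarMatrix (Fin m) (Fin m) A) := by
  ext i j
  rw [fullM_apply, CStarMatrix.one_apply]
  split_ifs
  · exact map_one _
  · exact map_zero _

theorem fullM_sub {m : ℕ} (β γ : Fin m → Fin m → C(X, ℂ)) :
    fullM π β - fullM π γ = fullM π fun i j => β i j - γ i j := by
  ext i j
  rw [fullM_apply, CStarMatrix.sub_apply, map_sub]
  rfl

theorem diagM_eq {n : ℕ} (g : Fin n → C(X, ℂ)) :
    diagM π g = fullM π fun i l => if i = l then g l else 0 := by
  ext i l
  rw [fullM_apply]
  change (if i = l then π (g l) else 0) = _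
  split_ifs
  · rfl
  · exact (map_zero _).symm

theorem diagM_mul {n : ℕ} (g g' : Fin n → C(X, ℂ)) :
    diagM π g * diagM π g' = diagM π (g * g') := by
  rw [diagM_eq, diagM_eq, diagM_eq, fullM_mul]
  congr 1
  funext i k
  by_cases hik : i = k
  · subst hik
    simp only [mul_ite, ite_mul, zero_mul, mul_zero, Finset.sum_ite_eq', Finset.mem_univ, ↓reduceIte, Pi.mul_apply]
  · rw [if_neg hik]
    refine Finset.sum_eq_zero fun j _ => ?_
    by_cases hij : i = j
    · subst hij
      rw [if_neg hik, mul_zero]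
    · rw [if_neg hij, zero_mul]

theorem diagM_one {n : ℕ} : diagM π (1 : Fin n → C(X, ℂ)) = 1 := by
  rw [diagM_eq, ← fullM_one π]
  rfl

theorem diagM_pow {n : ℕ} (g : Fin n → C(X, ℂ)) (k : ℕ) :
    diagM π g ^ k = diagM π (g ^ k) := by
  induction k with
  | zero => rw [pow_zero, pow_zero, diagM_one]
  | succ k ih => rw [pow_succ, pow_succ, ih, diagM_mul]

theorem diagM_star {n : ℕ} (g : Fin n → C(X, ℂ)) :
    star (diagM π g) = diagM π (star g) := by
  rw [diagM_eq, diagM_eq, fullM_star]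
  congr 1
  funext i j
  by_cases hij : i = j
  · subst hij
    simp only [↓reduceIte, Pi.star_apply]
  · rw [if_neg hij, if_neg fun hh => hij hh.symm, star_zero]

theorem diagM_sub {n : ℕ} (g g' : Fin n → C(X, ℂ)) :
    diagM π g - diagM π g' = diagM π (g - g') := by
  rw [diagM_eq, diagM_eq, diagM_eq, fullM_sub]
  congr 1
  funext i k
  by_cases hik : i = k
  · subst hik
    simp
  · simp [hik]

set_option backward.isDefEq.respectTransparency false in
theorem diagM_nonneg {n : ℕ} (g : Fin n → C(X, ℝ)) (hg : ∀ l x, 0 ≤ g l x) :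
    0 ≤ diagM π (fun l => cf (g l)) := by
  rw [CStarAlgebra.nonneg_iff_eq_star_mul_self]
  refine ⟨diagM π (fun l => ⟨fun x => ((Real.sqrt (g l x) : ℝ) : ℂ), by (clear * -; fun_prop)⟩), ?_⟩
  rw [diagM_star, diagM_mul]
  congr 1
  funext l
  ext x
  simp only [Pi.mul_apply, Pi.star_apply, ContinuousMap.mul_apply, ContinuousMap.star_apply,
    ContinuousMap.coe_mk, RCLike.star_def, Complex.conj_ofReal, cf_apply]
  rw [← Complex.ofReal_mul, Real.mul_self_sqrt (hg l x)]

set_option backward.isDefEq.respectTransparency false in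
theorem diagM_le_one {n : ℕ} (g : Fin n → C(X, ℝ)) (hg : ∀ l x, g l x ≤ 1) :
    diagM π (fun l => cf (g l)) ≤ 1 := by
  rw [← sub_nonneg, ← diagM_one π, diagM_sub]
  have := diagM_nonneg π (fun l => 1 - g l) (fun l x => by
    simp only [ContinuousMap.sub_apply, ContinuousMap.one_apply]
    linarith [hg l x])
  convert this using 2
  funext l
  ext x
  simp only [Pi.sub_apply, Pi.one_apply, ContinuousMap.sub_apply, ContinuousMap.one_apply, cf_apply, Complex.ofReal_sub, Complex.ofReal_one]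

theorem traceEval_diag' {n : ℕ} (τ : TracialState A)
    (g : Fin n → C(X, ℂ)) : traceEval τ (diagM π g) = (∑ l, τ.toFun (π (g l))).re := by
  unfold traceEval
  congr 2
  funext i
  congr 1
  change (if i = i then π (g i) else 0) = _
  rw [if_pos rfl]

/-- positivity of a trace on positive functions -/
theorem trace_fun_nonneg' (τ : TracialState A) (g : C(X, ℝ))
    (hg : ∀ x, 0 ≤ g x) : 0 ≤ (τ.toFun (π (cf g))).re := by
  have h1 : cf g = star (⟨fun x => ((Real.sqrt (g x) : ℝ) : ℂ), by (clear * -; fun_prop)⟩ : C(X, ℂ)) *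
      ⟨fun x => ((Real.sqrt (g x) : ℝ) : ℂ), by (clear * -; fun_prop)⟩ := by
    ext x
    simp only [ContinuousMap.mul_apply, ContinuousMap.star_apply,
      ContinuousMap.coe_mk, RCLike.star_def, Complex.conj_ofReal, cf_apply]
    rw [← Complex.ofReal_mul, Real.mul_self_sqrt (hg x)]
  rw [h1, map_mul, map_star]
  exact (Complex.nonneg_iff.1 (τ.nonneg _)).1

theorem trace_fun_mono' (τ : TracialState A) (f g : C(X, ℝ))
    (hfg : ∀ x, f x ≤ g x) :
    (τ.toFun (π (cf f))).re ≤ (τ.toFun (π (cf g))).re := by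
  have h1 := trace_fun_nonneg' π τ (g - f) (fun x => by
    simp only [ContinuousMap.sub_apply]; linarith [hfg x])
  have h2 : cf (g - f) = cf g - cf f := by
    ext x
    simp [cf_apply]
  rw [h2, map_sub, map_sub, Complex.sub_re] at h1
  linarith

set_option backward.isDefEq.respectTransparency false in
theorem dTau_diag_le' {n : ℕ} (τ : TracialState A)
    (g G : Fin n → C(X, ℝ)) (hg0 : ∀ l x, 0 ≤ g l x) (hg1 : ∀ l x, g l x ≤ 1)
    (hG0 : ∀ l x, 0 ≤ G l x) (hG : ∀ l x, g l x ≠ 0 → 1 ≤ G l x) :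
    dTau τ (diagM π (fun l => cf (g l))) ≤ (τ.toFun (π (cf (∑ l, G l)))).re := by
  refine dTau_le τ (diagM_nonneg π g hg0) (diagM_le_one π g hg1) _ fun m hm => ?_
  have hm0 : (0 : ℝ) < m := by exact_mod_cast hm
  let c : Fin n → C(X, ℝ) := fun l =>
    ⟨fun x => g l x ^ (1 / (m : ℝ)),
      (Real.continuous_rpow_const (by positivity)).comp (g l).continuous⟩
  have hc : ∀ l x, c l x = g l x ^ (1 / (m : ℝ)) := fun l x => rfl
  have hc0 : ∀ l x, 0 ≤ c l x := fun l x => Real.rpow_nonneg (hg0 l x) _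
  rw [cfc_root (c := diagM π (fun l => cf (c l))) hm (diagM_nonneg π c hc0) (by
    rw [diagM_pow]
    congr 1
    funext l
    ext x
    simp only [Pi.pow_apply, ContinuousMap.pow_apply, cf_apply, hc]
    rw [← Complex.ofReal_pow, ← Real.rpow_natCast, ← Real.rpow_mul (hg0 l x),
      one_div_mul_cancel hm0.ne', Real.rpow_one])]
  rw [traceEval_diag', ← map_sum, ← map_sum]
  have h1 : ∑ l, cf (c l) = cf (∑ l, c l) := by
    ext x
    simp only [ContinuousMap.coe_sum, Finset.sum_apply, cf_apply, Complex.ofReal_sum]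
  rw [h1]
  refine trace_fun_mono' π τ _ _ fun x => ?_
  rw [ContinuousMap.sum_apply, ContinuousMap.sum_apply]
  refine Finset.sum_le_sum fun l _ => ?_
  rw [hc]
  by_cases h0 : g l x = 0
  · rw [h0, Real.zero_rpow (by positivity)]
    exact hG0 l x
  · exact (Real.rpow_le_one (hg0 l x) (hg1 l x) (by positivity)).trans (hG l x h0)

theorem trace_inv' (h : X ≃ₜ X) {u : A} (hu1 : star u * u = 1) (hu2 : u * star u = 1)
    (hcov : ∀ f : C(X, ℂ), u * π f * star u = π (f.comp (h.symm : C(X, X))))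
    (τ : TracialState A) (f : C(X, ℂ)) :
    τ.toFun (π (f.comp (h : C(X, X)))) = τ.toFun (π f) := by
  have h0 : (f.comp (h : C(X, X))).comp (h.symm : C(X, X)) = f := by
    ext x
    simp
  have h1 : π (f.comp (h : C(X, X))) = star u * (π f * u) := by
    have h2 := hcov (f.comp (h : C(X, X)))
    rw [h0] at h2
    rw [← h2, mul_assoc _ (star u), hu1, mul_one, ← mul_assoc, hu1, one_mul]
  rw [h1, τ.tracial, mul_assoc, hu2, mul_one]

theorem trace_inv_pow' (h : X ≃ₜ X) {u : A} (hu1 : star u * u = 1) (hu2 : u * star u = 1)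
    (hcov : ∀ f : C(X, ℂ), u * π f * star u = π (f.comp (h.symm : C(X, X))))
    (τ : TracialState A) (f : C(X, ℂ)) (j : ℕ) :
    τ.toFun (π (f.comp ((h ^ (j : ℤ) : X ≃ₜ X) : C(X, X)))) = τ.toFun (π f) := by
  induction j with
  | zero =>
    congr 2
  | succ j ih =>
    rw [← ih, ← trace_inv' π h hu1 hu2 hcov τ (f.comp ((h ^ (j : ℤ) : X ≃ₜ X) : C(X, X)))]
    congr 2

/-- averages along orbits control traces -/
theorem trace_average' (h : X ≃ₜ X) {u : A} (hu1 : star u * u = 1) (hu2 : u * star u = 1)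
    (hcov : ∀ f : C(X, ℂ), u * π f * star u = π (f.comp (h.symm : C(X, X))))
    (τ : TracialState A) (f g : C(X, ℝ)) (c : ℝ)
    (N : ℕ) (hN : 0 < N)
    (hav : ∀ x, ∑ j ∈ Finset.range N, f ((h ^ (j : ℤ)) x) + c * N ≤
      ∑ j ∈ Finset.range N, g ((h ^ (j : ℤ)) x)) :
    (τ.toFun (π (cf f))).re + c ≤ (τ.toFun (π (cf g))).re := by
  have key : ∀ f : C(X, ℝ), (τ.toFun (π (cf (∑ j ∈ Finset.range N,
      f.comp ((h ^ (j : ℤ) : X ≃ₜ X) : C(X, X)))))).re = N * (τ.toFun (π (cf f))).re := by
    intro f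
    have h1 : cf (∑ j ∈ Finset.range N, f.comp ((h ^ (j : ℤ) : X ≃ₜ X) : C(X, X))) =
        ∑ j ∈ Finset.range N, (cf f).comp ((h ^ (j : ℤ) : X ≃ₜ X) : C(X, X)) := by
      ext x
      simp only [zpow_natCast, cf_apply, ContinuousMap.coe_sum, ContinuousMap.coe_comp, ContinuousMap.coe_mk, Finset.sum_apply, Function.comp_apply, Complex.ofReal_sum]
    rw [h1, map_sum, map_sum]
    simp_rw [trace_inv_pow' π h hu1 hu2 hcov]
    simp
  have h2 := trace_fun_mono' π τ (∑ j ∈ Finset.range N, f.comp ((h ^ (j : ℤ) : X ≃ₜ X) : C(X, X)) +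
    ContinuousMap.const X (c * N))
    (∑ j ∈ Finset.range N, g.comp ((h ^ (j : ℤ) : X ≃ₜ X) : C(X, X))) (fun x => by
      simp only [ContinuousMap.add_apply, ContinuousMap.sum_apply, ContinuousMap.comp_apply,
        ContinuousMap.const_apply]
      exact hav x)
  have h3 : cf (∑ j ∈ Finset.range N, f.comp ((h ^ (j : ℤ) : X ≃ₜ X) : C(X, X)) +
      ContinuousMap.const X (c * N)) =
      cf (∑ j ∈ Finset.range N, f.comp ((h ^ (j : ℤ) : X ≃ₜ X) : C(X, X))) +
        ((c * N : ℝ) : ℂ) • (1 : C(X, ℂ)) := by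
    ext x
    simp only [zpow_natCast, cf_apply, ContinuousMap.add_apply, ContinuousMap.coe_sum, ContinuousMap.coe_comp, ContinuousMap.coe_mk, Finset.sum_apply, Function.comp_apply, ContinuousMap.const_apply, Complex.ofReal_add, Complex.ofReal_sum, Complex.ofReal_mul, Complex.ofReal_natCast, ContinuousMap.coe_smul, ContinuousMap.coe_one, Pi.smul_apply, Pi.one_apply, smul_eq_mul, mul_one]
  rw [h3, map_add, map_add, Complex.add_re, key, key, map_smul, map_smul, map_one, τ.map_one,
    smul_eq_mul, mul_one, Complex.ofReal_re] at h2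
  have hN' : (0 : ℝ) < N := by exact_mod_cast hN
  nlinarith only [h2, hN']

set_option backward.isDefEq.respectTransparency false in
theorem fullM_nonneg {m : ℕ} (β : Fin m → Fin m → C(X, ℂ))
    (hβ : ∀ x, (Matrix.of fun k k' => β k k' x).PosSemidef) : 0 ≤ fullM π β := by
  have hpos : ∀ x, 0 ≤ matAt β x := by
    intro x
    obtain ⟨B, hB⟩ := psd_factor (hβ x)
    rw [CStarAlgebra.nonneg_iff_eq_star_mul_self]
    exact ⟨CStarMatrix.ofMatrix B, hB⟩
  have hc : Continuous fun x => CFC.sqrt (matAt β x) :=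
    CFC.continuousOn_sqrt.comp_continuous (continuous_matAt β) hpos
  let γ : Fin m → Fin m → C(X, ℂ) := fun k k' => ⟨fun x => CFC.sqrt (matAt β x) k k', by
    exact (continuous_apply_apply k k').comp hc⟩
  have hsa : ∀ x, star (CFC.sqrt (matAt β x)) = CFC.sqrt (matAt β x) := fun x =>
    (IsSelfAdjoint.of_nonneg (CFC.sqrt_nonneg (matAt β x))).star_eq
  rw [CStarAlgebra.nonneg_iff_eq_star_mul_self]
  refine ⟨fullM π γ, ?_⟩
  rw [fullM_star, fullM_mul]
  congr 1
  funext k k'
  ext x
  have h1 := CFC.sqrt_mul_sqrt_self (matAt β x) (hpos x)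
  have h2 : (star (CFC.sqrt (matAt β x)) * CFC.sqrt (matAt β x)) k k' = β k k' x := by
    rw [hsa, h1]
    rfl
  rw [← h2, ContinuousMap.sum_apply]
  rfl

set_option backward.isDefEq.respectTransparency false in
theorem fullM_le_one {m : ℕ} (β : Fin m → Fin m → C(X, ℂ))
    (hβ : ∀ x, (1 - Matrix.of fun k k' => β k k' x).PosSemidef) : fullM π β ≤ 1 := by
  rw [← sub_nonneg, ← fullM_one π, fullM_sub]
  refine fullM_nonneg π _ fun x => ?_
  have := hβ x
  convert this using 1
  ext k k'
  simp only [Matrix.of_apply, Matrix.sub_apply, Matrix.one_apply, ContinuousMap.sub_apply]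
  split_ifs <;> simp

theorem traceEval_full' {m : ℕ} (τ : TracialState A)
    (β : Fin m → Fin m → C(X, ℂ))
    (hβ : ∀ x, (Matrix.of fun k k' => β k k' x).PosSemidef) :
    traceEval τ (fullM π β) = (τ.toFun (π (cf (trFun β)))).re := by
  unfold traceEval
  congr 1
  have h1 : cf (trFun β) = ∑ k, β k k := by
    ext x
    rw [cf_apply, trFun_apply, ContinuousMap.sum_apply, Complex.ofReal_sum]
    refine Finset.sum_congr rfl fun k _ => ?_
    have h2 := (hβ x).1.apply k k
    simp only [Matrix.of_apply] at h2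
    exact Complex.conj_eq_iff_re.1 h2
  rw [h1, map_sum, map_sum]
  rfl

end CrossedG

end Vale.Agent.P093
end
end
end

section

section

section

/-!
For a free homeomorphism, a C*-algebra generated by a faithful covariant pair maps onto the
concrete crossed product.
-/

open Filter Topology Set
open scoped ComplexOrder

set_option linter.unusedSectionVars false

namespace Vale.Agent.P093

section GCov

variable {X : Type*} [TopologicalSpace X] [CompactSpace X]

/-- operators on the regular representation space -/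
abbrev OpX (X : Type*) := Ell2 X →L[ℂ] Ell2 X

/-- multiplication operators as a star homomorphism -/
noncomputable def multHom (h : X ≃ₜ X) : C(X, ℂ) →⋆ₐ[ℂ] OpX X where
  toFun := multOp h
  map_one' := congrArg toOp (map_one (piHom h))
  map_mul' f g := congrArg toOp (map_mul (piHom h) f g)
  map_zero' := congrArg toOp (map_zero (piHom h))
  map_add' f g := congrArg toOp (map_add (piHom h) f g)
  commutes' r := by
    have := congrArg toOp ((piHom h).commutes' r)
    exact this
  map_star' f := congrArg toOp (map_star (piHom h) f)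

theorem shift_star_mul : star (shiftOp X) * shiftOp X = 1 :=
  congrArg toOp (star_u_mul_u (Homeomorph.refl X))

theorem shift_mul_star : shiftOp X * star (shiftOp X) = 1 :=
  congrArg toOp (u_mul_star_u (Homeomorph.refl X))

theorem star_shift_dvec (j : ℤ) (x : X) : star (shiftOp X) (dvec j x) = (dvec (j - 1) x : Ell2 X) := by
  have h1 : shiftOp X (dvec (j - 1) x) = (dvec j x : Ell2 X) := by
    rw [shiftOp_dvec, sub_add_cancel]
  rw [← h1]
  change (star (shiftOp X) * shiftOp X) (dvec (j - 1) x) = _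
  rw [shift_star_mul]
  rfl

variable {A : Type*} [CStarAlgebra A]

/-- the unit of the product algebra given by a unitary and the shift -/
noncomputable def pairUnit (X : Type*) [TopologicalSpace X] [CompactSpace X] {u : A}
    (hu1 : star u * u = 1) (hu2 : u * star u = 1) : (A × OpX X)ˣ where
  val := (u, shiftOp X)
  inv := (star u, star (shiftOp X))
  val_inv := Prod.ext hu2 shift_mul_star
  inv_val := Prod.ext hu1 shift_star_mul

theorem pairUnit_zpow_dvec {u : A} (hu1 : star u * u = 1) (hu2 : u * star u = 1) (k j : ℤ) (x : X) :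
    ((pairUnit X hu1 hu2 ^ k : (A × OpX X)ˣ) : A × OpX X).2 (dvec j x) =
      (dvec (j + k) x : Ell2 X) := by
  induction k using Int.induction_on generalizing j with
  | zero => simp only [zpow_ofNat, pow_zero, Units.val_one, Prod.snd_one, one_apply_eq_self, add_zero]
  | succ k ih =>
    rw [zpow_add_one, Units.val_mul]
    change ((pairUnit X hu1 hu2 ^ (k : ℤ) : (A × OpX X)ˣ) : A × OpX X).2
      (shiftOp X (dvec j x)) = _
    rw [shiftOp_dvec, ih]
    congr 1
    ring
  | pred k ih =>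
    rw [zpow_sub_one, Units.val_mul]
    change ((pairUnit X hu1 hu2 ^ (-(k : ℤ)) : (A × OpX X)ˣ) : A × OpX X).2
      (star (shiftOp X) (dvec j x)) = _
    rw [star_shift_dvec, ih]
    congr 1
    ring

/-- expectation property -/
def EProp (h : X ≃ₜ X) (π : C(X, ℂ) →⋆ₐ[ℂ] A) (b : A × OpX X) : Prop :=
  ∃ (R : ℕ) (F : C(X, ℂ)), (∀ x, (b.2 (dvec 0 x)) (0, x) = F x) ∧
    ∀ g : C(X, ℂ), (∀ k : ℤ, k ≠ 0 → k.natAbs ≤ R → g * powComp h k g = 0) →
      π g * b.1 * π g = π (g * F * g)

variable {h : X ≃ₜ X} {π : C(X, ℂ) →⋆ₐ[ℂ] A} {u : A}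

theorem eProp_zero : EProp h π 0 := by
  refine ⟨0, 0, fun x => rfl, fun g _ => ?_⟩
  simp

theorem eProp_add {b c : A × OpX X} (hb : EProp h π b) (hc : EProp h π c) :
    EProp h π (b + c) := by
  obtain ⟨R, F, hF, hR⟩ := hb
  obtain ⟨R', F', hF', hR'⟩ := hc
  refine ⟨max R R', F + F', fun x => ?_, fun g hg => ?_⟩
  · change (b.2 (dvec 0 x) + c.2 (dvec 0 x)) (0, x) = F x + F' x
    rw [lp.coeFn_add, Pi.add_apply, hF, hF']
  · rw [Prod.fst_add, mul_add, add_mul, hR g (fun k hk hkR => hg k hk (hkR.trans (le_max_left _ _))),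
      hR' g (fun k hk hkR => hg k hk (hkR.trans (le_max_right _ _))), ← map_add]
    congr 1
    ring

theorem eProp_smul (c : ℂ) {b : A × OpX X} (hb : EProp h π b) : EProp h π (c • b) := by
  obtain ⟨R, F, hF, hR⟩ := hb
  refine ⟨R, c • F, fun x => ?_, fun g hg => ?_⟩
  · change (c • b.2 (dvec 0 x)) (0, x) = c • F x
    rw [lp.coeFn_smul, Pi.smul_apply, hF]
  · rw [Prod.smul_fst, mul_smul_comm, smul_mul_assoc, hR g hg, ← map_smul]
    congr 1
    rw [mul_smul_comm, smul_mul_assoc]

/-- covariance of the pair -/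
theorem pair_cov (hu1 : star u * u = 1) (hu2 : u * star u = 1)
    (hcov : ∀ f : C(X, ℂ), u * π f * star u = π (f.comp (h.symm : C(X, X)))) (f : C(X, ℂ)) :
    ((pairUnit X hu1 hu2 : (A × OpX X)ˣ) : A × OpX X) * (π.prod (multHom h)) f =
      (π.prod (multHom h)) (powComp h (-1) f) * ((pairUnit X hu1 hu2 : (A × OpX X)ˣ) : A × OpX X) := by
  have h0 : powComp h (-1) f = f.comp (h.symm : C(X, X)) := by
    ext x
    rw [powComp_apply]
    rfl
  refine Prod.ext ?_ ?_
  · change u * π f = π (powComp h (-1) f) * u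
    rw [h0, ← hcov, mul_assoc _ (star u), hu1, mul_one]
  · change shiftOp X * multOp h f = multOp h (powComp h (-1) f) * shiftOp X
    have h1 := congrArg toOp (u_pi h (powComp h (-1) f))
    have h2 : (powComp h (-1) f).comp (h : C(X, X)) = f := by
      rw [h0]
      ext x
      simp
    rw [h2] at h1
    exact h1

theorem eProp_mon (hu1 : star u * u = 1) (hu2 : u * star u = 1)
    (hcov : ∀ f : C(X, ℂ), u * π f * star u = π (f.comp (h.symm : C(X, X)))) (f : C(X, ℂ)) (k : ℤ) :
    EProp h π ((π.prod (multHom h)) f * ((pairUnit X hu1 hu2 ^ k : (A × OpX X)ˣ) : A × OpX X)) := by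
  have hval : ∀ x, (((π.prod (multHom h)) f *
      ((pairUnit X hu1 hu2 ^ k : (A × OpX X)ˣ) : A × OpX X)).2 (dvec 0 x)) (0, x) =
      f ((h ^ k) x) * (if 0 = k then 1 else 0) := by
    intro x
    change (multOp h f (((pairUnit X hu1 hu2 ^ k : (A × OpX X)ˣ) : A × OpX X).2 (dvec 0 x))) (0, x) = _
    rw [pairUnit_zpow_dvec, zero_add, multOp_dvec, lp.coeFn_smul, Pi.smul_apply, dvec_apply,
      smul_eq_mul]
    simp
  by_cases hk : k = 0
  · subst hk
    refine ⟨0, f, fun x => ?_, fun g hg => ?_⟩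
    · rw [hval]
      simp only [zpow_ofNat, pow_zero, Homeomorph.one_apply, ↓reduceIte, mul_one]
    · rw [zpow_zero, Units.val_one, mul_one]
      change π g * π f * π g = _
      rw [← map_mul, ← map_mul]
  · refine ⟨k.natAbs, 0, fun x => ?_, fun g hg => ?_⟩
    · rw [hval, if_neg (fun h0 => hk h0.symm), mul_zero]
      rfl
    · have h1 := congrArg Prod.fst (cov_zpow (pair_cov hu1 hu2 hcov) k g)
      have h2 : ((pairUnit X hu1 hu2 ^ k : (A × OpX X)ˣ) : A × OpX X).1 * π g =
        π (powComp h (-k) g) * ((pairUnit X hu1 hu2 ^ k : (A × OpX X)ˣ) : A × OpX X).1 := h1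
      change π g * (π f * ((pairUnit X hu1 hu2 ^ k : (A × OpX X)ˣ) : A × OpX X).1) * π g = _
      rw [mul_assoc, mul_assoc, h2, ← mul_assoc, ← mul_assoc, ← map_mul, ← map_mul,
        mul_comm g f, mul_assoc f g, hg (-k) (by omega) (by omega)]
      simp only [mul_zero, map_zero, zero_mul]

theorem eProp_monSpan (hu1 : star u * u = 1) (hu2 : u * star u = 1)
    (hcov : ∀ f : C(X, ℂ), u * π f * star u = π (f.comp (h.symm : C(X, X)))) {b : A × OpX X}
    (hb : b ∈ monSpan (π.prod (multHom h)) (pairUnit X hu1 hu2)) : EProp h π b := by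
  unfold monSpan at hb
  induction hb using Submodule.span_induction with
  | mem x hx =>
    obtain ⟨f, k, rfl⟩ := hx
    exact eProp_mon hu1 hu2 hcov f k
  | zero => exact eProp_zero
  | add x y _ _ hx hy => exact eProp_add hx hy
  | smul c x _ hx => exact eProp_smul c hx

/-- the dense algebra of pairs -/
noncomputable def pairAlg (h : X ≃ₜ X) (π : C(X, ℂ) →⋆ₐ[ℂ] A) (u : A) :
    StarSubalgebra ℂ (A × OpX X) :=
  StarAlgebra.adjoin ℂ (Set.range (π.prod (multHom h)) ∪ {(u, shiftOp X)})

theorem eProp_of_mem (hu1 : star u * u = 1) (hu2 : u * star u = 1)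
    (hcov : ∀ f : C(X, ℂ), u * π f * star u = π (f.comp (h.symm : C(X, X)))) {b : A × OpX X}
    (hb : b ∈ pairAlg h π u) : EProp h π b :=
  eProp_monSpan hu1 hu2 hcov (mem_monSpan (U := pairUnit X hu1 hu2) (pair_cov hu1 hu2 hcov) rfl hb)

variable [T2Space X]

/-- bump functions -/
theorem exists_bump_free (hfree : ∀ (k : ℤ) (x : X), k ≠ 0 → (h ^ k) x ≠ x) (R : ℕ) (x : X) :
    ∃ g : C(X, ℂ), g x = 1 ∧ (∀ y, ‖g y‖ ≤ 1) ∧
      ∀ k : ℤ, k ≠ 0 → k.natAbs ≤ R → g * powComp h k g = 0 := by
  have hV : ∀ k : ℤ, ∃ V : Set X, IsOpen V ∧ x ∈ V ∧ (k ≠ 0 → ∀ y ∈ V, (h ^ k) y ∉ V) := by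
    intro k
    by_cases hk : k = 0
    · exact ⟨univ, isOpen_univ, mem_univ _, fun h0 => absurd hk h0⟩
    · obtain ⟨U₁, U₂, hU₁, hU₂, hx1, hx2, hd⟩ := t2_separation (hfree k x hk)
      refine ⟨U₂ ∩ (h ^ k) ⁻¹' U₁, hU₂.inter (hU₁.preimage (h ^ k).continuous), ⟨hx2, hx1⟩,
        fun _ y hy hy' => ?_⟩
      exact Set.disjoint_left.1 hd hy.2 hy'.1
  choose V hVo hxV hVd using hV
  set W : Set X := ⋂ k ∈ Finset.Icc (-(R : ℤ)) R, V k with hW
  have hWo : IsOpen W := isOpen_biInter_finset fun k _ => hVo k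
  have hxW : x ∈ W := mem_iInter₂.2 fun k _ => hxV k
  obtain ⟨f, hf0, hf1, hf01⟩ := exists_continuous_zero_one_of_isClosed (X := X)
    (s := Wᶜ) (t := {x}) hWo.isClosed_compl isClosed_singleton (by
      rw [Set.disjoint_singleton_right]
      exact fun hx => hx hxW)
  refine ⟨⟨fun y => (f y : ℂ), by (clear * -; fun_prop)⟩, ?_, fun y => ?_, fun k hk hkR => ?_⟩
  · change (f x : ℂ) = 1
    rw [hf1 rfl]
    simp
  · change ‖(f y : ℂ)‖ ≤ 1
    rw [Complex.norm_real, Real.norm_eq_abs, abs_of_nonneg (hf01 y).1]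
    exact (hf01 y).2
  · ext y
    change (f y : ℂ) * (f ((h ^ k) y) : ℂ) = 0
    by_cases hy : y ∈ W
    · have hy' : (h ^ k) y ∉ W := by
        intro hy'
        have hkm : k ∈ Finset.Icc (-(R : ℤ)) R := by
          rw [Finset.mem_Icc]
          omega
        exact hVd k hk y (mem_iInter₂.1 hy k hkm) (mem_iInter₂.1 hy' k hkm)
      rw [hf0 hy']
      simp
    · rw [hf0 hy]
      simp

/-- diagonal entries are bounded by the norm of the first component -/
theorem diag_le_of_mem (hfree : ∀ (k : ℤ) (x : X), k ≠ 0 → (h ^ k) x ≠ x)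
    (hπ : Function.Injective π) (hu1 : star u * u = 1) (hu2 : u * star u = 1)
    (hcov : ∀ f : C(X, ℂ), u * π f * star u = π (f.comp (h.symm : C(X, X)))) {b : A × OpX X}
    (hb : b ∈ pairAlg h π u) (x : X) : ‖(b.2 (dvec 0 x)) (0, x)‖ ≤ ‖b.1‖ := by
  obtain ⟨R, F, hF, hR⟩ := eProp_of_mem hu1 hu2 hcov hb
  obtain ⟨g, hgx, hg1, hg⟩ := exists_bump_free hfree R x
  have h1 := hR g hg
  have hiso : ∀ f : C(X, ℂ), ‖π f‖ = ‖f‖ := fun f => NonUnitalStarAlgHom.norm_map π hπ f
  have hgn : ‖g‖ ≤ 1 := (ContinuousMap.norm_le _ zero_le_one).2 hg1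
  rw [hF]
  calc ‖F x‖ = ‖(g * F * g) x‖ := by
        rw [ContinuousMap.mul_apply, ContinuousMap.mul_apply, hgx, one_mul, mul_one]
    _ ≤ ‖g * F * g‖ := ContinuousMap.norm_coe_le_norm _ x
    _ = ‖π (g * F * g)‖ := (hiso _).symm
    _ = ‖π g * b.1 * π g‖ := by rw [h1]
    _ ≤ ‖π g * b.1‖ * ‖π g‖ := norm_mul_le _ _
    _ ≤ (‖π g‖ * ‖b.1‖) * ‖π g‖ := by gcongr; exact norm_mul_le _ _
    _ ≤ (1 * ‖b.1‖) * 1 := by
        rw [hiso]
        gcongr
    _ = ‖b.1‖ := by ring

/-- the closed algebra of pairs -/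
noncomputable def pairAlgC (h : X ≃ₜ X) (π : C(X, ℂ) →⋆ₐ[ℂ] A) (u : A) :
    StarSubalgebra ℂ (A × OpX X) := (pairAlg h π u).topologicalClosure

theorem diag_le_of_mem_closure (hfree : ∀ (k : ℤ) (x : X), k ≠ 0 → (h ^ k) x ≠ x)
    (hπ : Function.Injective π) (hu1 : star u * u = 1) (hu2 : u * star u = 1)
    (hcov : ∀ f : C(X, ℂ), u * π f * star u = π (f.comp (h.symm : C(X, X)))) {b : A × OpX X}
    (hb : b ∈ pairAlgC h π u) (x : X) : ‖(b.2 (dvec 0 x)) (0, x)‖ ≤ ‖b.1‖ := by
  have hcl : IsClosed {b : A × OpX X | ‖(b.2 (dvec 0 x)) (0, x)‖ ≤ ‖b.1‖} := by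
    refine isClosed_le ?_ (by fun_prop)
    have h1 : ∀ b : A × OpX X, (b.2 (dvec 0 x)) (0, x) =
        inner ℂ (dvec 0 x : Ell2 X) (b.2 (dvec 0 x)) := fun b => (inner_dvec_left _ _ _).symm
    simp_rw [h1]
    (clear * -; fun_prop)
  have hsub : ((pairAlg h π u : StarSubalgebra ℂ (A × OpX X)) : Set (A × OpX X)) ⊆
      {b : A × OpX X | ‖(b.2 (dvec 0 x)) (0, x)‖ ≤ ‖b.1‖} :=
    fun b hb => diag_le_of_mem hfree hπ hu1 hu2 hcov hb x
  have hb' : b ∈ closure ((pairAlg h π u : StarSubalgebra ℂ (A × OpX X)) : Set (A × OpX X)) := by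
    have h2 : b ∈ (pairAlgC h π u : Set (A × OpX X)) := hb
    unfold pairAlgC at h2
    rwa [StarSubalgebra.topologicalClosure_coe] at h2
  exact closure_minimal hsub hcl hb'

theorem pair_mem_closure (f : C(X, ℂ)) : (π f, multOp h f) ∈ pairAlgC h π u :=
  StarSubalgebra.le_topologicalClosure _ (StarAlgebra.subset_adjoin ℂ _ (Or.inl ⟨f, rfl⟩))

theorem pair_u_mem_closure : (u, shiftOp X) ∈ pairAlgC h π u :=
  StarSubalgebra.le_topologicalClosure _ (StarAlgebra.subset_adjoin ℂ _ (Or.inr rfl))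

/-- powers of the shift, together with their partner -/
theorem exists_shift_partner (j : ℤ) : ∃ b ∈ pairAlgC h π u, ∀ x : X,
    b.2 (dvec 0 x) = (dvec j x : Ell2 X) := by
  induction j using Int.induction_on with
  | zero => exact ⟨1, one_mem _, fun x => rfl⟩
  | succ k ih =>
    obtain ⟨b, hb, hbx⟩ := ih
    refine ⟨(u, shiftOp X) * b, mul_mem pair_u_mem_closure hb, fun x => ?_⟩
    change shiftOp X (b.2 (dvec 0 x)) = _
    rw [hbx, shiftOp_dvec]
  | pred k ih =>
    obtain ⟨b, hb, hbx⟩ := ih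
    refine ⟨star (u, shiftOp X) * b, mul_mem (star_mem pair_u_mem_closure) hb, fun x => ?_⟩
    change star (shiftOp X) (b.2 (dvec 0 x)) = _
    rw [hbx, star_shift_dvec]

/-- the second component vanishes when the first one does -/
theorem snd_eq_zero (hfree : ∀ (k : ℤ) (x : X), k ≠ 0 → (h ^ k) x ≠ x)
    (hπ : Function.Injective π) (hu1 : star u * u = 1) (hu2 : u * star u = 1)
    (hcov : ∀ f : C(X, ℂ), u * π f * star u = π (f.comp (h.symm : C(X, X)))) {b : A × OpX X}
    (hb : b ∈ pairAlgC h π u) (hb0 : b.1 = 0) : b.2 = 0 := by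
  have h1 : ∀ (j : ℤ) (x : X), b.2 (dvec j x) = 0 := by
    intro j x
    obtain ⟨c, hc, hcx⟩ := exists_shift_partner (h := h) (π := π) (u := u) j
    have h2 := diag_le_of_mem_closure hfree hπ hu1 hu2 hcov
      (mul_mem (star_mem (mul_mem hb hc)) (mul_mem hb hc)) x
    have h3 : (star (b * c) * (b * c)).1 = 0 := by
      change star (b.1 * c.1) * (b.1 * c.1) = 0
      rw [hb0, zero_mul, mul_zero]
    rw [h3, norm_zero] at h2
    have h4 : ((star (b * c) * (b * c)).2 (dvec 0 x)) (0, x) =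
        inner ℂ (b.2 (dvec j x)) (b.2 (dvec j x)) := by
      rw [← inner_dvec_left]
      change inner ℂ (dvec 0 x : Ell2 X) ((star (b.2 * c.2)) ((b.2 * c.2) (dvec 0 x))) = _
      rw [ContinuousLinearMap.star_eq_adjoint, ContinuousLinearMap.adjoint_inner_right]
      change inner ℂ (b.2 (c.2 (dvec 0 x))) (b.2 (c.2 (dvec 0 x))) = _
      rw [hcx]
    rw [h4] at h2
    exact inner_self_eq_zero.1 (norm_le_zero_iff.1 h2)
  have h5 : star b.2 = 0 := by
    apply ell2_ext
    rintro v ⟨j, x⟩
    rw [← inner_dvec_left, ContinuousLinearMap.star_eq_adjoint,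
      ContinuousLinearMap.adjoint_inner_right, h1, inner_zero_left]
    rfl
  rw [← star_star b.2, h5, star_zero]

end GCov

end Vale.Agent.P093
end
end
end

section

section

section

/-!
Lemma T in the form used later: over a product of `M` two-spheres, the sum of the `M` Hopf line
bundles and a trivial bundle of rank `t` has no `t + 1` independent sections.
-/

namespace Vale.Agent.P093

noncomputable section

/-- the matrix `(1 + v.σ) / 2` -/
def hopf (v : EuclideanSpace ℝ (Fin 3)) : Matrix (Fin 2) (Fin 2) ℂ :=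
  !![((1 + v 2 : ℝ) : ℂ) / 2, ((v 0 : ℝ) - (v 1 : ℝ) * Complex.I) / 2;
    ((v 0 : ℝ) + (v 1 : ℝ) * Complex.I) / 2, ((1 - v 2 : ℝ) : ℂ) / 2]

end

end Vale.Agent.P093
end
end
end

section

section

section

/-!
The positive contraction `beta u = 1 - (|u| - u.σ) / 2`, which equals `hopf u` on the unit sphere
and has trace at least one on the unit ball.
-/

open Matrix
open scoped ComplexOrder

namespace Vale.Agent.P093

noncomputable section

/-- `1 - (|u| - u.σ) / 2` -/
def betaM (u : EuclideanSpace ℝ (Fin 3)) : Matrix (Fin 2) (Fin 2) ℂ :=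
  !![((1 - ‖u‖ / 2 + u 2 / 2 : ℝ) : ℂ), ((u 0 : ℝ) - (u 1 : ℝ) * Complex.I) / 2;
    ((u 0 : ℝ) + (u 1 : ℝ) * Complex.I) / 2, ((1 - ‖u‖ / 2 - u 2 / 2 : ℝ) : ℂ)]

theorem betaM_sphere {u : EuclideanSpace ℝ (Fin 3)} (hu : ‖u‖ = 1) : betaM u = hopf u := by
  unfold betaM hopf
  rw [hu]
  ext a b
  fin_cases a <;> fin_cases b
  · simp only [Fin.zero_eta, Matrix.of_apply, Matrix.cons_val_zero]
    push_cast; ring
  · rfl
  · rfl
  · simp only [Fin.mk_one, Matrix.of_apply, Matrix.cons_val_one]
    push_cast; ring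

theorem betaM_trace (u : EuclideanSpace ℝ (Fin 3)) : (betaM u).trace = ((2 - ‖u‖ : ℝ) : ℂ) := by
  simp only [betaM, Matrix.trace, Fin.sum_univ_two, Matrix.diag_apply, Matrix.of_apply,
    Matrix.cons_val_zero, Matrix.cons_val_one]
  push_cast
  ring

theorem betaM_continuous : Continuous betaM := by
  apply continuous_pi
  intro a
  apply continuous_pi
  intro b
  have h : ∀ i : Fin 3, Continuous fun v : EuclideanSpace ℝ (Fin 3) => v i := by
    intro i; fun_prop
  fin_cases a <;> fin_cases b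
  · exact Complex.continuous_ofReal.comp
      ((continuous_const.sub (continuous_norm.div_const 2)).add ((h 2).div_const 2))
  · exact (((Complex.continuous_ofReal.comp (h 0)).sub
      ((Complex.continuous_ofReal.comp (h 1)).mul continuous_const)).div_const 2)
  · exact (((Complex.continuous_ofReal.comp (h 0)).add
      ((Complex.continuous_ofReal.comp (h 1)).mul continuous_const)).div_const 2)
  · exact Complex.continuous_ofReal.comp
      ((continuous_const.sub (continuous_norm.div_const 2)).sub ((h 2).div_const 2))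

theorem betaM_isHermitian (u : EuclideanSpace ℝ (Fin 3)) : (betaM u).IsHermitian := by
  unfold betaM
  ext a b
  fin_cases a <;> fin_cases b <;>
    simp [Matrix.conjTranspose_apply, Complex.conj_ofReal, sub_eq_add_neg]

/-- the Cauchy-Schwarz inequality behind positivity -/
theorem bloch_ineq (u : EuclideanSpace ℝ (Fin 3)) (x y : ℂ) :
    |u 2 * (Complex.normSq x - Complex.normSq y) +
      2 * (u 0 * (x.re * y.re + x.im * y.im) + u 1 * (x.re * y.im - x.im * y.re))| ≤
      ‖u‖ * (Complex.normSq x + Complex.normSq y) := by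
  have hn : ‖u‖ ^ 2 = u 0 ^ 2 + u 1 ^ 2 + u 2 ^ 2 := by
    rw [EuclideanSpace.norm_sq_eq]
    simp only [Real.norm_eq_abs, sq_abs, Fin.sum_univ_three, Fin.isValue]
  apply abs_le_of_sq_le_sq
  · rw [mul_pow, hn, Complex.normSq_apply, Complex.normSq_apply]
    set a := x.re; set b := x.im; set c := y.re; set d := y.im
    have key : (u 0 ^ 2 + u 1 ^ 2 + u 2 ^ 2) * (a * a + b * b + (c * c + d * d)) ^ 2 -
      (u 2 * (a * a + b * b - (c * c + d * d)) +
        2 * (u 0 * (a * c + b * d) + u 1 * (a * d - b * c))) ^ 2 =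
      (u 0 * (2 * (a * d - b * c)) - u 1 * (2 * (a * c + b * d))) ^ 2 +
      (u 0 * (a * a + b * b - (c * c + d * d)) - u 2 * (2 * (a * c + b * d))) ^ 2 +
      (u 1 * (a * a + b * b - (c * c + d * d)) - u 2 * (2 * (a * d - b * c))) ^ 2 := by ring
    refine sub_nonneg.mp ?_
    rw [key]
    exact add_nonneg (add_nonneg (sq_nonneg _) (sq_nonneg _)) (sq_nonneg _)
  · exact mul_nonneg (norm_nonneg _) (add_nonneg (Complex.normSq_nonneg _) (Complex.normSq_nonneg _))

theorem betaM_quad (u : EuclideanSpace ℝ (Fin 3)) (x : Fin 2 → ℂ) :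
    star x ⬝ᵥ (betaM u *ᵥ x) =
      (((1 - ‖u‖ / 2) * (Complex.normSq (x 0) + Complex.normSq (x 1)) +
        (u 2 * (Complex.normSq (x 0) - Complex.normSq (x 1)) +
        2 * (u 0 * ((x 0).re * (x 1).re + (x 0).im * (x 1).im) +
          u 1 * ((x 0).re * (x 1).im - (x 0).im * (x 1).re))) / 2 : ℝ) : ℂ) := by
  apply Complex.ext
  · simp only [dotProduct, Matrix.mulVec, Fin.sum_univ_two, betaM, Matrix.of_apply,
      Matrix.cons_val_zero, Matrix.cons_val_one, Pi.star_apply, RCLike.star_def, Complex.add_re,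
      Complex.mul_re, Complex.conj_re, Complex.conj_im, Complex.add_im, Complex.mul_im,
      Complex.ofReal_re, Complex.ofReal_im, Complex.normSq_apply, Complex.div_re, Complex.div_im,
      Complex.sub_re, Complex.sub_im, Complex.I_re, Complex.I_im, Complex.re_ofNat,
      Complex.im_ofNat]
    ring
  · simp only [dotProduct, Matrix.mulVec, Fin.sum_univ_two, betaM, Matrix.of_apply,
      Matrix.cons_val_zero, Matrix.cons_val_one, Pi.star_apply, RCLike.star_def, Complex.add_re,
      Complex.mul_re, Complex.conj_re, Complex.conj_im, Complex.add_im, Complex.mul_im,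
      Complex.ofReal_re, Complex.ofReal_im, Complex.normSq_apply, Complex.div_re, Complex.div_im,
      Complex.sub_re, Complex.sub_im, Complex.I_re, Complex.I_im, Complex.re_ofNat,
      Complex.im_ofNat]
    ring

theorem betaM_posSemidef {u : EuclideanSpace ℝ (Fin 3)} (hu : ‖u‖ ≤ 1) : (betaM u).PosSemidef := by
  apply Matrix.PosSemidef.of_dotProduct_mulVec_nonneg (betaM_isHermitian u)
  intro x
  rw [betaM_quad]
  rw [Complex.zero_le_real]
  have h := (abs_le.mp (bloch_ineq u (x 0) (x 1))).1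
  have h2 : 0 ≤ Complex.normSq (x 0) + Complex.normSq (x 1) :=
    add_nonneg (Complex.normSq_nonneg _) (Complex.normSq_nonneg _)
  nlinarith only [h, hu, h2]

theorem one_sub_betaM_posSemidef (u : EuclideanSpace ℝ (Fin 3)) :
    (1 - betaM u).PosSemidef := by
  apply Matrix.PosSemidef.of_dotProduct_mulVec_nonneg
    (Matrix.isHermitian_one.sub (betaM_isHermitian u))
  intro x
  rw [Matrix.sub_mulVec, dotProduct_sub, betaM_quad, Matrix.one_mulVec]
  have h1 : star x ⬝ᵥ x = ((Complex.normSq (x 0) + Complex.normSq (x 1) : ℝ) : ℂ) := by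
    simp only [dotProduct, Fin.sum_univ_two, Pi.star_apply, RCLike.star_def]
    rw [mul_comm, Complex.mul_conj, mul_comm, Complex.mul_conj]
    push_cast
    rfl
  rw [h1, ← Complex.ofReal_sub, Complex.zero_le_real]
  have h := (abs_le.mp (bloch_ineq u (x 0) (x 1))).2
  linarith

end

end Vale.Agent.P093
end
end
end

section

section

section
open Filter Topology Set
set_option linter.unusedSectionVars false
namespace Vale.Agent.P093

noncomputable section

/-- distance of `s` to the lattice `n ℤ` -/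
def latDist (n : ℕ) (s : ℝ) : ℝ := Metric.infDist s (Set.range fun k : ℤ => (n : ℝ) * k)

theorem latDist_continuous (n : ℕ) : Continuous (latDist n) := Metric.continuous_infDist_pt _

theorem lattice_nonempty (n : ℕ) : (Set.range fun k : ℤ => (n : ℝ) * k).Nonempty := ⟨_, ⟨0, rfl⟩⟩

theorem latDist_lt_iff {n : ℕ} {s r : ℝ} : latDist n s < r ↔ ∃ k : ℤ, |s - n * k| < r := by
  unfold latDist
  rw [Metric.infDist_lt_iff (lattice_nonempty n)]
  constructor
  · rintro ⟨_, ⟨k, rfl⟩, hk⟩
    exact ⟨k, by rwa [Real.dist_eq] at hk⟩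
  · rintro ⟨k, hk⟩
    exact ⟨_, ⟨k, rfl⟩, by rwa [Real.dist_eq]⟩

theorem latDist_le {n : ℕ} {s r : ℝ} (k : ℤ) (hk : |s - n * k| ≤ r) : latDist n s ≤ r := by
  unfold latDist
  refine (Metric.infDist_le_dist_of_mem (Set.mem_range_self k)).trans ?_
  rwa [Real.dist_eq]

/-- bump function of the arc `[o, o + c]` modulo `n`: equal to one on the arc and supported in the
`δ`-neighbourhood of the arc -/
def arc (n : ℕ) (o c δ s : ℝ) : ℝ := max 0 (min 1 ((c / 2 + δ - latDist n (s - o - c / 2)) / δ))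

theorem arc_continuous (n : ℕ) (o c δ : ℝ) : Continuous (arc n o c δ) := by
  unfold arc
  have h1 : Continuous fun s : ℝ => latDist n (s - o - c / 2) :=
    (latDist_continuous n).comp (by fun_prop)
  exact continuous_const.max (continuous_const.min ((continuous_const.sub h1).div_const _))

theorem arc_nonneg (n : ℕ) (o c δ s : ℝ) : 0 ≤ arc n o c δ s := le_max_left _ _

theorem arc_le_one (n : ℕ) (o c δ s : ℝ) : arc n o c δ s ≤ 1 :=
  max_le zero_le_one (min_le_left _ _)

theorem arc_eq_one {n : ℕ} {o c δ s : ℝ} (hδ : 0 < δ) (k : ℤ) (h1 : o ≤ s - n * k)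
    (h2 : s - n * k ≤ o + c) : arc n o c δ s = 1 := by
  have h3 : latDist n (s - o - c / 2) ≤ c / 2 := by
    refine latDist_le k ?_
    rw [abs_le]
    constructor <;> linarith
  have h4 : 1 ≤ (c / 2 + δ - latDist n (s - o - c / 2)) / δ := by
    rw [le_div_iff₀ hδ]
    linarith
  unfold arc
  rw [min_eq_left h4, max_eq_right zero_le_one]

theorem arc_ne_zero {n : ℕ} {o c δ s : ℝ} (hδ : 0 < δ) (h : arc n o c δ s ≠ 0) :
    ∃ k : ℤ, o - δ < s - n * k ∧ s - n * k < o + c + δ := by
  have h1 : latDist n (s - o - c / 2) < c / 2 + δ := by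
    by_contra hle
    rw [not_lt] at hle
    apply h
    have h2 : (c / 2 + δ - latDist n (s - o - c / 2)) / δ ≤ 0 :=
      div_nonpos_of_nonpos_of_nonneg (by linarith only [hle]) hδ.le
    unfold arc
    exact max_eq_left ((min_le_right _ _).trans h2)
  obtain ⟨k, hk⟩ := latDist_lt_iff.1 h1
  rw [abs_lt] at hk
  exact ⟨k, by linarith only [hk], by linarith [hk.2]⟩

/-- the support of a bump is contained in the set where a larger bump is one -/
theorem arc_dominated {n : ℕ} {o c δ s : ℝ} (hδ : 0 < δ) (h : arc n o c δ s ≠ 0) :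
    arc n (o - δ) (c + 2 * δ) δ s = 1 := by
  obtain ⟨k, h1, h2⟩ := arc_ne_zero hδ h
  exact arc_eq_one hδ k h1.le (by linarith)

open scoped Classical in
/-- among `n` consecutive phases at least `c` are in an arc of length `c` -/
theorem arc_count_lower {n c : ℕ} (hc : c ≤ n) (hn : 0 < n) (o s : ℝ) :
    c ≤ (Finset.univ.filter fun i : Fin n => ∃ k : ℤ, o ≤ s + (i : ℕ) - n * k ∧
      s + (i : ℕ) - n * k ≤ o + c).card := by
  have hn' : (0 : ℤ) < n := by exact_mod_cast hn
  let m : ℤ := ⌈o - s⌉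
  have hm1 : o ≤ s + m := by linarith only [Int.le_ceil (o - s)]
  have hm2 : s + m < o + 1 := by linarith only [Int.ceil_lt_add_one (o - s)]
  let f : Fin c → Fin n := fun t => ⟨((m + (t : ℕ)) % n).toNat, by
    have h1 := Int.emod_lt_of_pos (m + (t : ℕ)) hn'
    have h2 := Int.emod_nonneg (m + (t : ℕ)) hn'.ne'
    omega⟩
  have hf : ∀ t : Fin c, (((f t : Fin n) : ℕ) : ℤ) = (m + (t : ℕ)) % n := fun t => by
    have h2 := Int.emod_nonneg (m + (t : ℕ)) hn'.ne'
    exact Int.toNat_of_nonneg h2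
  have hinj : Function.Injective f := by
    intro t t' htt
    have h1 : (m + (t : ℕ)) % n = (m + (t' : ℕ)) % n := by
      rw [← hf, ← hf, htt]
    have h2 : ((t : ℕ) : ℤ) % n = ((t' : ℕ) : ℤ) % n := Int.ModEq.add_left_cancel' m h1
    rw [Int.emod_eq_of_lt (by (clear * -; positivity)) (by have := t.2; omega),
      Int.emod_eq_of_lt (by (clear * -; positivity)) (by have := t'.2; omega)] at h2
    exact Fin.ext (by exact_mod_cast h2)
  have h3 : (Finset.univ.image f).card = c := by
    rw [Finset.card_image_of_injective _ hinj, Finset.card_univ, Fintype.card_fin]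
  refine h3.symm.le.trans (Finset.card_le_card ?_)
  intro i hi
  rw [Finset.mem_image] at hi
  obtain ⟨t, -, rfl⟩ := hi
  rw [Finset.mem_filter]
  refine ⟨Finset.mem_univ _, -((m + (t : ℕ)) / n), ?_⟩
  have h4 : (((f t : Fin n) : ℕ) : ℝ) = (m : ℝ) + (t : ℕ) - n * ((m + (t : ℕ)) / n : ℤ) := by
    have h5 : (((f t : Fin n) : ℕ) : ℤ) = m + (t : ℕ) - n * ((m + (t : ℕ)) / n) := by
      rw [hf, Int.emod_def]
    have h6 : ((((f t : Fin n) : ℕ) : ℤ) : ℝ) =
        ((m + (t : ℕ) - n * ((m + (t : ℕ)) / n) : ℤ) : ℝ) := by rw [h5]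
    rw [Int.cast_natCast] at h6
    rw [h6]
    push_cast
    ring
  have ht : ((t : ℕ) : ℝ) + 1 ≤ c := by exact_mod_cast t.2
  have ht0 : (0 : ℝ) ≤ ((t : ℕ) : ℝ) := by (clear * -; positivity)
  rw [h4]
  push_cast
  constructor <;> nlinarith only [hm1, hm2, ht]

open scoped Classical in
/-- among `n` consecutive phases at most `c + 1` are in an open arc of length at most `c + 1` -/
theorem arc_count_upper {n c : ℕ} (o ℓ s : ℝ) (hℓ : ℓ ≤ c + 1) :
    (Finset.univ.filter fun i : Fin n => ∃ k : ℤ, o < s + (i : ℕ) - n * k ∧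
      s + (i : ℕ) - n * k < o + ℓ).card ≤ c + 1 := by
  let u : ℝ := o - s
  have key : ∀ i ∈ (Finset.univ.filter fun i : Fin n => ∃ k : ℤ, o < s + (i : ℕ) - n * k ∧
      s + (i : ℕ) - n * k < o + ℓ), ∃ k : ℤ, o < s + (i : ℕ) - n * k ∧
      s + (i : ℕ) - n * k < o + ℓ := fun i hi => (Finset.mem_filter.1 hi).2
  choose! k hk using key
  have hcard : (Finset.Icc (⌊u⌋ + 1) (⌊u⌋ + (c + 1))).card = c + 1 := by
    rw [Int.card_Icc]
    omega
  rw [← hcard]
  refine Finset.card_le_card_of_injOn (fun i : Fin n => ((i : ℕ) : ℤ) - n * k i) ?_ ?_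
  · intro i hi
    obtain ⟨h1, h2⟩ := hk i hi
    have h3 : u < ((((i : ℕ) : ℤ) - n * k i : ℤ) : ℝ) := by
      push_cast
      simp only [u]
      linarith only [h1]
    have h4 : ((((i : ℕ) : ℤ) - n * k i : ℤ) : ℝ) < u + (c + 1) := by
      push_cast
      simp only [u]
      linarith only [hℓ, h2]
    simp only [Finset.coe_Icc, Set.mem_Icc]
    constructor
    · exact Int.floor_lt.2 h3
    · have h5 : (((((i : ℕ) : ℤ) - n * k i : ℤ) : ℝ)) < ((⌊u⌋ + 1 + (c + 1) : ℤ) : ℝ) := by
        push_cast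
        have := Int.lt_floor_add_one u
        push_cast at h4
        linarith only [hℓ, h2, this]
      have h6 := Int.cast_lt.1 h5
      omega
  · intro i hi i' hi' hii
    simp only at hii
    have h1 : ((i : ℕ) : ℤ) % n = ((i' : ℕ) : ℤ) % n := by
      have h2 : ((i : ℕ) : ℤ) = ((i' : ℕ) : ℤ) + n * (k i - k i') := by linarith only [hii]
      rw [h2, Int.add_mul_emod_self_left]
    rw [Int.emod_eq_of_lt (by (clear * -; positivity)) (by have := i.2; omega),
      Int.emod_eq_of_lt (by (clear * -; positivity)) (by have := i'.2; omega)] at h1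
    exact Fin.ext (by exact_mod_cast h1)

/-- a set of separated times is sparse -/
theorem sparse_count {L : ℕ} (hL : 0 < L) (a b : ℕ) (A : ℕ → Prop) [DecidablePred A]
    (hsep : ∀ i j, i < j → A i → A j → L ≤ j - i) :
    L * ((Finset.Ico a b).filter A).card ≤ (b - a) + L := by
  classical
  have h1 : ((Finset.Ico a b).filter A).card ≤ (Finset.range ((b - a) / L + 1)).card := by
    refine Finset.card_le_card_of_injOn (fun j => (j - a) / L) ?_ ?_
    · intro j hj
      rw [Finset.mem_coe, Finset.mem_filter, Finset.mem_Ico] at hj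
      simp only [Finset.coe_range, Set.mem_Iio]
      have : (j - a) / L ≤ (b - a) / L := Nat.div_le_div_right (by omega)
      omega
    · intro i hi j hj hij
      rw [Finset.mem_coe, Finset.mem_filter, Finset.mem_Ico] at hi hj
      simp only at hij
      by_contra hne
      rcases Nat.lt_or_gt_of_ne hne with hlt | hlt
      · have h2 := hsep i j hlt hi.2 hj.2
        have h3 : (j - a) = (i - a) + (j - i) := by (clear * - hi hj hlt; omega)
        have h4 : (i - a) / L + 1 ≤ (j - a) / L := by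
          rw [h3]
          calc (i - a) / L + 1 = ((i - a) + L) / L := by rw [Nat.add_div_right _ hL]
            _ ≤ _ := Nat.div_le_div_right (by omega)
        omega
      · have h2 := hsep j i hlt hj.2 hi.2
        have h3 : (i - a) = (j - a) + (i - j) := by omega
        have h4 : (j - a) / L + 1 ≤ (i - a) / L := by
          rw [h3]
          calc (j - a) / L + 1 = ((j - a) + L) / L := by rw [Nat.add_div_right _ hL]
            _ ≤ _ := Nat.div_le_div_right (by omega)
        omega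
  rw [Finset.card_range] at h1
  calc L * ((Finset.Ico a b).filter A).card ≤ L * ((b - a) / L + 1) := Nat.mul_le_mul_left _ h1
    _ = L * ((b - a) / L) + L := by ring
    _ ≤ (b - a) + L := by
      have := Nat.mul_div_le (b - a) L
      omega

section Blocks

variable {s : ℕ → ℝ} {A : ℕ → Prop} [DecidablePred A]

theorem regular_stretch (hs : ∀ j, ¬ A (j + 1) → s (j + 1) = s j + 1) (a i : ℕ)
    (hA : ∀ j, a < j → j ≤ a + i → ¬ A j) : s (a + i) = s a + i := by
  induction i with
  | zero => simp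
  | succ i ih =>
    rw [← add_assoc, hs (a + i) (hA _ (by omega) (by omega)), ih fun j h1 h2 => hA j h1 (by omega)]
    push_cast
    ring

theorem count_Ico_eq {n : ℕ} (a : ℕ) (P : ℕ → Prop) [DecidablePred P] :
    ((Finset.Ico a (a + n)).filter P).card =
      (Finset.univ.filter fun i : Fin n => P (a + (i : ℕ))).card := by
  classical
  symm
  refine Finset.card_bij (fun i _ => a + (i : ℕ)) ?_ ?_ ?_
  · intro i hi
    rw [Finset.mem_filter] at hi
    rw [Finset.mem_filter, Finset.mem_Ico]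
    exact ⟨⟨by omega, by have := i.2; omega⟩, hi.2⟩
  · intro i _ j _ hij
    exact Fin.ext (by omega)
  · intro j hj
    rw [Finset.mem_filter, Finset.mem_Ico] at hj
    refine ⟨⟨j - a, by omega⟩, ?_, ?_⟩
    · rw [Finset.mem_filter]
      refine ⟨Finset.mem_univ _, ?_⟩
      have : a + (j - a) = j := by omega
      simp only [this]
      exact hj.2
    · simp only
      omega

theorem block_lower_one (hs : ∀ j, ¬ A (j + 1) → s (j + 1) = s j + 1) {n c : ℕ} (hc : c ≤ n)
    (hn : 0 < n) (o : ℝ) (P : ℕ → Prop) [DecidablePred P]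
    (hP : ∀ j, (∃ k : ℤ, o ≤ s j - n * k ∧ s j - n * k ≤ o + c) → P j) (a : ℕ) :
    c ≤ ((Finset.Ico a (a + n)).filter P).card + c * ((Finset.Ico a (a + n)).filter A).card := by
  classical
  by_cases hA : ∀ j, a < j → j < a + n → ¬ A j
  · refine le_trans ?_ (Nat.le_add_right _ _)
    rw [count_Ico_eq]
    refine (arc_count_lower hc hn o (s a)).trans (Finset.card_le_card ?_)
    intro i hi
    rw [Finset.mem_filter] at hi ⊢
    refine ⟨Finset.mem_univ _, hP _ ?_⟩
    rw [regular_stretch hs a i fun j h1 h2 => hA j h1 (by have := i.2; omega)]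
    exact hi.2
  · push Not at hA
    obtain ⟨j, h1, h2, h3⟩ := hA
    have h4 : 0 < ((Finset.Ico a (a + n)).filter A).card :=
      Finset.card_pos.2 ⟨j, Finset.mem_filter.2 ⟨Finset.mem_Ico.2 ⟨h1.le, h2⟩, h3⟩⟩
    calc c = c * 1 := (mul_one c).symm
      _ ≤ c * _ := Nat.mul_le_mul_left _ h4
      _ ≤ _ := Nat.le_add_left _ _

theorem block_upper_one (hs : ∀ j, ¬ A (j + 1) → s (j + 1) = s j + 1) {n c : ℕ} (o ℓ : ℝ)
    (hℓ : ℓ ≤ c + 1) (Q : ℕ → Prop) [DecidablePred Q]
    (hQ : ∀ j, Q j → ∃ k : ℤ, o < s j - n * k ∧ s j - n * k < o + ℓ) (a : ℕ) :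
    ((Finset.Ico a (a + n)).filter Q).card ≤
      (c + 1) + n * ((Finset.Ico a (a + n)).filter A).card := by
  classical
  by_cases hA : ∀ j, a < j → j < a + n → ¬ A j
  · refine le_trans ?_ (Nat.le_add_right _ _)
    rw [count_Ico_eq]
    refine (Finset.card_le_card ?_).trans (arc_count_upper (n := n) o ℓ (s a) hℓ)
    intro i hi
    rw [Finset.mem_filter] at hi ⊢
    refine ⟨Finset.mem_univ _, ?_⟩
    have := hQ _ hi.2
    rwa [regular_stretch hs a i fun j h1 h2 => hA j h1 (by have := i.2; omega)] at this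
  · push Not at hA
    obtain ⟨j, h1, h2, h3⟩ := hA
    have h4 : 0 < ((Finset.Ico a (a + n)).filter A).card :=
      Finset.card_pos.2 ⟨j, Finset.mem_filter.2 ⟨Finset.mem_Ico.2 ⟨h1.le, h2⟩, h3⟩⟩
    calc ((Finset.Ico a (a + n)).filter Q).card ≤ (Finset.Ico a (a + n)).card :=
          Finset.card_filter_le _ _
      _ = n * 1 := by rw [Nat.card_Ico]; omega
      _ ≤ n * _ := Nat.mul_le_mul_left _ h4
      _ ≤ _ := Nat.le_add_left _ _

theorem filter_Ico_split (P : ℕ → Prop) [DecidablePred P] {a b c : ℕ} (hab : a ≤ b) (hbc : b ≤ c) :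
    ((Finset.Ico a c).filter P).card =
      ((Finset.Ico a b).filter P).card + ((Finset.Ico b c).filter P).card := by
  classical
  rw [← Finset.Ico_union_Ico_eq_Ico hab hbc, Finset.filter_union, Finset.card_union_of_disjoint]
  exact Finset.disjoint_filter_filter (Finset.Ico_disjoint_Ico_consecutive a b c)

theorem block_lower (hs : ∀ j, ¬ A (j + 1) → s (j + 1) = s j + 1) {n c : ℕ} (hc : c ≤ n)
    (hn : 0 < n) (o : ℝ) (P : ℕ → Prop) [DecidablePred P]
    (hP : ∀ j, (∃ k : ℤ, o ≤ s j - n * k ∧ s j - n * k ≤ o + c) → P j) (a B : ℕ) :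
    c * B ≤ ((Finset.Ico a (a + n * B)).filter P).card +
      c * ((Finset.Ico a (a + n * B)).filter A).card := by
  induction B with
  | zero => simp
  | succ B ih =>
    have h1 := block_lower_one hs hc hn o P hP (a + n * B)
    have h2 : a + n * (B + 1) = a + n * B + n := by ring
    rw [h2, filter_Ico_split P (Nat.le_add_right a (n * B)) (Nat.le_add_right _ n),
      filter_Ico_split A (Nat.le_add_right a (n * B)) (Nat.le_add_right _ n)]
    linarith

theorem block_upper (hs : ∀ j, ¬ A (j + 1) → s (j + 1) = s j + 1) {n c : ℕ} (o ℓ : ℝ)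
    (hℓ : ℓ ≤ c + 1) (Q : ℕ → Prop) [DecidablePred Q]
    (hQ : ∀ j, Q j → ∃ k : ℤ, o < s j - n * k ∧ s j - n * k < o + ℓ) (a B : ℕ) :
    ((Finset.Ico a (a + n * B)).filter Q).card ≤
      (c + 1) * B + n * ((Finset.Ico a (a + n * B)).filter A).card := by
  induction B with
  | zero => simp
  | succ B ih =>
    have h1 := block_upper_one hs o ℓ hℓ Q hQ (a + n * B)
    have h2 : a + n * (B + 1) = a + n * B + n := by ring
    rw [h2, filter_Ico_split Q (Nat.le_add_right a (n * B)) (Nat.le_add_right _ n),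
      filter_Ico_split A (Nat.le_add_right a (n * B)) (Nat.le_add_right _ n)]
    linarith

end Blocks

end

end Vale.Agent.P093
end
end
end

section

section

section

/-!
The star homomorphism from a generated C*-algebra onto the concrete crossed product.
-/

open Filter Topology Set
open scoped ComplexOrder

set_option linter.unusedSectionVars false

namespace Vale.Agent.P093

section GLam

variable {X : Type*} [TopologicalSpace X] [CompactSpace X] [T2Space X] {h : X ≃ₜ X}
  {A : Type*} [CStarAlgebra A] {π : C(X, ℂ) →⋆ₐ[ℂ] A} {u : A}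

/-- type of closed pairs -/
def PairC (h : X ≃ₜ X) (π : C(X, ℂ) →⋆ₐ[ℂ] A) (u : A) : Type _ := pairAlgC h π u

noncomputable instance : CStarAlgebra (PairC h π u) :=
  StarSubalgebra.cstarAlgebra (pairAlgC h π u)
    (h_closed := StarSubalgebra.isClosed_topologicalClosure _)

/-- the underlying pair -/
noncomputable def PairC.val (b : PairC h π u) : A × OpX X := Subtype.val b

/-- construct a pair -/
def PairC.mk (b : A × OpX X) (hb : b ∈ pairAlgC h π u) : PairC h π u :=
  (⟨b, hb⟩ : pairAlgC h π u)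

/-- first projection -/
noncomputable def fstHom (h : X ≃ₜ X) (π : C(X, ℂ) →⋆ₐ[ℂ] A) (u : A) : PairC h π u →⋆ₐ[ℂ] A where
  toFun b := b.val.1
  map_one' := rfl
  map_mul' _ _ := rfl
  map_zero' := rfl
  map_add' _ _ := rfl
  commutes' _ := rfl
  map_star' _ := rfl

/-- second projection -/
noncomputable def sndHom (h : X ≃ₜ X) (π : C(X, ℂ) →⋆ₐ[ℂ] A) (u : A) :
    PairC h π u →⋆ₐ[ℂ] OpX X where
  toFun b := b.val.2
  map_one' := rfl
  map_mul' _ _ := rfl
  map_zero' := rfl
  map_add' _ _ := rfl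
  commutes' _ := rfl
  map_star' _ := rfl

theorem fstHom_injective (hfree : ∀ (k : ℤ) (x : X), k ≠ 0 → (h ^ k) x ≠ x)
    (hπ : Function.Injective π) (hu1 : star u * u = 1) (hu2 : u * star u = 1)
    (hcov : ∀ f : C(X, ℂ), u * π f * star u = π (f.comp (h.symm : C(X, X)))) :
    Function.Injective (fstHom h π u) := by
  rw [injective_iff_map_eq_zero]
  intro b hb
  have h2 := snd_eq_zero hfree hπ hu1 hu2 hcov b.2 hb
  apply Subtype.ext
  exact Prod.ext hb h2

theorem fstHom_surjective (hfree : ∀ (k : ℤ) (x : X), k ≠ 0 → (h ^ k) x ≠ x)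
    (hπ : Function.Injective π) (hu1 : star u * u = 1) (hu2 : u * star u = 1)
    (hcov : ∀ f : C(X, ℂ), u * π f * star u = π (f.comp (h.symm : C(X, X))))
    (hd : Dense (StarAlgebra.adjoin ℂ (Set.range π ∪ {u}) : Set A)) :
    Function.Surjective (fstHom h π u) := by
  have hinj := fstHom_injective hfree hπ hu1 hu2 hcov
  have hiso : Isometry (fstHom h π u) := by
    refine AddMonoidHomClass.isometry_of_norm _ fun b => ?_
    exact NonUnitalStarAlgHom.norm_map (fstHom h π u) hinj b
  have hcl : IsClosed (Set.range (fstHom h π u)) := hiso.isClosedEmbedding.isClosed_range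
  have hsub : (StarAlgebra.adjoin ℂ (Set.range π ∪ {u}) : StarSubalgebra ℂ A) ≤
      (fstHom h π u).range := by
    refine StarAlgebra.adjoin_le ?_
    rintro a (⟨f, rfl⟩ | ha)
    · exact ⟨(⟨(π f, multOp h f), pair_mem_closure f⟩ : pairAlgC h π u), rfl⟩
    · rw [Set.mem_singleton_iff] at ha
      subst ha
      exact ⟨(⟨(a, shiftOp X), pair_u_mem_closure⟩ : pairAlgC h π a), rfl⟩
  have hall : closure (StarAlgebra.adjoin ℂ (Set.range π ∪ {u}) : Set A) ⊆
      Set.range (fstHom h π u) := closure_minimal (fun a ha => hsub ha) hcl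
  rw [hd.closure_eq] at hall
  intro a
  exact hall (mem_univ a)

/-- **The comparison homomorphism.** -/
theorem exists_lam (hfree : ∀ (k : ℤ) (x : X), k ≠ 0 → (h ^ k) x ≠ x)
    (hπ : Function.Injective π) (hu1 : star u * u = 1) (hu2 : u * star u = 1)
    (hcov : ∀ f : C(X, ℂ), u * π f * star u = π (f.comp (h.symm : C(X, X))))
    (hd : Dense (StarAlgebra.adjoin ℂ (Set.range π ∪ {u}) : Set A)) :
    ∃ Λ : A →⋆ₐ[ℂ] CrossedProduct h, (∀ f, Λ (π f) = piHom h f) ∧ Λ u = uElt h := by
  have hbij : Function.Bijective (fstHom h π u) :=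
    ⟨fstHom_injective hfree hπ hu1 hu2 hcov, fstHom_surjective hfree hπ hu1 hu2 hcov hd⟩
  let e : PairC h π u ≃⋆ₐ[ℂ] A := StarAlgEquiv.ofBijective (fstHom h π u) hbij
  have hmem : ∀ b ∈ pairAlgC h π u, b.2 ∈ crossedProductAlg h := by
    intro b hb
    have hcl : IsClosed {b : A × OpX X | b.2 ∈ (crossedProductAlg h : Set (OpX X))} :=
      (StarSubalgebra.isClosed_topologicalClosure _).preimage continuous_snd
    have hsub : ((pairAlg h π u : StarSubalgebra ℂ (A × OpX X)) : Set (A × OpX X)) ⊆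
        {b : A × OpX X | b.2 ∈ (crossedProductAlg h : Set (OpX X))} := by
      have h1 : pairAlg h π u ≤ (crossedProductAlg h).comap (StarAlgHom.snd ℂ A (OpX X)) := by
        refine StarAlgebra.adjoin_le ?_
        rintro a (⟨f, rfl⟩ | ha)
        · exact multOp_mem h f
        · rw [Set.mem_singleton_iff] at ha
          subst ha
          exact shiftOp_mem h
      exact fun a ha => h1 ha
    have hb' : b ∈ closure ((pairAlg h π u : StarSubalgebra ℂ (A × OpX X)) : Set (A × OpX X)) := by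
      have h2 : b ∈ (pairAlgC h π u : Set (A × OpX X)) := hb
      unfold pairAlgC at h2
      rwa [StarSubalgebra.topologicalClosure_coe] at h2
    exact closure_minimal hsub hcl hb'
  have hmem' : ∀ b : PairC h π u, sndHom h π u b ∈ crossedProductAlg h := fun b => hmem _ b.2
  let s : PairC h π u →⋆ₐ[ℂ] CrossedProduct h :=
    { toFun := fun b => (⟨sndHom h π u b, hmem' b⟩ : crossedProductAlg h)
      map_one' := rfl
      map_mul' := fun _ _ => rfl
      map_zero' := rfl
      map_add' := fun _ _ => rfl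
      commutes' := fun _ => rfl
      map_star' := fun _ => rfl }
  refine ⟨s.comp (e.symm : A →⋆ₐ[ℂ] PairC h π u), fun f => ?_, ?_⟩
  · have h1 : e.symm (π f) = PairC.mk (π f, multOp h f) (pair_mem_closure f) := by
      refine (EquivLike.injective e) ?_
      exact StarAlgEquiv.apply_symm_apply e _
    change s (e.symm (π f)) = _
    rw [h1]
    rfl
  · have h1 : e.symm u = PairC.mk (u, shiftOp X) pair_u_mem_closure := by
      refine (EquivLike.injective e) ?_
      exact StarAlgEquiv.apply_symm_apply e _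
    change s (e.symm u) = _
    rw [h1]
    rfl

end GLam

end Vale.Agent.P093
end
end
end

section

section

section

/-!
The criterion for an arbitrary C*-algebra generated by a covariant pair.
-/

open Filter Topology Set
open scoped ENNReal ComplexOrder
set_option linter.unusedSectionVars false
namespace Vale.Agent.P093

variable {X : Type*} [TopologicalSpace X] [CompactSpace X] [T2Space X]
  {A : Type*} [CStarAlgebra A] [PartialOrder A] [StarOrderedRing A]

set_option backward.isDefEq.respectTransparency false in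
theorem cuntzLE_map {h : X ≃ₜ X} {π : C(X, ℂ) →⋆ₐ[ℂ] A} (Λ : A →⋆ₐ[ℂ] CrossedProduct h)
    (hΛ : ∀ f, Λ (π f) = piHom h f) {m n : ℕ} (g : Fin n → C(X, ℂ))
    (β : Fin m → Fin m → C(X, ℂ)) (hle : CuntzLE (diagM π g) (fullM π β)) :
    CuntzLE (diagMat h g) (fullMat h β) := by
  obtain ⟨x, hx⟩ := hle
  have hcont : Continuous Λ := by
    exact map_continuous Λ
  refine ⟨fun k => CStarMatrix.ofMatrix fun i l => Λ (x k i l), ?_⟩
  have hx' : ∀ i l, Tendsto (fun k => ((x k).conjTranspose * fullM π β * x k) i l) atTop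
      (𝓝 (diagM π g i l)) := by
    intro i l
    exact ((continuous_apply_apply i l).tendsto _).comp hx
  have hent : ∀ k i l, ((CStarMatrix.ofMatrix fun i l => Λ (x k i l) :
      CStarMatrix (Fin m) (Fin n) (CrossedProduct h)).conjTranspose * fullMat h β *
      (CStarMatrix.ofMatrix fun i l => Λ (x k i l))) i l =
      Λ (((x k).conjTranspose * fullM π β * x k) i l) := by
    intro k i l
    rw [mul_entry]
    have h1 : ((x k).conjTranspose * fullM π β * x k) i l =
      ∑ κ', (∑ κ, star (x k κ i) * π (β κ κ')) * x k κ' l := rfl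
    rw [h1, sum_swap_aux (fun κ => star (x k κ i)) (fun κ κ' => π (β κ κ')) (fun κ' => x k κ' l),
      map_sum]
    refine Finset.sum_congr rfl fun κ _ => ?_
    rw [map_sum]
    refine Finset.sum_congr rfl fun κ' _ => ?_
    rw [map_mul, map_mul, map_star, hΛ]
    rfl
  have hdiag : ∀ i l, diagMat h g i l = Λ (diagM π g i l) := by
    intro i l
    change (if i = l then piHom h (g l) else 0) = Λ (if i = l then π (g l) else 0)
    split_ifs
    · exact (hΛ _).symm
    · exact (map_zero Λ).symm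
  refine tendsto_pi_nhds.2 fun i => tendsto_pi_nhds.2 fun l => ?_
  have h2 : Tendsto (fun k => Λ (((x k).conjTranspose * fullM π β * x k) i l)) atTop
      (𝓝 (Λ (diagM π g i l))) := (hcont.tendsto _).comp (hx' i l)
  rw [← hdiag] at h2
  refine h2.congr fun k => ?_
  exact (hent k i l).symm

end Vale.Agent.P093
end
end
end
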