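import Vale.Agent.P093.MathlibUsed
import Vale.Agent.P093.MeanDim
import Vale.Agent.P093.Comparison
import Vale.Agent.P093.CoverDimDef
import Vale.Agent.P093.FinalDefs
import Vale.Agent.P093.Bdl.B2

set_option linter.all false

section

section

section

/-!
Calculus of functions with values in a normed algebra generated by anticommuting elements:
a substitute for differential forms on the torus.
-/

open MeasureTheory Set
open scoped ContDiff

namespace Vale.Agent.P093

noncomputable section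

section Basic

variable {ι : Type*} [Fintype ι] [DecidableEq ι]
variable {F : Type*} [NormedAddCommGroup F] [NormedSpace ℝ F]

/-- partial derivative -/
def pd (i : ι) (f : (ι → ℝ) → F) (x : ι → ℝ) : F := fderiv ℝ f x (Pi.single i 1)

/-- periodic with respect to all unit vectors -/
def Per (f : (ι → ℝ) → F) : Prop := ∀ i x, f (x + Pi.single i 1) = f x

theorem pd_contDiff {f : (ι → ℝ) → F} {n : ℕ∞} (hf : ContDiff ℝ (n + 1) f) (i : ι) :
    ContDiff ℝ n (pd i f) := by
  have h : ContDiff ℝ n (fderiv ℝ f) := hf.fderiv_right le_rfl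
  exact h.clm_apply contDiff_const

theorem pd_per {f : (ι → ℝ) → F} (hf : Per f) (i : ι) : Per (pd i f) := by
  intro j x
  unfold pd
  have h : (fun y => f (y + Pi.single j 1)) = f := funext fun y => hf j y
  have h2 : fderiv ℝ (fun y => f (y + Pi.single j 1)) x = fderiv ℝ f (x + Pi.single j 1) :=
    fderiv_comp_add_right _
  rw [← h2, h]

end Basic

section Stokes

variable {n : ℕ} {F : Type*} [NormedAddCommGroup F] [NormedSpace ℝ F]

theorem integral_pd_eq_zero {f : (Fin (n + 1) → ℝ) → F} (hf : ContDiff ℝ 1 f) (hp : Per f)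
    (i : Fin (n + 1)) : ∫ x in Icc (0 : Fin (n + 1) → ℝ) 1, pd i f x = 0 := by
  classical
  have hle : (0 : Fin (n + 1) → ℝ) ≤ 1 := fun _ => zero_le_one
  have key := integral_divergence_of_hasFDerivAt_off_countable' (E := F) (0 : Fin (n + 1) → ℝ) 1 hle
    (fun j => if j = i then f else 0)
    (fun j x => if j = i then fderiv ℝ f x else 0) ∅ countable_empty
    (by
      intro j
      by_cases h : j = i
      · simp only [h, if_true]; exact hf.continuous.continuousOn
      · simp only [h, if_false]; exact continuousOn_const)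
    (by
      intro x _ j
      by_cases h : j = i
      · simp only [h, if_true]
        exact (hf.differentiable one_ne_zero x).hasFDerivAt
      · simp only [h, if_false]
        exact hasFDerivAt_const _ _)
    (by
      have hc : Continuous fun x => fderiv ℝ f x (Pi.single i 1) :=
        (hf.continuous_fderiv one_ne_zero).clm_apply continuous_const
      have : (fun x : Fin (n + 1) → ℝ => ∑ j : Fin (n + 1),
          (if j = i then fderiv ℝ f x else 0) (Pi.single j 1)) =
          fun x => fderiv ℝ f x (Pi.single i 1) := by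
        funext x
        rw [Finset.sum_eq_single i]
        · simp
        · intro j _ hj; simp [hj]
        · simp
      rw [this]
      exact hc.continuousOn.integrableOn_compact isCompact_Icc)
  have lhs : (∫ x in Icc (0 : Fin (n + 1) → ℝ) 1, ∑ j : Fin (n + 1),
      (if j = i then fderiv ℝ f x else 0) (Pi.single j 1)) =
      ∫ x in Icc (0 : Fin (n + 1) → ℝ) 1, pd i f x := by
    congr 1
    funext x
    rw [Finset.sum_eq_single i]
    · simp only [↓reduceIte, pd]
    · intro j _ hj; simp [hj]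
    · simp
  rw [← lhs, key]
  apply Finset.sum_eq_zero
  intro j _
  by_cases h : j = i
  · subst h
    simp only [if_true]
    rw [sub_eq_zero]
    congr 1
    funext x
    have := hp j (j.insertNth 0 x)
    have e1 : (j.insertNth (0 : ℝ) x : Fin (n + 1) → ℝ) + Pi.single j 1 =
        j.insertNth ((1 : Fin (n + 1) → ℝ) j) x := by
      ext k
      refine Fin.succAboveCases j ?_ ?_ k
      · simp
      · intro l; simp
    rw [e1] at this
    simpa using this
  · simp only [Pi.zero_comp, Pi.one_comp, h, ↓reduceIte, Pi.zero_apply, integral_zero, sub_self]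

end Stokes

section Alg

variable {ι : Type*} [Fintype ι] [DecidableEq ι]
variable {Λ : Type*} [NormedRing Λ] [NormedAlgebra ℝ Λ]

/-- exterior derivative -/
def dd (e : ι → Λ) (f : (ι → ℝ) → Λ) (x : ι → ℝ) : Λ := ∑ i, e i * pd i f x

/-- smooth, periodic, even, closed -/
structure Good (e : ι → Λ) (f : (ι → ℝ) → Λ) : Prop where
  smooth : ContDiff ℝ 1 f
  per : Per f
  even : ∀ i x, f x * e i = e i * f x
  closed : ∀ x, dd e f x = 0

/-- smooth, periodic, odd -/
structure Odd1 (e : ι → Λ) (f : (ι → ℝ) → Λ) : Prop where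
  smooth : ContDiff ℝ 2 f
  per : Per f
  odd : ∀ i x, f x * e i = - (e i * f x)

theorem pd_mul {f g : (ι → ℝ) → Λ} {x : ι → ℝ} (i : ι) (hf : DifferentiableAt ℝ f x)
    (hg : DifferentiableAt ℝ g x) :
    pd i (fun y => f y * g y) x = pd i f x * g x + f x * pd i g x := by
  unfold pd
  rw [fderiv_fun_mul' hf hg]
  simp only [add_apply, smul_apply, smul_eq_mul, MulOpposite.smul_eq_mul_unop, MulOpposite.unop_op, add_comm]

theorem pd_const (i : ι) (c : Λ) (x : ι → ℝ) : pd i (fun _ => c) x = 0 := by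
  simp only [pd, fderiv_fun_const, Pi.zero_apply, zero_apply]

theorem pd_add {f g : (ι → ℝ) → Λ} {x : ι → ℝ} (i : ι) (hf : DifferentiableAt ℝ f x)
    (hg : DifferentiableAt ℝ g x) : pd i (fun y => f y + g y) x = pd i f x + pd i g x := by
  unfold pd
  rw [fderiv_fun_add hf hg]; rfl

theorem pd_sub {f g : (ι → ℝ) → Λ} {x : ι → ℝ} (i : ι) (hf : DifferentiableAt ℝ f x)
    (hg : DifferentiableAt ℝ g x) : pd i (fun y => f y - g y) x = pd i f x - pd i g x := by
  unfold pd
  rw [fderiv_fun_sub hf hg]; rfl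

theorem dd_mul_good {e : ι → Λ} {f g : (ι → ℝ) → Λ} (hf : Good e f) (hg : Good e g) :
    Good e (fun x => f x * g x) where
  smooth := hf.smooth.mul hg.smooth
  per := fun i x => by simp only [hf.per i x, hg.per i x]
  even := fun i x => by rw [mul_assoc, hg.even, ← mul_assoc, hf.even, mul_assoc]
  closed := fun x => by
    have h1 := hf.closed x
    have h2 := hg.closed x
    unfold dd at *
    have : ∀ i, e i * pd i (fun x => f x * g x) x =
        (e i * pd i f x) * g x + f x * (e i * pd i g x) := by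
      intro i
      rw [pd_mul i (hf.smooth.differentiable one_ne_zero x)
        (hg.smooth.differentiable one_ne_zero x), mul_add]
      rw [← mul_assoc, ← mul_assoc (e i) (f x), ← hf.even i x, mul_assoc (f x)]
    simp only [this]
    rw [Finset.sum_add_distrib, ← Finset.sum_mul, ← Finset.mul_sum, h1, h2]
    simp

theorem good_const {e : ι → Λ} (c : Λ) (hc : ∀ i, c * e i = e i * c) : Good e (fun _ => c) where
  smooth := contDiff_const
  per := fun _ _ => rfl
  even := fun i _ => hc i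
  closed := fun x => by simp only [dd, pd_const, mul_zero, Finset.sum_const_zero]

theorem good_sub {e : ι → Λ} {f g : (ι → ℝ) → Λ} (hf : Good e f) (hg : Good e g) :
    Good e (fun x => f x - g x) where
  smooth := hf.smooth.sub hg.smooth
  per := fun i x => by simp only [hf.per i x, hg.per i x]
  even := fun i x => by rw [sub_mul, mul_sub, hf.even, hg.even]
  closed := fun x => by
    have h1 := hf.closed x
    have h2 := hg.closed x
    unfold dd at *
    have : ∀ i, e i * pd i (fun x => f x - g x) x = (e i * pd i f x) - (e i * pd i g x) := by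
      intro i
      rw [pd_sub i (hf.smooth.differentiable one_ne_zero x)
        (hg.smooth.differentiable one_ne_zero x), mul_sub]
    simp only [this]
    rw [Finset.sum_sub_distrib, h1, h2, sub_zero]

/-- the derivative of an odd function is odd -/
theorem pd_odd {e : ι → Λ} {f : (ι → ℝ) → Λ} (hf : Differentiable ℝ f)
    (ho : ∀ i x, f x * e i = - (e i * f x)) (j i : ι) (x : ι → ℝ) :
    pd j f x * e i = - (e i * pd j f x) := by
  have h0 : (fun y => f y * e i + e i * f y) = fun _ => (0 : Λ) := by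
    funext y; rw [ho i y]; simp
  have h1 : pd j (fun y => f y * e i + e i * f y) x = 0 := by
    rw [h0]; exact pd_const _ _ _
  rw [pd_add j ((hf x).mul_const _) ((hf x).const_mul _),
    pd_mul j (hf x) (differentiableAt_const _),
    pd_mul j (differentiableAt_const _) (hf x), pd_const] at h1
  simp only [mul_zero, add_zero, zero_mul, zero_add] at h1
  exact eq_neg_of_add_eq_zero_left h1

theorem pd_comm {f : (ι → ℝ) → Λ} (hf : ContDiff ℝ 2 f) (i j : ι) (x : ι → ℝ) :
    pd i (pd j f) x = pd j (pd i f) x := by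
  have hs : IsSymmSndFDerivAt ℝ f x := by
    apply hf.contDiffAt.isSymmSndFDerivAt
    simp
  have hd : DifferentiableAt ℝ (fderiv ℝ f) x := by
    have : ContDiff ℝ 1 (fderiv ℝ f) := hf.fderiv_right (by norm_num)
    exact this.differentiable one_ne_zero x
  have key : ∀ a b : ι, pd a (pd b f) x =
      fderiv ℝ (fderiv ℝ f) x (Pi.single a 1) (Pi.single b 1) := by
    intro a b
    unfold pd
    rw [fderiv_clm_apply hd (differentiableAt_const _)]
    simp only [fderiv_fun_const, Pi.zero_apply, ContinuousLinearMap.comp_zero, zero_add, ContinuousLinearMap.flip_apply]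
  rw [key, key]
  exact hs.eq _ _

theorem good_dd {e : ι → Λ} (he : ∀ i j, e i * e j = - (e j * e i)) {f : (ι → ℝ) → Λ}
    (hf : Odd1 e f) : Good e (dd e f) where
  smooth := by
    unfold dd
    apply ContDiff.sum
    intro i _
    exact contDiff_const.mul (pd_contDiff (n := 1) (by simpa using! hf.smooth) i)
  per := fun i x => by
    unfold dd
    apply Finset.sum_congr rfl
    intro j _
    rw [pd_per hf.per j i x]
  even := fun i x => by
    unfold dd
    rw [Finset.sum_mul, Finset.mul_sum]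
    apply Finset.sum_congr rfl
    intro j _
    rw [mul_assoc, pd_odd (hf.smooth.differentiable (by norm_num)) hf.odd, mul_neg, ← mul_assoc,
      he j i, ← mul_assoc]
    simp
  closed := fun x => by
    have hsm : ∀ i, ContDiff ℝ 1 (pd i f) := fun i =>
      pd_contDiff (n := 1) (by simpa using! hf.smooth) i
    have h1 : ∀ i, pd i (dd e f) x = ∑ j, e j * pd i (pd j f) x := by
      intro i
      unfold dd
      have : pd i (fun x => ∑ j, e j * pd j f x) x = ∑ j, pd i (fun x => e j * pd j f x) x := by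
        unfold pd
        rw [fderiv_fun_sum]
        · simp only [sum_apply]
        · intro j _
          exact ((hsm j).differentiable one_ne_zero x).const_mul _
      rw [this]
      apply Finset.sum_congr rfl
      intro j _
      rw [pd_mul i (differentiableAt_const _) ((hsm j).differentiable one_ne_zero x), pd_const]
      simp
    unfold dd at h1 ⊢
    simp only [h1]
    set S := ∑ i, e i * ∑ j, e j * pd i (pd j f) x with hS
    have h2 : S = ∑ i, ∑ j, e i * e j * pd i (pd j f) x := by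
      simp only [hS, Finset.mul_sum, mul_assoc]
    have h3 : S = - S := by
      conv_lhs => rw [h2, Finset.sum_comm]
      rw [h2, ← Finset.sum_neg_distrib]
      apply Finset.sum_congr rfl
      intro i _
      rw [← Finset.sum_neg_distrib]
      apply Finset.sum_congr rfl
      intro j _
      rw [he j i, pd_comm hf.smooth j i x]
      simp
    have h4 : (2 : ℝ) • S = 0 := by
      rw [two_smul]
      nth_rewrite 1 [h3]
      simp
    rcases smul_eq_zero.mp h4 with h | h
    · norm_num at h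
    · exact h

end Alg

section Main

variable {n : ℕ} {Λ : Type*} [NormedRing Λ] [NormedAlgebra ℝ Λ] [CompleteSpace Λ]

theorem integral_dd_mul {e : Fin (n + 1) → Λ}
    {f g : (Fin (n + 1) → ℝ) → Λ} (hf : Odd1 e f) (hg : Good e g) :
    ∫ x in Icc (0 : Fin (n + 1) → ℝ) 1, dd e f x * g x = 0 := by
  have h1 : ∀ x, dd e f x * g x = ∑ i, e i * pd i (fun y => f y * g y) x := by
    intro x
    have hc := hg.closed x
    unfold dd at *
    have : ∀ i, e i * pd i (fun y => f y * g y) x =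
        (e i * pd i f x) * g x - f x * (e i * pd i g x) := by
      intro i
      rw [pd_mul i (hf.smooth.differentiable (by norm_num) x)
        (hg.smooth.differentiable one_ne_zero x), mul_add, ← mul_assoc, ← mul_assoc,
        ← mul_assoc, hf.odd i x]
      simp only [neg_mul, sub_neg_eq_add]
    simp only [this]
    rw [Finset.sum_sub_distrib, ← Finset.mul_sum, hc, ← Finset.sum_mul]
    simp only [mul_zero, sub_zero]
  simp only [h1]
  have hsm : ContDiff ℝ 1 (fun y => f y * g y) := (hf.smooth.of_le (by norm_num)).mul hg.smooth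
  have hper : Per (fun y => f y * g y) := fun i x => by simp only [hf.per i x, hg.per i x]
  have hcont : ∀ i, Continuous (pd i (fun y => f y * g y)) := fun i =>
    (pd_contDiff (n := 0) (by simpa using! hsm) i).continuous
  rw [integral_finsetSum]
  · apply Finset.sum_eq_zero
    intro i _
    have : ∫ x in Icc (0 : Fin (n + 1) → ℝ) 1, e i * pd i (fun y => f y * g y) x =
        e i * ∫ x in Icc (0 : Fin (n + 1) → ℝ) 1, pd i (fun y => f y * g y) x := by
      have hint : IntegrableOn (pd i (fun y => f y * g y)) (Icc (0 : Fin (n + 1) → ℝ) 1) :=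
        (hcont i).continuousOn.integrableOn_compact isCompact_Icc
      exact (ContinuousLinearMap.integral_comp_comm (ContinuousLinearMap.mul ℝ Λ (e i)) hint)
    rw [this, integral_pd_eq_zero hsm hper i, mul_zero]
  · intro i _
    exact ((continuous_const.mul (hcont i)).continuousOn.integrableOn_compact isCompact_Icc)

/-- Stokes: the integral of a product of closed even forms depends only on the constant parts. -/
theorem integral_prod_eq {e : Fin (n + 1) → Λ} (he : ∀ i j, e i * e j = - (e j * e i)) :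
    ∀ (L : List (Λ × ((Fin (n + 1) → ℝ) → Λ))), (∀ p ∈ L, (∀ i, p.1 * e i = e i * p.1) ∧
      Odd1 e p.2) →
    Good e (fun x => (L.map fun p => p.1 - dd e p.2 x).prod) ∧
    ∫ x in Icc (0 : Fin (n + 1) → ℝ) 1, (L.map fun p => p.1 - dd e p.2 x).prod =
      (L.map Prod.fst).prod
  | [] => fun _ => by
    refine ⟨?_, ?_⟩
    · simpa using! good_const (e := e) 1 (by simp)
    · simp only [List.map_nil, List.prod_nil, integral_const, Measure.real, MeasurableSet.univ, Measure.restrict_apply, univ_inter, Real.volume_Icc_pi, Pi.one_apply, Pi.zero_apply, sub_zero, ENNReal.ofReal_one, Finset.prod_const_one, ENNReal.toReal_one, one_smul]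
  | (p :: L) => fun h => by
    have hp := h p (by simp)
    have ih := integral_prod_eq he L (fun q hq => h q (by simp [hq]))
    have g1 : Good e (fun x => p.1 - dd e p.2 x) :=
      good_sub (good_const p.1 hp.1) (good_dd he hp.2)
    refine ⟨?_, ?_⟩
    · simpa using! dd_mul_good g1 ih.1
    · simp only [List.map_cons, List.prod_cons]
      have hc1 : Continuous (fun x => (L.map fun p => p.1 - dd e p.2 x).prod) :=
        ih.1.smooth.continuous
      have hc2 : Continuous (dd e p.2) := (good_dd he hp.2).smooth.continuous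
      simp only [sub_mul]
      rw [integral_sub]
      · rw [integral_dd_mul hp.2 ih.1, sub_zero]
        have : ∫ x in Icc (0 : Fin (n + 1) → ℝ) 1,
            p.1 * (L.map fun p => p.1 - dd e p.2 x).prod =
          p.1 * ∫ x in Icc (0 : Fin (n + 1) → ℝ) 1, (L.map fun p => p.1 - dd e p.2 x).prod := by
          exact (ContinuousLinearMap.integral_comp_comm (ContinuousLinearMap.mul ℝ Λ p.1)
            (hc1.continuousOn.integrableOn_compact isCompact_Icc))
        rw [this, ih.2]
      · exact (continuous_const.mul hc1).continuousOn.integrableOn_compact isCompact_Icc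
      · exact (hc2.mul hc1).continuousOn.integrableOn_compact isCompact_Icc

/-- If at every point of the unit cube one of the forms vanishes, the product of constants is 0. -/
theorem prod_const_eq_zero {e : Fin (n + 1) → Λ} (he : ∀ i j, e i * e j = - (e j * e i))
    (L : List (Λ × ((Fin (n + 1) → ℝ) → Λ))) (h : ∀ p ∈ L, (∀ i, p.1 * e i = e i * p.1) ∧
      Odd1 e p.2) (hz : ∀ x ∈ Icc (0 : Fin (n + 1) → ℝ) 1, ∃ p ∈ L, p.1 - dd e p.2 x = 0) :
    (L.map Prod.fst).prod = 0 := by
  rw [← (integral_prod_eq he L h).2]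
  have : ∀ x ∈ Icc (0 : Fin (n + 1) → ℝ) 1, (L.map fun p => p.1 - dd e p.2 x).prod = 0 := by
    intro x hx
    obtain ⟨p, hp, h0⟩ := hz x hx
    obtain ⟨L1, L2, rfl⟩ := List.append_of_mem hp
    simp [h0]
  rw [setIntegral_congr_fun measurableSet_Icc this]
  simp only [integral_zero]

end Main

end

end Vale.Agent.P093
end
end
end

section

section

section

/-!
The connection form attached to a section of a line bundle on the torus.
-/

open MeasureTheory Set
open scoped ContDiff

namespace Vale.Agent.P093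

noncomputable section

section Alg

variable {ι : Type*} [Fintype ι] [DecidableEq ι]
variable {Λ : Type*} [NormedRing Λ] [NormedAlgebra ℝ Λ]

theorem dd_dd {e : ι → Λ} (he : ∀ i j, e i * e j = - (e j * e i)) {f : (ι → ℝ) → Λ}
    (hf : ContDiff ℝ 2 f) (x : ι → ℝ) : dd e (dd e f) x = 0 := by
  have hsm : ∀ i, ContDiff ℝ 1 (pd i f) := fun i =>
    pd_contDiff (n := 1) (by simpa using! hf) i
  have h1 : ∀ i, pd i (dd e f) x = ∑ j, e j * pd i (pd j f) x := by
    intro i
    unfold dd
    have : pd i (fun x => ∑ j, e j * pd j f x) x = ∑ j, pd i (fun x => e j * pd j f x) x := by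
      unfold pd
      rw [fderiv_fun_sum]
      · simp only [sum_apply]
      · intro j _
        exact ((hsm j).differentiable one_ne_zero x).const_mul _
    rw [this]
    apply Finset.sum_congr rfl
    intro j _
    rw [pd_mul i (differentiableAt_const _) ((hsm j).differentiable one_ne_zero x), pd_const]
    simp
  unfold dd at h1 ⊢
  simp only [h1]
  set S := ∑ i, e i * ∑ j, e j * pd i (pd j f) x with hS
  have h2 : S = ∑ i, ∑ j, e i * e j * pd i (pd j f) x := by
    simp only [hS, Finset.mul_sum, mul_assoc]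
  have h3 : S = - S := by
    conv_lhs => rw [h2, Finset.sum_comm]
    rw [h2, ← Finset.sum_neg_distrib]
    apply Finset.sum_congr rfl
    intro i _
    rw [← Finset.sum_neg_distrib]
    apply Finset.sum_congr rfl
    intro j _
    rw [he j i, pd_comm hf j i x]
    simp
  have h4 : (2 : ℝ) • S = 0 := by
    rw [two_smul]
    nth_rewrite 1 [h3]
    simp
  rcases smul_eq_zero.mp h4 with h | h
  · norm_num at h
  · exact h

/-- Leibniz rule for an even function on the left -/
theorem dd_even_mul {e : ι → Λ} {f g : (ι → ℝ) → Λ} {x : ι → ℝ}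
    (hev : ∀ i, f x * e i = e i * f x) (hf : DifferentiableAt ℝ f x)
    (hg : DifferentiableAt ℝ g x) :
    dd e (fun y => f y * g y) x = dd e f x * g x + f x * dd e g x := by
  unfold dd
  have : ∀ i, e i * pd i (fun x => f x * g x) x =
      (e i * pd i f x) * g x + f x * (e i * pd i g x) := by
    intro i
    rw [pd_mul i hf hg, mul_add, ← mul_assoc, ← mul_assoc (e i) (f x), ← hev i, mul_assoc (f x)]
  simp only [this]
  rw [Finset.sum_add_distrib, ← Finset.sum_mul, ← Finset.mul_sum]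

theorem dd_sub {e : ι → Λ} {f g : (ι → ℝ) → Λ} {x : ι → ℝ}
    (hf : DifferentiableAt ℝ f x) (hg : DifferentiableAt ℝ g x) :
    dd e (fun y => f y - g y) x = dd e f x - dd e g x := by
  unfold dd
  rw [← Finset.sum_sub_distrib]
  apply Finset.sum_congr rfl
  intro i _
  rw [pd_sub i hf hg, mul_sub]

theorem dd_const (e : ι → Λ) (c : Λ) (x : ι → ℝ) : dd e (fun _ => c) x = 0 := by
  simp only [dd, pd_const, mul_zero, Finset.sum_const_zero]

theorem dd_congr {e : ι → Λ} {f g : (ι → ℝ) → Λ} {x : ι → ℝ} (h : f =ᶠ[nhds x] g) :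
    dd e f x = dd e g x := by
  unfold dd pd
  rw [h.fderiv_eq]

/-- square of an odd combination with central coefficients vanishes -/
theorem sq_zero {e : ι → Λ} (he : ∀ i j, e i * e j = - (e j * e i)) (c : ι → Λ)
    (hc : ∀ i (a : Λ), c i * a = a * c i) : (∑ i, e i * c i) * (∑ i, e i * c i) = 0 := by
  set S := (∑ i, e i * c i) * (∑ i, e i * c i) with hS
  have h2 : S = ∑ i, ∑ j, e i * e j * (c i * c j) := by
    rw [hS, Finset.sum_mul]
    apply Finset.sum_congr rfl
    intro i _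
    rw [Finset.mul_sum]
    apply Finset.sum_congr rfl
    intro j _
    rw [mul_assoc, ← mul_assoc (c i), hc i (e j)]
    simp only [mul_assoc]
  have h3 : S = - S := by
    conv_lhs => rw [h2, Finset.sum_comm]
    rw [h2, ← Finset.sum_neg_distrib]
    apply Finset.sum_congr rfl
    intro i _
    rw [← Finset.sum_neg_distrib]
    apply Finset.sum_congr rfl
    intro j _
    rw [he j i, hc j]
    simp
  have h4 : (2 : ℝ) • S = 0 := by
    rw [two_smul]
    nth_rewrite 1 [h3]
    simp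
  rcases smul_eq_zero.mp h4 with h | h
  · norm_num at h
  · exact h

end Alg

section Scal

variable {ι : Type*} [Fintype ι] [DecidableEq ι]
variable {Λ : Type*} [NormedRing Λ] [NormedAlgebra ℂ Λ]

/-- scalar function viewed in the algebra -/
def sc (Λ : Type*) [NormedRing Λ] [NormedAlgebra ℂ Λ] (f : (ι → ℝ) → ℂ) (x : ι → ℝ) : Λ :=
  algebraMap ℂ Λ (f x)

omit [Fintype ι] [DecidableEq ι] in
theorem sc_comm (f : (ι → ℝ) → ℂ) (x : ι → ℝ) (a : Λ) : sc Λ f x * a = a * sc Λ f x :=
  Algebra.commutes _ _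

/-- the inclusion of scalars as a continuous real linear map -/
def scL (Λ : Type*) [NormedRing Λ] [NormedAlgebra ℂ Λ] : ℂ →L[ℝ] Λ :=
  (ContinuousLinearMap.restrictScalars ℝ (algebraMapCLM ℂ Λ))

omit [DecidableEq ι] in
theorem sc_contDiff {f : (ι → ℝ) → ℂ} {n : WithTop ℕ∞} (hf : ContDiff ℝ n f) :
    ContDiff ℝ n (sc Λ f) :=
  (scL Λ).contDiff.comp hf

theorem pd_sc_comm {f : (ι → ℝ) → ℂ} (hf : Differentiable ℝ f) (i : ι) (x : ι → ℝ) (a : Λ) :
    pd i (sc Λ f) x * a = a * pd i (sc Λ f) x := by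
  have h : pd i (sc Λ f) x = algebraMap ℂ Λ (fderiv ℝ f x (Pi.single i 1)) := by
    unfold pd
    have := ((scL Λ).hasFDerivAt (x := f x)).comp x (hf x).hasFDerivAt
    have h2 : fderiv ℝ (sc Λ f) x = (scL Λ).comp (fderiv ℝ f x) := this.fderiv
    rw [h2]
    rfl
  rw [h]
  exact Algebra.commutes _ _

/-- data of a smooth section of a line bundle of degree `d` on the torus -/
structure Quasi {m : ℕ} (X Y : Fin m → ι) (d : Fin m → ℤ) (f : (ι → ℝ) → ℂ) : Prop where
  smooth : ContDiff ℝ 3 f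
  qx : ∀ j x, f (x + Pi.single (X j) 1) = f x
  qy : ∀ j x, f (x + Pi.single (Y j) 1) =
    Complex.exp (2 * Real.pi * Complex.I * (d j) * (x (X j))) * f x

/-- coordinate function -/
def coordL (i : ι) : (ι → ℝ) →L[ℝ] ℂ :=
  Complex.ofRealCLM.comp (ContinuousLinearMap.proj i)

omit [Fintype ι] [DecidableEq ι] in
theorem coordL_apply (i : ι) (x : ι → ℝ) : coordL i x = (x i : ℂ) := rfl

/-- connection form -/
def conn {m : ℕ} (X Y : Fin m → ι) (d : Fin m → ℤ) (e : ι → Λ) (x : ι → ℝ) : Λ :=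
  ∑ j, e (X j) * algebraMap ℂ Λ (2 * Real.pi * Complex.I * (d j) * (x (Y j)))

/-- curvature -/
def curv {m : ℕ} (X Y : Fin m → ι) (d : Fin m → ℤ) (e : ι → Λ) : Λ :=
  ∑ j, (e (X j) * e (Y j)) * algebraMap ℂ Λ (2 * Real.pi * Complex.I * (d j))

theorem conn_contDiff {m : ℕ} (X Y : Fin m → ι) (d : Fin m → ℤ) (e : ι → Λ) {n : WithTop ℕ∞} :
    ContDiff ℝ n (conn X Y d e) := by
  unfold conn
  apply ContDiff.sum
  intro j _
  apply contDiff_const.mul
  have h : ContDiff ℝ n (fun x : ι → ℝ => (2 * Real.pi * Complex.I * (d j) * (x (Y j)) : ℂ)) :=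
    contDiff_const.mul (coordL (Y j)).contDiff
  exact (scL Λ).contDiff.comp h

theorem dd_conn {m : ℕ} (X Y : Fin m → ι) (d : Fin m → ℤ) (e : ι → Λ)
    (he : ∀ i j, e i * e j = - (e j * e i)) (x : ι → ℝ) :
    dd e (conn X Y d e) x = - curv X Y d e := by
  have key : ∀ i, pd i (conn X Y d e) x = ∑ j, e (X j) *
      algebraMap ℂ Λ (2 * Real.pi * Complex.I * (d j) * (if Y j = i then 1 else 0)) := by
    intro i
    unfold pd conn
    rw [fderiv_fun_sum]
    · rw [ContinuousLinearMap.sum_apply]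
      apply Finset.sum_congr rfl
      intro j _
      have h1 : HasFDerivAt (fun x : ι → ℝ => (2 * Real.pi * Complex.I * (d j) * (x (Y j)) : ℂ))
          (((2 * Real.pi * Complex.I * (d j) : ℂ)) • coordL (Y j)) x := by
        exact ((coordL (Y j)).hasFDerivAt (x := x)).const_mul _
      have h2 := (((scL Λ).hasFDerivAt (x := _)).comp x h1).const_mul (e (X j))
      have h3 : (fun x : ι → ℝ => e (X j) *
          algebraMap ℂ Λ (2 * Real.pi * Complex.I * (d j) * (x (Y j)))) =
          fun x => e (X j) * ((scL Λ) ∘ (fun x : ι → ℝ =>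
            (2 * Real.pi * Complex.I * (d j) * (x (Y j)) : ℂ))) x := rfl
      rw [h3, h2.fderiv]
      simp only [ContinuousLinearMap.smul_apply, ContinuousLinearMap.comp_apply, smul_eq_mul]
      congr 1
      change algebraMap ℂ Λ _ = _
      congr 1
      simp only [ContinuousLinearMap.smul_apply, smul_eq_mul, coordL_apply]
      by_cases h : Y j = i
      · subst h; simp
      · simp [h, Pi.single_apply]
    · intro j _
      have h : ContDiff ℝ 1 (fun x : ι → ℝ => (2 * Real.pi * Complex.I * (d j) * (x (Y j)) : ℂ)) :=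
        contDiff_const.mul (coordL (Y j)).contDiff
      exact ((((scL Λ).contDiff.comp h).differentiable one_ne_zero) x).const_mul _
  unfold dd curv
  simp only [key, Finset.mul_sum]
  rw [Finset.sum_comm, ← Finset.sum_neg_distrib]
  apply Finset.sum_congr rfl
  intro j _
  rw [Finset.sum_eq_single (Y j)]
  · rw [← mul_assoc, he (Y j) (X j)]
    simp
  · intro b _ hb
    simp [hb.symm]
  · simp only [Finset.mem_univ, not_true_eq_false, ↓reduceIte, mul_one, map_mul, map_intCast, IsEmpty.forall_iff]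

/-- the global one-form -/
def eta {m : ℕ} (X Y : Fin m → ι) (d : Fin m → ℤ) (e : ι → Λ) (f g : (ι → ℝ) → ℂ)
    (x : ι → ℝ) : Λ :=
  sc Λ g x * (dd e (sc Λ f) x - sc Λ f x * conn X Y d e x)

theorem dd_eta {m : ℕ} (X Y : Fin m → ι) (d : Fin m → ℤ) (e : ι → Λ)
    (he : ∀ i j, e i * e j = - (e j * e i)) {f g : (ι → ℝ) → ℂ} (hf : ContDiff ℝ 3 f)
    (hg : ContDiff ℝ 2 g) {x : ι → ℝ} (h : ∀ᶠ y in nhds x, g y * f y = 1) :
    dd e (eta X Y d e f g) x = curv X Y d e := by
  have hF : ContDiff ℝ 3 (sc Λ f) := sc_contDiff hf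
  have hG : ContDiff ℝ 2 (sc Λ g) := sc_contDiff hg
  have hdF : ContDiff ℝ 2 (dd e (sc Λ f)) := by
    unfold dd
    apply ContDiff.sum
    intro i _
    exact contDiff_const.mul (pd_contDiff (n := 2) (by exact hF) i)
  have h1 : eta X Y d e f g =ᶠ[nhds x] fun y =>
      sc Λ g y * dd e (sc Λ f) y - conn X Y d e y := by
    filter_upwards [h] with y hy
    unfold eta
    rw [mul_sub, ← mul_assoc]
    congr 1
    have : sc Λ g y * sc Λ f y = 1 := by
      unfold sc; rw [← map_mul, hy, map_one]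
    rw [this, one_mul]
  rw [dd_congr h1, dd_sub, dd_even_mul (fun i => sc_comm _ _ _), dd_dd he (hF.of_le (by norm_num)),
    dd_conn X Y d e he, mul_zero, add_zero, sub_neg_eq_add]
  · -- show dd g * dd f = 0
    have hgf : sc Λ g x * sc Λ f x = 1 := by
      have := h.self_of_nhds
      unfold sc; rw [← map_mul, this, map_one]
    have h2 : (fun y => sc Λ g y * sc Λ f y) =ᶠ[nhds x] fun _ => (1 : Λ) := by
      filter_upwards [h] with y hy
      unfold sc; rw [← map_mul, hy, map_one]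
    have h3 : dd e (sc Λ g) x * sc Λ f x + sc Λ g x * dd e (sc Λ f) x = 0 := by
      rw [← dd_even_mul (fun i => sc_comm _ _ _) (hG.differentiable (by norm_num) x)
        (hF.differentiable (by norm_num) x), dd_congr h2, dd_const]
    have h4 : dd e (sc Λ f) x * dd e (sc Λ f) x = 0 := by
      have := sq_zero he (fun i => pd i (sc Λ f) x)
        (fun i a => pd_sc_comm (hf.differentiable (by norm_num)) i x a)
      simpa only [dd] using this
    have h5 : dd e (sc Λ g) x = - (sc Λ g x * (sc Λ g x * dd e (sc Λ f) x)) := by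
      calc dd e (sc Λ g) x = dd e (sc Λ g) x * (sc Λ f x * sc Λ g x) := by
            rw [sc_comm f x, hgf, mul_one]
        _ = (dd e (sc Λ g) x * sc Λ f x) * sc Λ g x := by rw [mul_assoc]
        _ = (- (sc Λ g x * dd e (sc Λ f) x)) * sc Λ g x := by
            rw [eq_neg_of_add_eq_zero_left h3]
        _ = _ := by rw [neg_mul, ← sc_comm g x (sc Λ g x * dd e (sc Λ f) x)]
    rw [h5, neg_mul, mul_assoc, mul_assoc, h4]
    simp
  · exact hG.differentiable (by norm_num) x
  · exact hdF.differentiable (by norm_num) x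
  · exact (hG.differentiable (by norm_num) x).mul (hdF.differentiable (by norm_num) x)
  · exact (conn_contDiff (n := 1) X Y d e).differentiable one_ne_zero x

end Scal

end

end Vale.Agent.P093
end
end
end

section

section

section

/-!
Sections of line bundles on the torus with nonzero product of curvatures have a common zero.
-/

open MeasureTheory Set
open scoped ContDiff

namespace Vale.Agent.P093

noncomputable section

/-- smooth cut-off of the inverse -/
def cutInv (ε : ℝ) (z : ℂ) : ℂ :=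
  (Real.smoothTransition ((2 * Complex.normSq z - ε) / ε) : ℂ) * z⁻¹

theorem normSq_contDiff {n : WithTop ℕ∞} : ContDiff ℝ n (fun z : ℂ => Complex.normSq z) := by
  have h : (fun z : ℂ => Complex.normSq z) = fun z => Complex.reCLM z * Complex.reCLM z +
      Complex.imCLM z * Complex.imCLM z := by
    funext z; simp [Complex.normSq_apply]
  rw [h]
  exact (Complex.reCLM.contDiff.mul Complex.reCLM.contDiff).add
    (Complex.imCLM.contDiff.mul Complex.imCLM.contDiff)

theorem cutInv_contDiff {ε : ℝ} (hε : 0 < ε) {n : ℕ∞} : ContDiff ℝ n (cutInv ε) := by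
  rw [contDiff_iff_contDiffAt]
  intro z
  by_cases hz : z = 0
  · subst hz
    have h0 : cutInv ε =ᶠ[nhds 0] fun _ => (0 : ℂ) := by
      have hc : Continuous (fun z : ℂ => Complex.normSq z) := Complex.continuous_normSq
      have : ∀ᶠ z in nhds (0 : ℂ), Complex.normSq z < ε / 2 := by
        apply hc.continuousAt.eventually_lt continuousAt_const
        simp only [map_zero]; positivity
      filter_upwards [this] with w hw
      unfold cutInv
      rw [Real.smoothTransition.zero_of_nonpos]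
      · simp
      · apply div_nonpos_of_nonpos_of_nonneg _ hε.le
        linarith
    exact contDiffAt_const.congr_of_eventuallyEq h0
  · unfold cutInv
    apply ContDiffAt.mul
    · have h1 : ContDiff ℝ n (fun z : ℂ => Real.smoothTransition
          ((2 * Complex.normSq z - ε) / ε)) := by
        apply Real.smoothTransition.contDiff.comp
        exact ((contDiff_const.mul normSq_contDiff).sub contDiff_const).div_const _
      exact (Complex.ofRealCLM.contDiff.comp h1).contDiffAt
    · exact contDiffAt_inv ℝ hz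

theorem cutInv_mul {ε : ℝ} {z : ℂ} (hε : 0 < ε) (hz : ε ≤ Complex.normSq z) :
    cutInv ε z * z = 1 := by
  have hz0 : z ≠ 0 := by
    rintro rfl
    simp only [map_zero] at hz
    linarith
  unfold cutInv
  rw [Real.smoothTransition.one_of_one_le]
  · simp [hz0]
  · rw [le_div_iff₀ hε]; linarith only [hz]

theorem cutInv_phase {ε : ℝ} {z c : ℂ} (hc : Complex.normSq c = 1) :
    cutInv ε (c * z) = c⁻¹ * cutInv ε z := by
  unfold cutInv
  rw [map_mul, hc, one_mul, mul_inv]
  ring

section Eta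

variable {ι : Type*} [Fintype ι] [DecidableEq ι]
variable {Λ : Type*} [NormedRing Λ] [NormedAlgebra ℂ Λ]

theorem dd_shift {e : ι → Λ} {f : (ι → ℝ) → Λ} (v x : ι → ℝ) :
    dd e f (x + v) = dd e (fun y => f (y + v)) x := by
  unfold dd pd
  apply Finset.sum_congr rfl
  intro i _
  rw [fderiv_comp_add_right]

theorem dd_sc_phase {e : ι → Λ} (k : ι) (c : ℂ) (x : ι → ℝ) :
    dd e (sc Λ (fun y : ι → ℝ => Complex.exp (c * (y k : ℂ)))) x =
      e k * algebraMap ℂ Λ c * sc Λ (fun y : ι → ℝ => Complex.exp (c * (y k : ℂ))) x := by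
  unfold dd
  have hd : HasFDerivAt (fun y : ι → ℝ => Complex.exp (c * (y k : ℂ)))
      (Complex.exp (c * (x k : ℂ)) • (c • coordL k)) x := by
    have h1 : HasFDerivAt (fun y : ι → ℝ => c * (y k : ℂ)) (c • coordL k) x :=
      ((coordL k).hasFDerivAt (x := x)).const_mul c
    exact h1.cexp
  have h2 := ((scL Λ).hasFDerivAt (x := Complex.exp (c * (x k : ℂ)))).comp x hd
  have h3 : ∀ i, pd i (sc Λ (fun y : ι → ℝ => Complex.exp (c * (y k : ℂ)))) x =
      algebraMap ℂ Λ (Complex.exp (c * (x k : ℂ)) * (c * (if k = i then 1 else 0))) := by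
    intro i
    unfold pd
    have : fderiv ℝ (sc Λ (fun y : ι → ℝ => Complex.exp (c * (y k : ℂ)))) x =
      (scL Λ).comp (Complex.exp (c * (x k : ℂ)) • (c • coordL k)) := h2.fderiv
    rw [this]
    change algebraMap ℂ Λ _ = _
    congr 1
    change Complex.exp (c * (x k : ℂ)) * (c * ((Pi.single i (1 : ℝ) : ι → ℝ) k : ℂ)) = _
    by_cases h : k = i
    · subst h; simp
    · simp [h]
  simp only [h3]
  rw [Finset.sum_eq_single k]
  · simp only [if_true, mul_one, map_mul, sc]
    rw [mul_assoc, Algebra.commutes (Complex.exp _)]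
  · intro b _ hb
    simp [hb.symm]
  · simp only [Finset.mem_univ, not_true_eq_false, ↓reduceIte, mul_one, map_mul, IsEmpty.forall_iff]

theorem eta_smooth {m : ℕ} (X Y : Fin m → ι) (d : Fin m → ℤ) (e : ι → Λ)
    {f g : (ι → ℝ) → ℂ} (hf : ContDiff ℝ 3 f) (hg : ContDiff ℝ 2 g) :
    ContDiff ℝ 2 (eta X Y d e f g) := by
  have hF : ContDiff ℝ 3 (sc Λ f) := sc_contDiff hf
  have hG : ContDiff ℝ 2 (sc Λ g) := sc_contDiff hg
  have hdF : ContDiff ℝ 2 (dd e (sc Λ f)) := by
    unfold dd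
    apply ContDiff.sum
    intro i _
    exact contDiff_const.mul (pd_contDiff (n := 2) (by exact hF) i)
  exact hG.mul (hdF.sub ((hF.of_le (by norm_num)).mul (conn_contDiff X Y d e)))

theorem eta_odd {m : ℕ} (X Y : Fin m → ι) (d : Fin m → ℤ) {e : ι → Λ}
    (he : ∀ i j, e i * e j = - (e j * e i))
    {f g : (ι → ℝ) → ℂ} (hf : ContDiff ℝ 3 f) (i : ι) (x : ι → ℝ) :
    eta X Y d e f g x * e i = - (e i * eta X Y d e f g x) := by
  have h1 : dd e (sc Λ f) x * e i = - (e i * dd e (sc Λ f) x) := by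
    unfold dd
    rw [Finset.sum_mul, Finset.mul_sum, ← Finset.sum_neg_distrib]
    apply Finset.sum_congr rfl
    intro j _
    rw [mul_assoc, pd_sc_comm (hf.differentiable (by norm_num)), ← mul_assoc, he j i]
    simp [mul_assoc]
  have h2 : conn X Y d e x * e i = - (e i * conn X Y d e x) := by
    unfold conn
    rw [Finset.sum_mul, Finset.mul_sum, ← Finset.sum_neg_distrib]
    apply Finset.sum_congr rfl
    intro j _
    rw [mul_assoc, Algebra.commutes, ← mul_assoc, he (X j) i]
    simp [mul_assoc]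
  unfold eta
  rw [mul_assoc, sub_mul, h1, mul_assoc, h2, sc_comm g, sc_comm g]
  simp only [mul_sub, sub_mul, mul_neg, neg_mul]
  have h3 : sc Λ f x * (e i * conn X Y d e x) = e i * (sc Λ f x * conn X Y d e x) := by
    rw [← mul_assoc, sc_comm f x (e i), mul_assoc]
  rw [h3]
  simp only [mul_assoc]
  abel

theorem eta_per {m : ℕ} {X Y : Fin m → ι} {d : Fin m → ℤ} {e : ι → Λ}
    {f : (ι → ℝ) → ℂ} (hq : Quasi X Y d f) {ε : ℝ}
    (hX : Function.Injective Y) (hXY : ∀ j j', X j ≠ Y j')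
    (hs : ∀ i, (∃ j, i = X j) ∨ ∃ j, i = Y j) :
    Per (eta X Y d e f (fun x => cutInv ε (f x))) := by
  intro i x
  rcases hs i with ⟨j, rfl⟩ | ⟨j, rfl⟩
  · have h1 : sc Λ (fun x => cutInv ε (f x)) (x + Pi.single (X j) 1) =
        sc Λ (fun x => cutInv ε (f x)) x := by
      unfold sc; simp only [hq.qx]
    have h2 : sc Λ f (x + Pi.single (X j) 1) = sc Λ f x := by
      unfold sc; rw [hq.qx]
    have h3 : conn X Y d e (x + Pi.single (X j) 1) = conn X Y d e x := by
      unfold conn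
      apply Finset.sum_congr rfl
      intro j' _
      rw [Pi.add_apply, Pi.single_eq_of_ne (hXY j j').symm, add_zero]
    have h4 : dd e (sc Λ f) (x + Pi.single (X j) 1) = dd e (sc Λ f) x := by
      rw [dd_shift]
      congr 1
      funext y
      unfold sc; rw [hq.qx]
    unfold eta
    rw [h1, h2, h3, h4]
  · set c : (ι → ℝ) → ℂ := fun y => Complex.exp (2 * Real.pi * Complex.I * (d j) * (y (X j)))
      with hc
    have hcn : ∀ y, Complex.normSq (c y) = 1 := by
      intro y
      simp only [hc]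
      have : (2 * Real.pi * Complex.I * (d j) * (y (X j)) : ℂ) =
          ((2 * Real.pi * (d j) * (y (X j)) : ℝ) : ℂ) * Complex.I := by
        push_cast; ring
      rw [this, Complex.normSq_eq_norm_sq, Complex.norm_exp_ofReal_mul_I]
      norm_num
    have hc0 : c x ≠ 0 := Complex.exp_ne_zero _
    have h1 : sc Λ (fun x => cutInv ε (f x)) (x + Pi.single (Y j) 1) =
        algebraMap ℂ Λ (c x)⁻¹ * sc Λ (fun x => cutInv ε (f x)) x := by
      have h0 : cutInv ε (f (x + Pi.single (Y j) 1)) = (c x)⁻¹ * cutInv ε (f x) := by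
        rw [hq.qy]; exact cutInv_phase (hcn x)
      unfold sc
      simp only [h0, map_mul]
    have h2 : sc Λ f (x + Pi.single (Y j) 1) = algebraMap ℂ Λ (c x) * sc Λ f x := by
      unfold sc; rw [hq.qy, map_mul]
    have h3 : conn X Y d e (x + Pi.single (Y j) 1) = conn X Y d e x +
        e (X j) * algebraMap ℂ Λ (2 * Real.pi * Complex.I * (d j)) := by
      unfold conn
      have : ∀ j', e (X j') * algebraMap ℂ Λ (2 * Real.pi * Complex.I * (d j') *
          (((x + Pi.single (Y j) (1 : ℝ) : ι → ℝ) (Y j') : ℝ) : ℂ)) =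
          e (X j') * algebraMap ℂ Λ (2 * Real.pi * Complex.I * (d j') * (x (Y j'))) +
          (if j' = j then e (X j) * algebraMap ℂ Λ (2 * Real.pi * Complex.I * (d j)) else 0) := by
        intro j'
        by_cases h : j' = j
        · subst h
          simp only [Pi.add_apply, Pi.single_eq_same, if_true]
          rw [← mul_add, ← map_add]
          congr 2
          push_cast; ring
        · have h' : Y j' ≠ Y j := fun hh => h (hX hh)
          simp [h, h']
      simp only [this]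
      rw [Finset.sum_add_distrib]
      simp only [map_mul, map_intCast, Finset.sum_ite_eq', Finset.mem_univ, ↓reduceIte]
    have h4 : dd e (sc Λ f) (x + Pi.single (Y j) 1) =
        e (X j) * algebraMap ℂ Λ (2 * Real.pi * Complex.I * (d j)) *
          algebraMap ℂ Λ (c x) * sc Λ f x + algebraMap ℂ Λ (c x) * dd e (sc Λ f) x := by
      rw [dd_shift]
      have : (fun y => sc Λ f (y + Pi.single (Y j) 1)) = fun y => sc Λ c y * sc Λ f y := by
        funext y
        unfold sc; rw [hq.qy, map_mul]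
      rw [this]
      have hcs : ContDiff ℝ 1 (sc Λ c) := by
        apply sc_contDiff
        simp only [hc]
        exact (contDiff_const.mul (coordL (X j)).contDiff).cexp
      rw [dd_even_mul (fun i => sc_comm _ _ _) (hcs.differentiable one_ne_zero x)
        ((sc_contDiff hq.smooth).differentiable (by norm_num) x)]
      have h5 := dd_sc_phase (e := e) (X j) (2 * Real.pi * Complex.I * (d j)) x
      rw [show sc Λ c = sc Λ (fun y : ι → ℝ => Complex.exp ((2 * Real.pi * Complex.I * (d j)) *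
        (y (X j) : ℂ))) from rfl, h5]
      rfl
    have h6 : dd e (sc Λ f) (x + Pi.single (Y j) 1) - sc Λ f (x + Pi.single (Y j) 1) *
        conn X Y d e (x + Pi.single (Y j) 1) =
        algebraMap ℂ Λ (c x) * (dd e (sc Λ f) x - sc Λ f x * conn X Y d e x) := by
      rw [h2, h3, h4]
      have h7 : e (X j) * algebraMap ℂ Λ (2 * Real.pi * Complex.I * (d j)) *
          algebraMap ℂ Λ (c x) * sc Λ f x = algebraMap ℂ Λ (c x) * sc Λ f x *
          (e (X j) * algebraMap ℂ Λ (2 * Real.pi * Complex.I * (d j))) := by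
        unfold sc
        rw [mul_assoc, ← map_mul, ← Algebra.commutes]
      rw [h7, mul_add, mul_sub, mul_assoc]
      simp only [mul_assoc]
      abel
    unfold eta
    rw [h6, h1]
    have h8 : algebraMap ℂ Λ (c x)⁻¹ * algebraMap ℂ Λ (c x) = 1 := by
      rw [← map_mul, inv_mul_cancel₀ hc0, map_one]
    calc algebraMap ℂ Λ (c x)⁻¹ * sc Λ (fun x => cutInv ε (f x)) x *
          (algebraMap ℂ Λ (c x) * (dd e (sc Λ f) x - sc Λ f x * conn X Y d e x))
        = (algebraMap ℂ Λ (c x)⁻¹ * algebraMap ℂ Λ (c x)) *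
          (sc Λ (fun x => cutInv ε (f x)) x *
            (dd e (sc Λ f) x - sc Λ f x * conn X Y d e x)) := by
          rw [mul_assoc, mul_assoc, ← mul_assoc (sc Λ _ x), sc_comm _ x (algebraMap ℂ Λ (c x)),
            mul_assoc]
      _ = _ := by rw [h8, one_mul]

end Eta

section Zero

variable {N : ℕ} {Λ : Type*} [NormedRing Λ] [NormedAlgebra ℂ Λ] [CompleteSpace Λ]

theorem curv_comm {m : ℕ} {ι : Type*} (X Y : Fin m → ι) (d : Fin m → ℤ) {e : ι → Λ}
    (he : ∀ i j, e i * e j = - (e j * e i)) (i : ι) :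
    curv X Y d e * e i = e i * curv X Y d e := by
  unfold curv
  rw [Finset.sum_mul, Finset.mul_sum]
  apply Finset.sum_congr rfl
  intro j _
  rw [mul_assoc, Algebra.commutes, ← mul_assoc, mul_assoc (e (X j)), he (Y j) i, mul_neg,
    ← mul_assoc, he (X j) i]
  simp [mul_assoc]

/-- sections whose curvature product is nonzero have a common zero -/
theorem exists_common_zero {m r : ℕ} {X Y : Fin m → Fin (N + 1)} {e : Fin (N + 1) → Λ}
    (he : ∀ i j, e i * e j = - (e j * e i))
    (hX : Function.Injective Y) (hXY : ∀ j j', X j ≠ Y j')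
    (hs : ∀ i, (∃ j, i = X j) ∨ ∃ j, i = Y j)
    (d : Fin r → Fin m → ℤ) (f : Fin r → (Fin (N + 1) → ℝ) → ℂ)
    (hf : ∀ l, Quasi X Y (d l) (f l))
    (hprod : (List.ofFn fun l => curv X Y (d l) e).prod ≠ 0) :
    ∃ x, ∀ l, f l x = 0 := by
  by_contra hcon
  push Not at hcon
  have hS : Continuous (fun x : Fin (N + 1) → ℝ => ∑ l, Complex.normSq (f l x)) := by
    apply continuous_finset_sum
    intro l _
    exact Complex.continuous_normSq.comp (hf l).smooth.continuous
  have hne : (Icc (0 : Fin (N + 1) → ℝ) 1).Nonempty := ⟨0, by simp only [mem_Icc, Std.le_refl, zero_le_one, and_self]⟩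
  obtain ⟨x0, hx0, hmin⟩ := isCompact_Icc.exists_isMinOn hne hS.continuousOn
  set s := ∑ l, Complex.normSq (f l x0) with hs'
  have hspos : 0 < s := by
    obtain ⟨l, hl⟩ := hcon x0
    have h1 : 0 < Complex.normSq (f l x0) := Complex.normSq_pos.mpr hl
    exact lt_of_lt_of_le h1 (Finset.single_le_sum (f := fun l => Complex.normSq (f l x0))
      (fun i _ => Complex.normSq_nonneg _) (Finset.mem_univ l))
  set ε := s / (2 * (r + 1)) with hε'
  have hε : 0 < ε := by (clear * - hspos; positivity)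
  apply hprod
  have key := prod_const_eq_zero he
    (List.ofFn fun l => (curv X Y (d l) e, eta X Y (d l) e (f l) (fun x => cutInv ε (f l x))))
    (by
      intro p hp
      rw [List.mem_ofFn] at hp
      obtain ⟨l, rfl⟩ := hp
      refine ⟨curv_comm X Y (d l) he, ?_, ?_, ?_⟩
      · exact eta_smooth X Y (d l) e (hf l).smooth
          ((cutInv_contDiff hε (n := 2)).comp ((hf l).smooth.of_le (by norm_num)))
      · exact eta_per (hf l) hX hXY hs
      · exact eta_odd X Y (d l) he (hf l).smooth)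
    (by
      intro x hx
      have hx1 : s ≤ ∑ l, Complex.normSq (f l x) := hmin hx
      have : ∃ l, ε < Complex.normSq (f l x) := by
        by_contra hno
        push Not at hno
        have h1 : ∑ l, Complex.normSq (f l x) ≤ ∑ _l : Fin r, ε := Finset.sum_le_sum
          (fun l _ => hno l)
        rw [Finset.sum_const, Finset.card_univ, Fintype.card_fin, nsmul_eq_mul] at h1
        have h2 : s ≤ r * ε := hx1.trans h1
        have h3 : (r : ℝ) * ε < s := by
          rw [hε']
          rw [mul_div_assoc', div_lt_iff₀ (by (clear * -; positivity))]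
          nlinarith only [hspos]
        linarith only [hx1, h1, h3]
      obtain ⟨l, hl⟩ := this
      refine ⟨_, List.mem_ofFn.mpr ⟨l, rfl⟩, ?_⟩
      simp only
      rw [dd_eta (g := fun x => cutInv ε (f l x)) X Y (d l) e he (hf l).smooth
        ((cutInv_contDiff hε (n := 2)).comp ((hf l).smooth.of_le (by norm_num))), sub_self]
      have hcont : Continuous (fun y => Complex.normSq (f l y)) :=
        Complex.continuous_normSq.comp (hf l).smooth.continuous
      have : ∀ᶠ y in nhds x, ε < Complex.normSq (f l y) :=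
        continuousAt_const.eventually_lt hcont.continuousAt hl
      filter_upwards [this] with y hy
      exact cutInv_mul hε hy.le)
  have h2 : (List.map Prod.fst (List.ofFn fun l => (curv X Y (d l) e,
      eta X Y (d l) e (f l) (fun x => cutInv ε (f l x))))) =
      List.ofFn fun l => curv X Y (d l) e := by
    rw [List.map_ofFn]; rfl
  rw [h2] at key
  exact key

end Zero

end

end Vale.Agent.P093
end
end
end

section

section

section

/-!
Quasi-periodic frame of a line bundle of degree one over the two-torus, and the corresponding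
projection-valued function.
-/

open scoped ContDiff

namespace Vale.Agent.P093

noncomputable section

/-- bump function -/
def gb (t : ℝ) : ℝ := Real.smoothTransition (1 - 9 * t ^ 2)

theorem gb_zero {t : ℝ} (h : 1 / 3 ≤ |t|) : gb t = 0 := by
  apply Real.smoothTransition.zero_of_nonpos
  have : (1 / 3) ^ 2 ≤ |t| ^ 2 := pow_le_pow_left₀ (by norm_num) h 2
  rw [sq_abs] at this
  linarith only [this]

theorem gb_pos {t : ℝ} (h : |t| < 1 / 3) : 0 < gb t := by
  apply Real.smoothTransition.pos_of_pos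
  have : |t| ^ 2 < (1 / 3) ^ 2 := pow_lt_pow_left₀ h (abs_nonneg t) (by norm_num)
  rw [sq_abs] at this
  linarith only [this]

theorem gb_contDiff {n : ℕ∞} : ContDiff ℝ n gb := by
  unfold gb
  exact Real.smoothTransition.contDiff.comp
    (contDiff_const.sub (contDiff_const.mul (contDiff_id.pow 2)))

/-- basic quasi-periodic function -/
def fr (x y : ℝ) : ℂ := (gb (y - round y) : ℂ) * Complex.exp (2 * Real.pi * Complex.I * (round y) * x)

theorem fr_loc (x y : ℝ) (j : ℤ) (h : |y - j| < 3 / 5) :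
    fr x y = (gb (y - j) : ℂ) * Complex.exp (2 * Real.pi * Complex.I * j * x) := by
  unfold fr
  by_cases hj : round y = j
  · rw [hj]
  · have h1 : (1 : ℝ) ≤ |(round y : ℝ) - j| := by
      have : (1 : ℤ) ≤ |round y - j| := Int.one_le_abs (sub_ne_zero.mpr hj)
      exact_mod_cast this
    have h2 : |(round y : ℝ) - j| ≤ |y - round y| + |y - j| := by
      have : (round y : ℝ) - j = -(y - round y) + (y - j) := by ring
      rw [this]
      exact (abs_add_le _ _).trans (by rw [abs_neg])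
    have h3 : |y - round y| ≤ 1 / 2 := abs_sub_round y
    rw [gb_zero (t := y - round y) (by linarith), gb_zero (t := y - j) (by linarith only [h1, h2, h3])]
    simp

theorem fr_add_x (x y : ℝ) : fr (x + 1) y = fr x y := by
  unfold fr
  congr 1
  have : (2 * Real.pi * Complex.I * (round y) * ((x + 1 : ℝ) : ℂ)) =
      2 * Real.pi * Complex.I * (round y) * x + (round y) * (2 * Real.pi * Complex.I) := by
    push_cast; ring
  rw [this, Complex.exp_add, Complex.exp_int_mul_two_pi_mul_I, mul_one]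

theorem fr_add_y (x y : ℝ) :
    fr x (y + 1) = Complex.exp (2 * Real.pi * Complex.I * x) * fr x y := by
  unfold fr
  rw [round_add_one]
  push_cast
  rw [add_sub_add_right_eq_sub]
  have : (2 * Real.pi * Complex.I * ((round y : ℂ) + 1) * x) =
      2 * Real.pi * Complex.I * x + 2 * Real.pi * Complex.I * (round y) * x := by ring
  rw [this, Complex.exp_add]
  ring

theorem fr_contDiff {n : ℕ∞} : ContDiff ℝ n (fun q : ℝ × ℝ => fr q.1 q.2) := by
  rw [contDiff_iff_contDiffAt]
  rintro ⟨x, y⟩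
  set j := round y with hj
  have hev : (fun q : ℝ × ℝ => fr q.1 q.2) =ᶠ[nhds (x, y)] fun q =>
      (gb (q.2 - j) : ℂ) * Complex.exp (2 * Real.pi * Complex.I * j * q.1) := by
    have h1 : |y - j| ≤ 1 / 2 := abs_sub_round y
    have h2 : ∀ᶠ q : ℝ × ℝ in nhds (x, y), |q.2 - j| < 3 / 5 := by
      have hc : Continuous (fun q : ℝ × ℝ => |q.2 - j|) := by fun_prop
      exact hc.continuousAt.eventually_lt continuousAt_const (by simp only; linarith)
    filter_upwards [h2] with q hq
    exact fr_loc _ _ _ hq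
  refine ContDiffAt.congr_of_eventuallyEq ?_ hev
  apply ContDiff.contDiffAt
  apply ContDiff.mul
  · apply Complex.ofRealCLM.contDiff.comp
    exact gb_contDiff.comp (contDiff_snd.sub contDiff_const)
  · apply ContDiff.cexp
    exact contDiff_const.mul (Complex.ofRealCLM.contDiff.comp contDiff_fst)

/-- first component of the frame -/
def frA (x y : ℝ) : ℂ := fr x y

/-- second component of the frame -/
def frB (x y : ℝ) : ℂ := fr x (y - 1 / 2)

/-- frame vector -/
def frU (x y : ℝ) : Fin 2 → ℂ := ![frA x y, frB x y]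

theorem frA_contDiff {n : ℕ∞} : ContDiff ℝ n (fun q : ℝ × ℝ => frA q.1 q.2) := fr_contDiff

theorem frB_contDiff {n : ℕ∞} : ContDiff ℝ n (fun q : ℝ × ℝ => frB q.1 q.2) := by
  have h : ContDiff ℝ n (fun q : ℝ × ℝ => ((q.1, q.2 - 1 / 2) : ℝ × ℝ)) :=
    contDiff_fst.prodMk (contDiff_snd.sub contDiff_const)
  have h2 := (fr_contDiff (n := n)).comp h
  exact h2

theorem frU_contDiff {n : ℕ∞} (a : Fin 2) : ContDiff ℝ n (fun q : ℝ × ℝ => frU q.1 q.2 a) := by
  fin_cases a
  · exact frA_contDiff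
  · exact frB_contDiff

theorem frU_add_x (x y : ℝ) : frU (x + 1) y = frU x y := by
  unfold frU frA frB
  rw [fr_add_x, fr_add_x]

theorem frU_add_y (x y : ℝ) (a : Fin 2) :
    frU x (y + 1) a = Complex.exp (2 * Real.pi * Complex.I * x) * frU x y a := by
  unfold frU frA frB
  have : y + 1 - 1 / 2 = (y - 1 / 2) + 1 := by ring
  rw [this, fr_add_y, fr_add_y]
  fin_cases a <;> simp

theorem frU_ne_zero (x y : ℝ) : frU x y ≠ 0 := by
  intro h
  have h0 : fr x y = 0 := by simpa [frU, frA] using! congrFun h 0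
  have h1 : fr x (y - 1 / 2) = 0 := by simpa [frU, frB] using! congrFun h 1
  have g0 : gb (y - round y) = 0 := by
    unfold fr at h0
    rcases mul_eq_zero.mp h0 with h | h
    · exact_mod_cast h
    · exact absurd h (Complex.exp_ne_zero _)
  have g1 : gb (y - 1 / 2 - round (y - 1 / 2)) = 0 := by
    unfold fr at h1
    rcases mul_eq_zero.mp h1 with h | h
    · exact_mod_cast h
    · exact absurd h (Complex.exp_ne_zero _)
  have k0 : 1 / 3 ≤ |y - round y| := by
    by_contra hlt
    exact absurd g0 (gb_pos (not_le.mp hlt)).ne'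
  have k1 : 1 / 3 ≤ |y - 1 / 2 - round (y - 1 / 2)| := by
    by_contra hlt
    exact absurd g1 (gb_pos (not_le.mp hlt)).ne'
  have m0 : |y - round y| ≤ 1 / 2 := abs_sub_round y
  -- the nearest integer to y - 1/2 is at distance at most 1/6
  rcases le_abs.mp k0 with h | h
  · have h5 : |y - 1 / 2 - round y| ≤ 1 / 6 := by
      rw [abs_le]
      rw [abs_le] at m0
      constructor <;> linarith only [h, m0]
    have := round_le (y - 1 / 2) (round y)
    linarith only [k1, h5, this]
  · have h5 : |y - 1 / 2 - ((round y - 1 : ℤ) : ℝ)| ≤ 1 / 6 := by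
      rw [abs_le]
      rw [abs_le] at m0
      push_cast
      constructor <;> linarith only [h, m0]
    have := round_le (y - 1 / 2) (round y - 1)
    linarith only [k1, h5, this]

/-- squared norm of the frame -/
def frN (x y : ℝ) : ℝ := ∑ a, Complex.normSq (frU x y a)

theorem frN_pos (x y : ℝ) : 0 < frN x y := by
  have h := frU_ne_zero x y
  obtain ⟨a, ha⟩ := Function.ne_iff.mp h
  exact lt_of_lt_of_le (Complex.normSq_pos.mpr ha)
    (Finset.single_le_sum (f := fun a => Complex.normSq (frU x y a))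
      (fun i _ => Complex.normSq_nonneg _) (Finset.mem_univ a))

/-- the two-torus -/
abbrev Tor := UnitAddCircle × UnitAddCircle

/-- projection in coordinates -/
def prR (x y : ℝ) : Matrix (Fin 2) (Fin 2) ℂ :=
  fun a b => frU x y a * (starRingEnd ℂ) (frU x y b) / (frN x y : ℂ)

theorem phase_mul (x : ℝ) : Complex.exp (2 * Real.pi * Complex.I * x) *
    (starRingEnd ℂ) (Complex.exp (2 * Real.pi * Complex.I * x)) = 1 := by
  rw [Complex.mul_conj, Complex.normSq_eq_norm_sq]
  have : (2 * Real.pi * Complex.I * x : ℂ) = ((2 * Real.pi * x : ℝ) : ℂ) * Complex.I := by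
    push_cast; ring
  rw [this, Complex.norm_exp_ofReal_mul_I]
  norm_num

theorem prR_add_x (x y : ℝ) : prR (x + 1) y = prR x y := by
  funext a b
  unfold prR frN
  rw [frU_add_x]

theorem frN_add_y (x y : ℝ) : frN x (y + 1) = frN x y := by
  unfold frN
  apply Finset.sum_congr rfl
  intro a _
  rw [frU_add_y, map_mul]
  have h := phase_mul x
  rw [Complex.mul_conj] at h
  have h' : Complex.normSq (Complex.exp (2 * Real.pi * Complex.I * x)) = 1 := by exact_mod_cast h
  rw [h', one_mul]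

theorem prR_add_y (x y : ℝ) : prR x (y + 1) = prR x y := by
  funext a b
  unfold prR
  rw [frN_add_y, frU_add_y, frU_add_y, map_mul]
  congr 1
  calc Complex.exp (2 * Real.pi * Complex.I * x) * frU x y a *
        ((starRingEnd ℂ) (Complex.exp (2 * Real.pi * Complex.I * x)) * (starRingEnd ℂ) (frU x y b))
      = (Complex.exp (2 * Real.pi * Complex.I * x) *
        (starRingEnd ℂ) (Complex.exp (2 * Real.pi * Complex.I * x))) *
        (frU x y a * (starRingEnd ℂ) (frU x y b)) := by ring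
    _ = _ := by rw [phase_mul, one_mul]

theorem prR_continuous : Continuous (fun q : ℝ × ℝ => prR q.1 q.2) := by
  have hU : ∀ a, Continuous (fun q : ℝ × ℝ => frU q.1 q.2 a) := fun a =>
    (frU_contDiff (n := 0) a).continuous
  apply continuous_pi
  intro a
  apply continuous_pi
  intro b
  unfold prR
  apply Continuous.div
  · exact (hU a).mul (Complex.continuous_conj.comp (hU b))
  · apply Complex.continuous_ofReal.comp
    unfold frN
    apply continuous_finset_sum
    intro c _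
    exact Complex.continuous_normSq.comp (hU c)
  · rintro ⟨x, y⟩
    exact_mod_cast (frN_pos x y).ne'

/-- representative of a point of the circle -/
def rp (a : UnitAddCircle) : ℝ := (AddCircle.equivIco 1 0 a : ℝ)

theorem rp_coe (a : UnitAddCircle) : ((rp a : ℝ) : UnitAddCircle) = a :=
  (AddCircle.equivIco 1 0).symm_apply_apply a

/-- a function periodic in both variables descends to the torus -/
theorem descend {β : Type*} {F : ℝ → ℝ → β} (hx : ∀ x y, F (x + 1) y = F x y)
    (hy : ∀ x y, F x (y + 1) = F x y) (x y : ℝ) :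
    F (rp (x : UnitAddCircle)) (rp (y : UnitAddCircle)) = F x y := by
  have e1 : ∀ (x y : ℝ), F (rp (x : UnitAddCircle)) y = F x y := by
    intro x y
    have hp : Function.Periodic (fun x => F x y) 1 := fun x => hx x y
    have h1 : hp.lift (x : UnitAddCircle) = F x y := hp.lift_coe x
    have h2 : hp.lift ((rp (x : UnitAddCircle) : ℝ) : UnitAddCircle) =
      F (rp (x : UnitAddCircle)) y := hp.lift_coe _
    rw [rp_coe] at h2
    rw [← h2, h1]
  have e2 : ∀ (x y : ℝ), F x (rp (y : UnitAddCircle)) = F x y := by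
    intro x y
    have hp : Function.Periodic (fun y => F x y) 1 := fun y => hy x y
    have h1 : hp.lift (y : UnitAddCircle) = F x y := hp.lift_coe y
    have h2 : hp.lift ((rp (y : UnitAddCircle) : ℝ) : UnitAddCircle) =
      F x (rp (y : UnitAddCircle)) := hp.lift_coe _
    rw [rp_coe] at h2
    rw [← h2, h1]
  rw [e1, e2]

theorem isOpenQuotientMap_coe2 :
    IsOpenQuotientMap (Prod.map (fun x : ℝ => (x : UnitAddCircle))
      (fun x : ℝ => (x : UnitAddCircle))) :=
  IsOpenQuotientMap.prodMap QuotientAddGroup.isOpenQuotientMap_mk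
    QuotientAddGroup.isOpenQuotientMap_mk

/-- the rank one projection over the torus -/
def pb (z : Tor) : Matrix (Fin 2) (Fin 2) ℂ := prR (rp z.1) (rp z.2)

theorem pb_coe (x y : ℝ) : pb ((x : UnitAddCircle), (y : UnitAddCircle)) = prR x y :=
  descend prR_add_x prR_add_y x y

theorem pb_continuous : Continuous pb := by
  rw [isOpenQuotientMap_coe2.isQuotientMap.continuous_iff]
  have : pb ∘ (Prod.map (fun x : ℝ => (x : UnitAddCircle)) (fun x : ℝ => (x : UnitAddCircle))) =
      fun q : ℝ × ℝ => prR q.1 q.2 := by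
    funext q
    exact pb_coe q.1 q.2
  rw [this]
  exact prR_continuous

theorem frN_eq (x y : ℝ) : (∑ a, (starRingEnd ℂ) (frU x y a) * frU x y a) = (frN x y : ℂ) := by
  unfold frN
  push_cast
  apply Finset.sum_congr rfl
  intro a _
  rw [mul_comm, Complex.mul_conj]

theorem pb_conjTranspose (z : Tor) : (pb z).conjTranspose = pb z := by
  funext a b
  rw [Matrix.conjTranspose_apply]
  unfold pb prR
  simp only [star_div₀, star_mul', Complex.star_def, Complex.conj_ofReal, Complex.conj_conj]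
  rw [mul_comm]

theorem pb_trace (z : Tor) : (pb z).trace = 1 := by
  set x := rp z.1 with hx
  set y := rp z.2 with hy
  have hN : (frN x y : ℂ) ≠ 0 := by exact_mod_cast (frN_pos x y).ne'
  change ∑ a, frU x y a * (starRingEnd ℂ) (frU x y a) / (frN x y : ℂ) = 1
  rw [← Finset.sum_div]
  have h := frN_eq x y
  simp only [mul_comm (frU x y _)]
  rw [h, div_self hN]

/-- kernel of the projection in terms of the frame -/
theorem pb_mulVec_eq_zero (x y : ℝ) (v : Fin 2 → ℂ)
    (h : ∑ a, (starRingEnd ℂ) (frU x y a) * v a = 0) :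
    (pb ((x : UnitAddCircle), (y : UnitAddCircle))).mulVec v = 0 := by
  rw [pb_coe]
  funext a
  unfold Matrix.mulVec dotProduct prR
  have : ∀ b, frU x y a * (starRingEnd ℂ) (frU x y b) / (frN x y : ℂ) * v b =
      (frU x y a / (frN x y : ℂ)) * ((starRingEnd ℂ) (frU x y b) * v b) := by
    intro b; ring
  simp only [this]
  rw [← Finset.mul_sum, h]
  simp

end

end Vale.Agent.P093
end
end
end

section

section

section

/-!
Block diagonal matrices with blocks of size two and a scalar diagonal part.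
-/

open Matrix
open scoped ComplexOrder

namespace Vale.Agent.P093

noncomputable section

variable {P : Type*} [DecidableEq P] {V : ℕ}

/-- block diagonal matrix with two by two blocks `N o` and diagonal entries `D k` -/
def bdiag (N : P → Matrix (Fin 2) (Fin 2) ℂ) (D : Fin V → ℂ) :
    Matrix ((P × Fin 2) ⊕ Fin V) ((P × Fin 2) ⊕ Fin V) ℂ :=
  Matrix.of fun p q => match p, q with
    | Sum.inl (o, e), Sum.inl (o', e') => if o = o' then N o e e' else 0
    | Sum.inr k, Sum.inr k' => if k = k' then D k else 0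
    | Sum.inl _, Sum.inr _ => 0
    | Sum.inr _, Sum.inl _ => 0

section Lemmas

variable (N : P → Matrix (Fin 2) (Fin 2) ℂ) (D : Fin V → ℂ)

@[simp] theorem bdiag_ll (o o' : P) (e e' : Fin 2) : bdiag N D (Sum.inl (o, e)) (Sum.inl (o', e')) =
    if o = o' then N o e e' else 0 := rfl

@[simp] theorem bdiag_rr (k k' : Fin V) : bdiag N D (Sum.inr k) (Sum.inr k') =
    if k = k' then D k else 0 := rfl

@[simp] theorem bdiag_lr (o : P × Fin 2) (k : Fin V) : bdiag N D (Sum.inl o) (Sum.inr k) = 0 := rfl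

@[simp] theorem bdiag_rl (o : P × Fin 2) (k : Fin V) : bdiag N D (Sum.inr k) (Sum.inl o) = 0 := rfl

theorem bdiag_mulVec_inl [Fintype P] (y : (P × Fin 2) ⊕ Fin V → ℂ) (o : P) (e : Fin 2) :
    (bdiag N D *ᵥ y) (Sum.inl (o, e)) = (N o *ᵥ fun e' => y (Sum.inl (o, e'))) e := by
  simp only [Matrix.mulVec, dotProduct, Fintype.sum_sum_type, Fintype.sum_prod_type, bdiag_ll,
    bdiag_lr, zero_mul, Finset.sum_const_zero, add_zero, ite_mul]
  rw [Finset.sum_eq_single o]
  · simp only [↓reduceIte, Fin.sum_univ_two, Fin.isValue]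
  · intro b _ hb
    simp [Ne.symm hb]
  · intro h
    exact absurd (Finset.mem_univ o) h

theorem bdiag_mulVec_inr [Fintype P] (y : (P × Fin 2) ⊕ Fin V → ℂ) (k : Fin V) :
    (bdiag N D *ᵥ y) (Sum.inr k) = D k * y (Sum.inr k) := by
  simp only [Matrix.mulVec, dotProduct, Fintype.sum_sum_type, bdiag_rr,
    bdiag_rl, zero_mul, Finset.sum_const_zero, zero_add, ite_mul]
  rw [Finset.sum_eq_single k]
  · simp
  · intro b _ hb
    simp [Ne.symm hb]
  · intro h
    exact absurd (Finset.mem_univ k) h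

theorem bdiag_isHermitian (hN : ∀ o, (N o).IsHermitian) (hD : ∀ k, star (D k) = D k) :
    (bdiag N D).IsHermitian := by
  ext p q
  rcases p with ⟨o, e⟩ | k <;> rcases q with ⟨o', e'⟩ | k'
  · rw [Matrix.conjTranspose_apply, bdiag_ll, bdiag_ll]
    by_cases h : o = o'
    · subst h
      simp only [if_true]
      exact (hN o).apply e e'
    · simp [h, Ne.symm h]
  · rw [Matrix.conjTranspose_apply, bdiag_lr, bdiag_rl, star_zero]
  · rw [Matrix.conjTranspose_apply, bdiag_lr, bdiag_rl, star_zero]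
  · rw [Matrix.conjTranspose_apply, bdiag_rr, bdiag_rr]
    by_cases h : k = k'
    · subst h
      simp [hD]
    · simp [h, Ne.symm h]

theorem bdiag_posSemidef [Fintype P] (hN : ∀ o, (N o).PosSemidef) (hD : ∀ k, 0 ≤ D k) :
    (bdiag N D).PosSemidef := by
  apply Matrix.PosSemidef.of_dotProduct_mulVec_nonneg
    (bdiag_isHermitian N D (fun o => (hN o).isHermitian)
      (fun k => (IsSelfAdjoint.of_nonneg (hD k))))
  intro y
  have : star y ⬝ᵥ (bdiag N D *ᵥ y) =
      ∑ o, (star (fun e => y (Sum.inl (o, e))) ⬝ᵥ (N o *ᵥ fun e => y (Sum.inl (o, e)))) +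
      ∑ k, D k * (star (y (Sum.inr k)) * y (Sum.inr k)) := by
    simp only [dotProduct, Fintype.sum_sum_type, Fintype.sum_prod_type]
    congr 1
    · apply Finset.sum_congr rfl
      intro o _
      apply Finset.sum_congr rfl
      intro e _
      rw [bdiag_mulVec_inl]
      rfl
    · apply Finset.sum_congr rfl
      intro k _
      rw [bdiag_mulVec_inr]
      simp only [Pi.star_apply]
      ring
  rw [this]
  apply add_nonneg
  · exact Finset.sum_nonneg fun o _ => (hN o).dotProduct_mulVec_nonneg _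
  · exact Finset.sum_nonneg fun k _ => mul_nonneg (hD k) (star_mul_self_nonneg _)

theorem one_sub_bdiag : (1 : Matrix ((P × Fin 2) ⊕ Fin V) ((P × Fin 2) ⊕ Fin V) ℂ) - bdiag N D =
    bdiag (fun o => 1 - N o) (fun k => 1 - D k) := by
  ext p q
  rcases p with ⟨o, e⟩ | k <;> rcases q with ⟨o', e'⟩ | k'
  · rw [Matrix.sub_apply, bdiag_ll, bdiag_ll, Matrix.sub_apply]
    by_cases h : o = o'
    · subst h
      by_cases h2 : e = e'
      · subst h2; simp
      · simp [Matrix.one_apply, h2]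
    · simp [Matrix.one_apply, h]
  · rw [Matrix.sub_apply, bdiag_lr, bdiag_lr]
    simp [Matrix.one_apply]
  · rw [Matrix.sub_apply, bdiag_rl, bdiag_rl]
    simp [Matrix.one_apply]
  · rw [Matrix.sub_apply, bdiag_rr, bdiag_rr]
    by_cases h : k = k'
    · subst h; simp
    · simp [Matrix.one_apply, h]

theorem bdiag_trace [Fintype P] : (bdiag N D).trace = ∑ o, (N o).trace + ∑ k, D k := by
  simp only [Matrix.trace, Matrix.diag_apply, Fintype.sum_sum_type, Fintype.sum_prod_type,
    bdiag_ll, bdiag_rr, if_true]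

end Lemmas

theorem bdiag_continuous {X : Type*} [TopologicalSpace X]
    {N : X → P → Matrix (Fin 2) (Fin 2) ℂ} {D : X → Fin V → ℂ}
    (hN : ∀ o, Continuous fun x => N x o) (hD : ∀ k, Continuous fun x => D x k) :
    Continuous fun x => bdiag (N x) (D x) := by
  apply continuous_matrix
  intro p q
  rcases p with ⟨o, e⟩ | k <;> rcases q with ⟨o', e'⟩ | k'
  · simp only [bdiag_ll]
    by_cases h : o = o'
    · simp only [h, if_true]
      exact (hN o').matrix_elem e e'
    · simp only [h, if_false]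
      exact continuous_const
  · simp only [bdiag_lr]
    exact continuous_const
  · simp only [bdiag_rl]
    exact continuous_const
  · simp only [bdiag_rr]
    by_cases h : k = k'
    · simp only [h, if_true]
      exact hD k'
    · simp only [h, if_false]
      exact continuous_const

end

end Vale.Agent.P093
end
end
end

section

section

section

/-!
Frozen skew shifts: the fibre over `ω` consists of the sequences `x : ℤ → K` whose coordinate
`x i` is prescribed (equal to `c (g^i ω)`) whenever `g^i ω` lies in the open set `O`, and is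
arbitrary otherwise.
-/

open Set Filter

namespace Vale.Agent.P093

noncomputable section

variable {K Ω : Type*} [TopologicalSpace K] [TopologicalSpace Ω]

/-- the underlying set of the frozen skew shift -/
def frozenSet (g : Ω ≃ₜ Ω) (O : Set Ω) (c : Ω → K) : Set ((ℤ → K) × Ω) :=
  {p | ∀ i : ℤ, (g ^ i) p.2 ∈ O → p.1 i = c ((g ^ i) p.2)}

/-- the shift on the ambient product -/
def ambientShift (K : Type*) [TopologicalSpace K] (g : Ω ≃ₜ Ω) :
    (ℤ → K) × Ω ≃ₜ (ℤ → K) × Ω where
  toFun p := (fun i => p.1 (i + 1), g p.2)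
  invFun p := (fun i => p.1 (i - 1), g.symm p.2)
  left_inv p := by simp
  right_inv p := by simp
  continuous_toFun := by
    apply Continuous.prodMk
    · apply continuous_pi
      intro i
      exact (continuous_apply (i + 1)).comp continuous_fst
    · exact g.continuous.comp continuous_snd
  continuous_invFun := by
    apply Continuous.prodMk
    · apply continuous_pi
      intro i
      exact (continuous_apply (i - 1)).comp continuous_fst
    · exact g.symm.continuous.comp continuous_snd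

theorem ambientShift_mem (g : Ω ≃ₜ Ω) (O : Set Ω) (c : Ω → K) (p : (ℤ → K) × Ω) :
    p ∈ frozenSet g O c ↔ ambientShift K g p ∈ frozenSet g O c := by
  have key : ∀ (i : ℤ) (w : Ω), (g ^ i) (g w) = (g ^ (i + 1)) w := by
    intro i w
    rw [zpow_add_one]
    rfl
  constructor
  · intro h i hi
    change (g ^ i) (g p.2) ∈ O at hi
    change p.1 (i + 1) = c ((g ^ i) (g p.2))
    rw [key] at hi ⊢
    exact h (i + 1) hi
  · intro h i hi
    have h1 := h (i - 1)
    change (g ^ (i - 1)) (g p.2) ∈ O → p.1 (i - 1 + 1) = c ((g ^ (i - 1)) (g p.2)) at h1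
    rw [key, sub_add_cancel] at h1
    exact h1 hi

/-- the frozen skew shift: the shift restricted to `frozenSet` -/
def frozenShift (g : Ω ≃ₜ Ω) (O : Set Ω) (c : Ω → K) : frozenSet g O c ≃ₜ frozenSet g O c :=
  (ambientShift K g).subtype (ambientShift_mem g O c)

end

end Vale.Agent.P093
end
end
end

section

section

section
open Filter Topology Set
set_option linter.unusedSectionVars false
namespace Vale.Agent.P093

noncomputable section

theorem pigeon {ι : Type*} [Fintype ι] [Nonempty ι] (T : Finset ℕ) (f : ι → Finset ℕ)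
    (hf : ∀ a, f a ⊆ T) (hd : ∀ a b, a ≠ b → Disjoint (f a) (f b)) :
    ∃ a, Fintype.card ι * (f a).card ≤ T.card := by
  classical
  have h1 : ∑ a, (f a).card ≤ T.card := by
    rw [← Finset.card_biUnion fun a _ b _ hab => hd a b hab]
    exact Finset.card_le_card (Finset.biUnion_subset.2 fun a _ => hf a)
  obtain ⟨a, -, ha⟩ := Finset.exists_le_of_sum_le (s := (Finset.univ : Finset ι))
    (f := fun a => Fintype.card ι * (f a).card) (g := fun _ => T.card)
    Finset.univ_nonempty (by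
      rw [← Finset.mul_sum, Finset.sum_const, Finset.card_univ, smul_eq_mul]
      exact Nat.mul_le_mul_left _ h1)
  exact ⟨a, ha⟩

/-- finite choices can be made uniformly for arbitrarily large `N` -/
theorem uniform_choice {ι : Type*} [Finite ι] (P : ι → ℕ → Prop)
    (h : ∀ N₀, ∃ N, N₀ ≤ N ∧ ∃ a, P a N) : ∃ a, ∀ N₀, ∃ N, N₀ ≤ N ∧ P a N := by
  classical
  cases nonempty_fintype ι
  by_contra hcon
  push Not at hcon
  choose N₀ hN₀ using hcon
  obtain ⟨N, hN, a, ha⟩ := h (∑ a, N₀ a)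
  refine hN₀ a N ?_ ha
  exact (Finset.single_le_sum (fun _ _ => Nat.zero_le _) (Finset.mem_univ a)).trans hN

/-- offsets with disjoint transition zones -/
theorem offsets_disjoint {P : ℕ} (hP : 0 < P) {a b : Fin P} (hab : a ≠ b) {t : ℝ}
    (ha : ∃ k : ℤ, |t - (a : ℕ) / P - k| < 1 / (2 * P))
    (hb : ∃ k : ℤ, |t - (b : ℕ) / P - k| < 1 / (2 * P)) : False := by
  have hP' : (0 : ℝ) < P := by exact_mod_cast hP
  obtain ⟨k, hk⟩ := ha
  obtain ⟨l, hl⟩ := hb
  have h1 : |((a : ℕ) : ℝ) / P + k - ((b : ℕ) / P + l)| < 1 / P := by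
    have h2 : ((a : ℕ) : ℝ) / P + k - ((b : ℕ) / P + l) =
        (t - (b : ℕ) / P - l) - (t - (a : ℕ) / P - k) := by ring
    rw [h2]
    refine (abs_sub _ _).trans_lt ?_
    have h3 : (1 : ℝ) / P = 1 / (2 * P) + 1 / (2 * P) := by field_simp; ring
    rw [h3]
    exact add_lt_add hl hk
  have h4 : |((((a : ℕ) : ℤ) + P * k - ((b : ℕ) + P * l) : ℤ) : ℝ)| < 1 := by
    have h5 : ((((a : ℕ) : ℤ) + P * k - ((b : ℕ) + P * l) : ℤ) : ℝ) =
        P * (((a : ℕ) : ℝ) / P + k - ((b : ℕ) / P + l)) := by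
      push_cast
      field_simp
    rw [h5, abs_mul, abs_of_pos hP']
    calc (P : ℝ) * _ < P * (1 / P) := mul_lt_mul_of_pos_left h1 hP'
      _ = 1 := by field_simp
  have h6 : (((a : ℕ) : ℤ) + P * k - ((b : ℕ) + P * l) : ℤ) = 0 := by
    rw [← Int.cast_abs] at h4
    have h7 : |(((a : ℕ) : ℤ) + P * k - ((b : ℕ) + P * l) : ℤ)| < 1 := by exact_mod_cast h4
    exact Int.abs_lt_one_iff.1 h7
  have h8 : ((a : ℕ) : ℤ) = (b : ℕ) + P * (l - k) := by linarith only [h6]
  have h9 : ((a : ℕ) : ℤ) % P = ((b : ℕ) : ℤ) % P := by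
    rw [h8, Int.add_mul_emod_self_left]
  rw [Int.emod_eq_of_lt (by (clear * -; positivity)) (by have := a.2; omega),
    Int.emod_eq_of_lt (by (clear * -; positivity)) (by have := b.2; omega)] at h9
  exact hab (Fin.ext (by exact_mod_cast h9))

end

end Vale.Agent.P093
end
end
end

section

section

section

/-!
The crossed product of `C(X)` by a homeomorphism `h`, characterized by generators and relations.
-/

open Topology

namespace Vale.Agent.P093

/-- `A` is generated as a C*-algebra by a copy of `C(X)` and a unitary `u` that implements `h`: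
`u f u* = f ∘ h⁻¹`. When `h` is minimal and `X` is infinite, `C(X) ⋊_h ℤ` is simple, so this says
exactly that `A` is isomorphic to `C(X) ⋊_h ℤ`. -/
def IsCrossedProduct {X : Type*} [TopologicalSpace X] [CompactSpace X] (h : X ≃ₜ X)
    (A : Type*) [CStarAlgebra A] : Prop :=
  ∃ (π : C(X, ℂ) →⋆ₐ[ℂ] A) (u : A), Function.Injective π ∧ star u * u = 1 ∧ u * star u = 1 ∧
    (∀ f : C(X, ℂ), u * π f * star u = π (f.comp (h.symm : C(X, X)))) ∧
    Dense (StarAlgebra.adjoin ℂ (Set.range π ∪ {u}) : Set A)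

end Vale.Agent.P093
end
end
end

section

section

section

/-!
Visits of orbits to sets and the upper density of visits.
-/

open Set Filter
open scoped ENNReal

namespace Vale.Agent.P093

noncomputable section

variable {Ω : Type*} [TopologicalSpace Ω]

open scoped Classical in
/-- number of visits to `S` during `[0, N)` -/
def visits (g : Ω ≃ₜ Ω) (S : Set Ω) (N : ℕ) (ω : Ω) : ℕ :=
  ((Finset.range N).filter fun j : ℕ => (g ^ (j : ℤ)) ω ∈ S).card

open scoped Classical in
/-- the set of visits -/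
def vset (g : Ω ≃ₜ Ω) (S : Set Ω) (N : ℕ) (ω : Ω) : Finset ℕ :=
  (Finset.range N).filter fun j : ℕ => (g ^ (j : ℤ)) ω ∈ S

theorem mem_vset {g : Ω ≃ₜ Ω} {S : Set Ω} {N : ℕ} {ω : Ω} {j : ℕ} :
    j ∈ vset g S N ω ↔ j < N ∧ (g ^ (j : ℤ)) ω ∈ S := by
  classical
  unfold vset
  rw [Finset.mem_filter, Finset.mem_range]

theorem visits_eq_card (g : Ω ≃ₜ Ω) (S : Set Ω) (N : ℕ) (ω : Ω) :
    visits g S N ω = (vset g S N ω).card := rfl

/-- maximal number of visits -/
def maxVisits (g : Ω ≃ₜ Ω) (S : Set Ω) (N : ℕ) : ℕ := ⨆ ω, visits g S N ω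

/-- upper density of visits -/
def dens (g : Ω ≃ₜ Ω) (S : Set Ω) : ℝ≥0∞ :=
  ⨅ (N : ℕ) (_ : 0 < N), (maxVisits g S N : ℝ≥0∞) / (N : ℝ≥0∞)

variable {g : Ω ≃ₜ Ω} {S T : Set Ω}

theorem visits_le (g : Ω ≃ₜ Ω) (S : Set Ω) (N : ℕ) (ω : Ω) : visits g S N ω ≤ N := by
  classical
  unfold visits
  exact (Finset.card_filter_le _ _).trans (by simp)

theorem visits_le_max (g : Ω ≃ₜ Ω) (S : Set Ω) (N : ℕ) (ω : Ω) :
    visits g S N ω ≤ maxVisits g S N := by
  apply le_ciSup (f := fun ω => visits g S N ω)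
  exact ⟨N, by rintro _ ⟨ω, rfl⟩; exact visits_le g S N ω⟩

theorem maxVisits_le {m N : ℕ} (h : ∀ ω, visits g S N ω ≤ m) : maxVisits g S N ≤ m := by
  unfold maxVisits
  rcases isEmpty_or_nonempty Ω with he | he
  · rw [ciSup_of_empty]; simp
  · exact ciSup_le h

theorem maxVisits_le_self (g : Ω ≃ₜ Ω) (S : Set Ω) (N : ℕ) : maxVisits g S N ≤ N :=
  maxVisits_le fun ω => visits_le g S N ω

theorem exists_visits_eq [Nonempty Ω] (g : Ω ≃ₜ Ω) (S : Set Ω) (N : ℕ) :
    ∃ ω, visits g S N ω = maxVisits g S N := by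
  have hb : BddAbove (Set.range fun ω => visits g S N ω) :=
    ⟨N, by rintro _ ⟨ω, rfl⟩; exact visits_le g S N ω⟩
  have := Nat.sSup_mem (Set.range_nonempty fun ω => visits g S N ω) hb
  obtain ⟨ω, hω⟩ := this
  exact ⟨ω, hω⟩

theorem visits_add (g : Ω ≃ₜ Ω) (S : Set Ω) (N L : ℕ) (ω : Ω) :
    visits g S (N + L) ω = visits g S N ω + visits g S L ((g ^ (N : ℤ)) ω) := by
  classical
  unfold visits
  rw [Finset.card_filter, Finset.card_filter, Finset.card_filter, Finset.sum_range_add]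
  congr 1
  apply Finset.sum_congr rfl
  intro j _
  have : (g ^ (((N + j : ℕ)) : ℤ)) ω = (g ^ (j : ℤ)) ((g ^ (N : ℤ)) ω) := by
    push_cast
    rw [add_comm, zpow_add]
    rfl
  rw [this]

theorem visits_mono_set (h : S ⊆ T) (N : ℕ) (ω : Ω) : visits g S N ω ≤ visits g T N ω := by
  classical
  unfold visits
  apply Finset.card_le_card
  intro j hj
  rw [Finset.mem_filter] at hj ⊢
  exact ⟨hj.1, h hj.2⟩

theorem maxVisits_add_le (g : Ω ≃ₜ Ω) (S : Set Ω) (N L : ℕ) :
    maxVisits g S (N + L) ≤ maxVisits g S N + maxVisits g S L := by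
  apply maxVisits_le
  intro ω
  rw [visits_add]
  exact add_le_add (visits_le_max _ _ _ _) (visits_le_max _ _ _ _)

theorem maxVisits_mono {N L : ℕ} (h : N ≤ L) : maxVisits g S N ≤ maxVisits g S L := by
  apply maxVisits_le
  intro ω
  obtain ⟨k, rfl⟩ := Nat.exists_eq_add_of_le h
  have := visits_add g S N k ω
  have h2 := visits_le_max g S (N + k) ω
  omega

theorem maxVisits_mul_le (g : Ω ≃ₜ Ω) (S : Set Ω) (N k : ℕ) :
    maxVisits g S (k * N) ≤ k * maxVisits g S N := by
  induction k with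
  | zero =>
    have := maxVisits_le_self g S 0
    simpa using this
  | succ k ih =>
    rw [Nat.succ_mul, Nat.succ_mul]
    exact (maxVisits_add_le g S _ _).trans (Nat.add_le_add_right ih _)

theorem maxVisits_le_div {N₁ : ℕ} (h : 0 < N₁) (N : ℕ) :
    maxVisits g S N ≤ (N / N₁ + 1) * maxVisits g S N₁ := by
  refine le_trans (maxVisits_mono ?_) (maxVisits_mul_le g S N₁ (N / N₁ + 1))
  have := Nat.lt_div_mul_add (a := N) h
  rw [Nat.add_mul, Nat.one_mul]
  omega

/-- clopen approximation from outside of a closed set with the same maximal number of visits -/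
theorem exists_clopen_approx [CompactSpace Ω] [T2Space Ω] [TotallyDisconnectedSpace Ω]
    (g : Ω ≃ₜ Ω) {F : Set Ω} (hF : IsClosed F) (N : ℕ) :
    ∃ U : Set Ω, IsClopen U ∧ F ⊆ U ∧ maxVisits g U N ≤ maxVisits g F N := by
  classical
  -- separating a point from `F`
  have hsep : ∀ p, p ∉ F → ∃ V : Set Ω, IsClopen V ∧ p ∈ V ∧ Disjoint V F := by
    intro p hp
    obtain ⟨V, hV, hpV, hVF⟩ := compact_exists_isClopen_in_isOpen hF.isOpen_compl
      (show p ∈ Fᶜ from hp)
    exact ⟨V, hV, hpV, Set.disjoint_left.mpr fun x hx hxF => hVF hx hxF⟩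
  have hloc : ∀ ω : Ω, ∃ R U : Set Ω, IsOpen R ∧ ω ∈ R ∧ IsClopen U ∧ F ⊆ U ∧
      ∀ ω' ∈ R, ∀ j < N, (g ^ (j : ℤ)) ω' ∈ U → (g ^ (j : ℤ)) ω ∈ F := by
    intro ω
    have hj : ∀ j : ℕ, ∃ V : Set Ω, IsClopen V ∧ Disjoint V F ∧
        ((g ^ (j : ℤ)) ω ∉ F → (g ^ (j : ℤ)) ω ∈ V) := by
      intro j
      by_cases h : (g ^ (j : ℤ)) ω ∈ F
      · exact ⟨∅, isClopen_empty, by simp, fun h' => absurd h h'⟩
      · obtain ⟨V, h1, h2, h3⟩ := hsep _ h
        exact ⟨V, h1, h3, fun _ => h2⟩
    choose V hV1 hV2 hV3 using hj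
    refine ⟨⋂ j ∈ (Finset.range N).filter (fun j : ℕ => (g ^ (j : ℤ)) ω ∉ F),
      (g ^ (j : ℤ)) ⁻¹' V j, (⋃ j ∈ Finset.range N, V j)ᶜ, ?_, ?_, ?_, ?_, ?_⟩
    · apply isOpen_biInter_finset
      intro j _
      exact (hV1 j).isOpen.preimage (g ^ (j : ℤ)).continuous
    · simp only [Set.mem_iInter, Finset.mem_filter, Set.mem_preimage]
      intro j hj
      exact hV3 j hj.2
    · apply IsClopen.compl
      exact (Finset.range N).finite_toSet.isClopen_biUnion (fun j _ => hV1 j)
    · intro x hx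
      simp only [Set.mem_compl_iff, Set.mem_iUnion, not_exists]
      intro j _ hxV
      exact Set.disjoint_left.mp (hV2 j) hxV hx
    · intro ω' hω' j hjN hU
      by_contra hnF
      simp only [Set.mem_iInter, Finset.mem_filter, Set.mem_preimage] at hω'
      have h1 := hω' j ⟨Finset.mem_range.mpr hjN, hnF⟩
      apply hU
      simp only [Set.mem_iUnion]
      exact ⟨j, Finset.mem_range.mpr hjN, h1⟩
  choose R U hR1 hR2 hU1 hU2 hRU using hloc
  obtain ⟨t, ht⟩ := isCompact_univ.elim_finite_subcover R hR1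
    (fun ω _ => Set.mem_iUnion.mpr ⟨ω, hR2 ω⟩)
  refine ⟨⋂ ω ∈ t, U ω, t.finite_toSet.isClopen_biInter (fun ω _ => hU1 ω), ?_, ?_⟩
  · exact Set.subset_iInter₂ fun ω _ => hU2 ω
  · apply maxVisits_le
    intro ω'
    obtain ⟨ω, hω, hω'⟩ := Set.mem_iUnion₂.mp (ht (Set.mem_univ ω'))
    refine le_trans ?_ (visits_le_max g F N ω)
    unfold visits
    apply Finset.card_le_card
    intro j hj
    rw [Finset.mem_filter] at hj ⊢
    refine ⟨hj.1, hRU ω ω' hω' j (Finset.mem_range.mp hj.1) ?_⟩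
    exact Set.mem_iInter₂.mp hj.2 ω hω

end

end Vale.Agent.P093
end
end
end

section

section

section

/-!
First return times to a clopen set, positions of visits inside a block, and local constancy.
-/

open Set Filter

namespace Vale.Agent.P093

noncomputable section

section Count

variable {p q : ℕ → Prop}

open scoped Classical in
theorem nth_mem_of_lt_count {m l : ℕ} (h : l < Nat.count p m) : p (Nat.nth p l) :=
  Nat.nth_mem l fun hf => h.trans_le (Nat.count_le_card hf m)

open scoped Classical in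
theorem count_nth_of_lt_count {m l : ℕ} (h : l < Nat.count p m) :
    Nat.count p (Nat.nth p l) = l :=
  Nat.count_nth fun hf => h.trans_le (Nat.count_le_card hf m)

open scoped Classical in
theorem count_congr_of_lt {m : ℕ} (h : ∀ j < m, (p j ↔ q j)) : Nat.count p m = Nat.count q m := by
  rw [Nat.count_eq_card_filter_range, Nat.count_eq_card_filter_range]
  congr 1
  apply Finset.filter_congr
  intro j hj
  exact h j (Finset.mem_range.mp hj)

open scoped Classical in
theorem nth_congr_of_lt {m l : ℕ} (h : ∀ j < m, (p j ↔ q j)) (hl : l < Nat.count p m) :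
    Nat.nth p l = Nat.nth q l := by
  have h1 : Nat.nth p l < m := Nat.nth_lt_of_lt_count hl
  have h2 : q (Nat.nth p l) := (h _ h1).mp (nth_mem_of_lt_count hl)
  have h3 : Nat.count q (Nat.nth p l) = l := by
    rw [← count_congr_of_lt (p := p) (m := Nat.nth p l) (fun j hj => h j (hj.trans h1))]
    exact count_nth_of_lt_count hl
  conv_rhs => rw [← h3]
  exact (Nat.nth_count h2).symm

open scoped Classical in
theorem nth_injOn_count {m l l' : ℕ} (hl : l < Nat.count p m) (hl' : l' < Nat.count p m)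
    (h : Nat.nth p l = Nat.nth p l') : l = l' := by
  rw [← count_nth_of_lt_count hl, ← count_nth_of_lt_count hl', h]

end Count

variable {Ω : Type*} [TopologicalSpace Ω]

/-- first return time -/
def ret (g : Ω ≃ₜ Ω) (B : Set Ω) (ω : Ω) : ℕ := sInf {n : ℕ | 0 < n ∧ (g ^ (n : ℤ)) ω ∈ B}

/-- every point returns to `B` within time `H'` and points of `B` do not return before `H` -/
structure GoodBase (g : Ω ≃ₜ Ω) (B : Set Ω) (H H' : ℕ) : Prop where
  clopen : IsClopen B
  low : ∀ ω ∈ B, ∀ n : ℕ, 0 < n → n < H → (g ^ (n : ℤ)) ω ∉ B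
  high : ∀ ω, ∃ n : ℕ, 0 < n ∧ n ≤ H' ∧ (g ^ (n : ℤ)) ω ∈ B

variable {g : Ω ≃ₜ Ω} {B U : Set Ω} {H H' : ℕ}

theorem GoodBase.ret_spec (hB : GoodBase g B H H') (ω : Ω) :
    0 < ret g B ω ∧ (g ^ (ret g B ω : ℤ)) ω ∈ B := by
  obtain ⟨n, h1, _, h3⟩ := hB.high ω
  exact Nat.sInf_mem (s := {n : ℕ | 0 < n ∧ (g ^ (n : ℤ)) ω ∈ B}) ⟨n, h1, h3⟩

theorem GoodBase.ret_pos (hB : GoodBase g B H H') (ω : Ω) : 0 < ret g B ω := (hB.ret_spec ω).1

theorem GoodBase.ret_mem (hB : GoodBase g B H H') (ω : Ω) : (g ^ (ret g B ω : ℤ)) ω ∈ B :=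
  (hB.ret_spec ω).2

theorem ret_le_of_mem {ω : Ω} {n : ℕ} (h : 0 < n) (hn : (g ^ (n : ℤ)) ω ∈ B) : ret g B ω ≤ n :=
  Nat.sInf_le ⟨h, hn⟩

theorem GoodBase.ret_le (hB : GoodBase g B H H') (ω : Ω) : ret g B ω ≤ H' := by
  obtain ⟨n, h1, h2, h3⟩ := hB.high ω
  exact (ret_le_of_mem h1 h3).trans h2

theorem notMem_of_lt_ret {ω : Ω} {n : ℕ} (h : 0 < n) (hn : n < ret g B ω) :
    (g ^ (n : ℤ)) ω ∉ B := fun h' => absurd (ret_le_of_mem h h') (by omega)

theorem GoodBase.le_ret (hB : GoodBase g B H H') {ω : Ω} (hω : ω ∈ B) : H ≤ ret g B ω := by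
  by_contra h
  push Not at h
  exact hB.low ω hω _ (hB.ret_pos ω) h (hB.ret_mem ω)

/-- number of visits to `U` before the return to `B` -/
def cnt (g : Ω ≃ₜ Ω) (B U : Set Ω) (ω : Ω) : ℕ := visits g U (ret g B ω) ω

/-- time of the visit number `l` to `U` -/
def pos (g : Ω ≃ₜ Ω) (U : Set Ω) (ω : Ω) (l : ℕ) : ℕ :=
  Nat.nth (fun j : ℕ => (g ^ (j : ℤ)) ω ∈ U) l

open scoped Classical in
theorem visits_eq_count (g : Ω ≃ₜ Ω) (U : Set Ω) (N : ℕ) (ω : Ω) :
    visits g U N ω = Nat.count (fun j : ℕ => (g ^ (j : ℤ)) ω ∈ U) N := by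
  unfold visits
  rw [Nat.count_eq_card_filter_range]

theorem pos_lt {ω : Ω} {l : ℕ} (hl : l < cnt g B U ω) : pos g U ω l < ret g B ω := by
  classical
  unfold cnt at hl
  rw [visits_eq_count] at hl
  exact Nat.nth_lt_of_lt_count hl

theorem pos_mem {ω : Ω} {l : ℕ} (hl : l < cnt g B U ω) : (g ^ (pos g U ω l : ℤ)) ω ∈ U := by
  classical
  unfold cnt at hl
  rw [visits_eq_count] at hl
  exact nth_mem_of_lt_count (p := fun j : ℕ => (g ^ (j : ℤ)) ω ∈ U) hl

theorem pos_inj {ω : Ω} {l l' : ℕ} (hl : l < cnt g B U ω) (hl' : l' < cnt g B U ω)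
    (h : pos g U ω l = pos g U ω l') : l = l' := by
  classical
  unfold cnt at hl hl'
  rw [visits_eq_count] at hl hl'
  exact nth_injOn_count (p := fun j : ℕ => (g ^ (j : ℤ)) ω ∈ U) hl hl' h

theorem cnt_le_ret (ω : Ω) : cnt g B U ω ≤ ret g B ω := visits_le _ _ _ _

/-- two points with the same itinerary up to time `H'` -/
def SamePat (g : Ω ≃ₜ Ω) (B U : Set Ω) (H' : ℕ) (ω ω' : Ω) : Prop :=
  ∀ j : ℕ, j ≤ H' → ((g ^ (j : ℤ)) ω ∈ B ↔ (g ^ (j : ℤ)) ω' ∈ B) ∧
    ((g ^ (j : ℤ)) ω ∈ U ↔ (g ^ (j : ℤ)) ω' ∈ U)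

theorem eventually_mem_iff {S : Set Ω} (hS : IsClopen S) (i : ℤ) (ω : Ω) :
    ∀ᶠ ω' in nhds ω, ((g ^ i) ω ∈ S ↔ (g ^ i) ω' ∈ S) := by
  by_cases h : (g ^ i) ω ∈ S
  · have : (g ^ i) ⁻¹' S ∈ nhds ω := (hS.isOpen.preimage (g ^ i).continuous).mem_nhds h
    filter_upwards [this] with ω' hω'
    exact ⟨fun _ => hω', fun _ => h⟩
  · have : (g ^ i) ⁻¹' Sᶜ ∈ nhds ω := (hS.compl.isOpen.preimage (g ^ i).continuous).mem_nhds h
    filter_upwards [this] with ω' hω'
    exact ⟨fun h' => absurd h' h, fun h' => absurd h' hω'⟩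

theorem eventually_samePat (hB : IsClopen B) (hU : IsClopen U) (H' : ℕ) (ω : Ω) :
    ∀ᶠ ω' in nhds ω, SamePat g B U H' ω ω' := by
  have : ∀ᶠ ω' in nhds ω, ∀ j ∈ Finset.range (H' + 1),
      ((g ^ (j : ℤ)) ω ∈ B ↔ (g ^ (j : ℤ)) ω' ∈ B) ∧
      ((g ^ (j : ℤ)) ω ∈ U ↔ (g ^ (j : ℤ)) ω' ∈ U) := by
    rw [Filter.eventually_all_finset]
    intro j _
    exact (eventually_mem_iff hB _ _).and (eventually_mem_iff hU _ _)
  filter_upwards [this] with ω' h j hj
  exact h j (Finset.mem_range.mpr (by omega))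

theorem SamePat.symm {ω ω' : Ω} (h : SamePat g B U H' ω ω') : SamePat g B U H' ω' ω :=
  fun j hj => ⟨(h j hj).1.symm, (h j hj).2.symm⟩

theorem SamePat.ret_le {ω ω' : Ω} (hB : GoodBase g B H H') (h : SamePat g B U H' ω ω') :
    ret g B ω' ≤ ret g B ω := by
  apply ret_le_of_mem (hB.ret_pos ω)
  exact ((h _ (hB.ret_le ω)).1).mp (hB.ret_mem ω)

theorem SamePat.ret_eq {ω ω' : Ω} (hB : GoodBase g B H H') (h : SamePat g B U H' ω ω') :
    ret g B ω' = ret g B ω :=
  le_antisymm (SamePat.ret_le hB h) (SamePat.ret_le hB h.symm)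

theorem SamePat.cnt_eq {ω ω' : Ω} (hB : GoodBase g B H H') (h : SamePat g B U H' ω ω') :
    cnt g B U ω' = cnt g B U ω := by
  classical
  unfold cnt
  rw [h.ret_eq hB, visits_eq_count, visits_eq_count]
  apply count_congr_of_lt
  intro j hj
  exact ((h j (hj.le.trans (hB.ret_le ω))).2).symm

theorem SamePat.pos_eq {ω ω' : Ω} (hB : GoodBase g B H H') (h : SamePat g B U H' ω ω') {l : ℕ}
    (hl : l < cnt g B U ω) : pos g U ω' l = pos g U ω l := by
  classical
  unfold cnt at hl
  rw [visits_eq_count] at hl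
  exact (nth_congr_of_lt (m := ret g B ω)
    (fun j hj => (h j (hj.le.trans (hB.ret_le ω))).2) hl).symm

theorem SamePat.mem_iff {ω ω' : Ω} (h : SamePat g B U H' ω ω') : ω ∈ B ↔ ω' ∈ B := by
  have := (h 0 (Nat.zero_le _)).1
  simpa only [CharP.cast_eq_zero, zpow_ofNat, pow_zero, Homeomorph.one_apply] using this

/-- iterates compose -/
theorem zpow_natCast_add (g : Ω ≃ₜ Ω) (i j : ℕ) (ω : Ω) :
    (g ^ (j : ℤ)) ((g ^ (i : ℤ)) ω) = (g ^ ((i + j : ℕ) : ℤ)) ω := by
  push_cast
  rw [add_comm, zpow_add]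
  rfl

/-- blocks starting at different visits to `B` are disjoint -/
theorem block_disjoint {ω : Ω} {i i' j j' : ℕ} (hi : (g ^ (i : ℤ)) ω ∈ B)
    (hi' : (g ^ (i' : ℤ)) ω ∈ B) (hj : j < ret g B ((g ^ (i : ℤ)) ω))
    (hj' : j' < ret g B ((g ^ (i' : ℤ)) ω)) (h : i + j = i' + j') : i = i' ∧ j = j' := by
  rcases lt_trichotomy i i' with hlt | heq | hgt
  · exfalso
    obtain ⟨k, rfl⟩ := Nat.exists_eq_add_of_lt hlt
    have h1 : k + 1 < ret g B ((g ^ (i : ℤ)) ω) := by omega
    apply notMem_of_lt_ret (Nat.succ_pos k) h1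
    rw [zpow_natCast_add]
    exact hi'
  · exact ⟨heq, by omega⟩
  · exfalso
    obtain ⟨k, rfl⟩ := Nat.exists_eq_add_of_lt hgt
    have h1 : k + 1 < ret g B ((g ^ (i' : ℤ)) ω) := by omega
    apply notMem_of_lt_ret (Nat.succ_pos k) h1
    rw [zpow_natCast_add]
    exact hi

/-- every time `p ≥ H'` lies in a block -/
theorem GoodBase.exists_block (hB : GoodBase g B H H') (ω : Ω) {p : ℕ} (hp : H' ≤ p) :
    ∃ i j : ℕ, (g ^ (i : ℤ)) ω ∈ B ∧ j < ret g B ((g ^ (i : ℤ)) ω) ∧ i + j = p := by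
  classical
  obtain ⟨n, h1, h2, h3⟩ := hB.high ((g ^ ((p - H' : ℕ) : ℤ)) ω)
  rw [zpow_natCast_add] at h3
  -- the last visit to `B` not after `p`
  let P : ℕ → Prop := fun i => (g ^ (i : ℤ)) ω ∈ B
  have hPn : P (p - H' + n) := h3
  have hle : p - H' + n ≤ p := by omega
  let i := Nat.findGreatest P p
  have hi : P i := Nat.findGreatest_spec hle hPn
  have hip : i ≤ p := Nat.findGreatest_le p
  refine ⟨i, p - i, hi, ?_, by omega⟩
  by_contra hcon
  push Not at hcon
  have h4 : P (i + ret g B ((g ^ (i : ℤ)) ω)) := by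
    change (g ^ ((i + ret g B ((g ^ (i : ℤ)) ω) : ℕ) : ℤ)) ω ∈ B
    rw [← zpow_natCast_add]
    exact hB.ret_mem _
  have h5 := hB.ret_pos ((g ^ (i : ℤ)) ω)
  have h6 : i + ret g B ((g ^ (i : ℤ)) ω) ≤ i :=
    Nat.le_findGreatest (by omega) h4
  omega

end

end Vale.Agent.P093
end
end
end

section

section

section

/-!
Existence of clopen bases with long and bounded return times.
-/

open Set Filter

namespace Vale.Agent.P093

noncomputable section

variable {Ω : Type*} [TopologicalSpace Ω]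

/-- a point of a space with dense orbits which returns to itself has finite orbit -/
theorem finite_of_periodic [T1Space Ω] (g : Ω ≃ₜ Ω) {ω : Ω}
    (hd : Dense (Set.range fun n : ℤ => (g ^ n) ω)) {i : ℕ} (hi : 0 < i)
    (h : (g ^ (i : ℤ)) ω = ω) : Finite Ω := by
  classical
  have hper : ∀ k : ℤ, (g ^ ((i : ℤ) * k)) ω = ω := by
    intro k
    induction k using Int.induction_on with
    | zero => simp only [mul_zero, zpow_ofNat, pow_zero, Homeomorph.one_apply]
    | succ k ih =>
      rw [mul_add, mul_one, zpow_add]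
      change (g ^ ((i : ℤ) * k)) ((g ^ (i : ℤ)) ω) = ω
      rw [h, ih]
    | pred k ih =>
      have h2 : (g ^ (-(i : ℤ))) ω = ω := by
        conv_lhs => rw [← h]
        change ((g ^ (-(i : ℤ))) * (g ^ (i : ℤ))) ω = ω
        rw [← zpow_add]
        simp
      rw [mul_sub, mul_one, sub_eq_add_neg, zpow_add]
      change (g ^ ((i : ℤ) * -(k : ℤ))) ((g ^ (-(i : ℤ))) ω) = ω
      rw [h2, ih]
  have hfin : (Set.range fun n : ℤ => (g ^ n) ω).Finite := by
    apply Set.Finite.subset (((Finset.range i).image fun j : ℕ => (g ^ (j : ℤ)) ω).finite_toSet)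
    rintro _ ⟨n, rfl⟩
    rw [Finset.mem_coe, Finset.mem_image]
    refine ⟨(n % (i : ℤ)).toNat, ?_, ?_⟩
    · rw [Finset.mem_range]
      have h1 := Int.emod_lt_of_pos n (show (0 : ℤ) < i by exact_mod_cast hi)
      have h2 := Int.emod_nonneg n (show (i : ℤ) ≠ 0 by exact_mod_cast hi.ne')
      omega
    · have h2 := Int.emod_nonneg n (show (i : ℤ) ≠ 0 by exact_mod_cast hi.ne')
      have h3 : (g ^ n) ω = (g ^ (n % (i : ℤ))) ((g ^ ((i : ℤ) * (n / i))) ω) := by
        conv_lhs => rw [← Int.emod_add_mul_ediv n i, zpow_add]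
        rfl
      rw [hper] at h3
      rw [Int.toNat_of_nonneg h2]
      exact h3.symm
  have huniv : (Set.range fun n : ℤ => (g ^ n) ω) = Set.univ := by
    rw [← hfin.isClosed.closure_eq]
    exact hd.closure_eq
  rw [huniv] at hfin
  exact Set.finite_univ_iff.mp hfin

theorem exists_goodBase [CompactSpace Ω] [T2Space Ω] [TotallyDisconnectedSpace Ω] [Infinite Ω]
    (g : Ω ≃ₜ Ω) (hd : ∀ ω, Dense (Set.range fun n : ℤ => (g ^ n) ω)) (H : ℕ) :
    ∃ (B : Set Ω) (H' : ℕ), GoodBase g B H H' := by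
  classical
  obtain ⟨ω₀⟩ : Nonempty Ω := inferInstance
  have hne : ∀ i : ℕ, 0 < i → (g ^ (i : ℤ)) ω₀ ≠ ω₀ := by
    intro i hi h
    have := finite_of_periodic g (hd ω₀) hi h
    exact not_finite Ω
  have hV : ∀ i : ℕ, ∃ V : Set Ω, IsClopen V ∧ ω₀ ∈ V ∧
      (0 < i → ∀ x ∈ V, (g ^ (i : ℤ)) x ∉ V) := by
    intro i
    by_cases hi : 0 < i
    · obtain ⟨A, C, hA, hC, hA1, hC1, hAC⟩ := t2_separation (hne i hi)
      have hopen : IsOpen (C ∩ (g ^ (i : ℤ)) ⁻¹' A) := hC.inter (hA.preimage (g ^ (i : ℤ)).continuous)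
      obtain ⟨V, hV1, hV2, hV3⟩ := compact_exists_isClopen_in_isOpen hopen
        (show ω₀ ∈ C ∩ (g ^ (i : ℤ)) ⁻¹' A from ⟨hC1, hA1⟩)
      refine ⟨V, hV1, hV2, fun _ x hx hgx => ?_⟩
      exact Set.disjoint_left.mp hAC (hV3 hx).2 (hV3 hgx).1
    · exact ⟨Set.univ, isClopen_univ, Set.mem_univ _, fun h => absurd h hi⟩
  choose V hV1 hV2 hV3 using hV
  let B : Set Ω := ⋂ i ∈ Finset.range H, V i
  have hB : IsClopen B := (Finset.range H).finite_toSet.isClopen_biInter (fun i _ => hV1 i)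
  have hω₀ : ω₀ ∈ B := Set.mem_iInter₂.mpr fun i _ => hV2 i
  -- the translates of `B` cover
  obtain ⟨t, ht⟩ := isCompact_univ.elim_finite_subcover (fun n : ℤ => (g ^ n) ⁻¹' B)
    (fun n => hB.isOpen.preimage (g ^ n).continuous) (by
      intro ω _
      obtain ⟨_, hx, ⟨n, rfl⟩⟩ := (hd ω).inter_open_nonempty B hB.isOpen ⟨ω₀, hω₀⟩
      exact Set.mem_iUnion.mpr ⟨n, hx⟩)
  obtain ⟨k, hk⟩ : ∃ k : ℕ, ∀ n ∈ t, |n| ≤ (k : ℤ) := by
    refine ⟨t.sup Int.natAbs, fun n hn => ?_⟩
    have : n.natAbs ≤ t.sup Int.natAbs := Finset.le_sup (f := Int.natAbs) hn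
    rw [Int.abs_eq_natAbs]
    exact_mod_cast this
  refine ⟨B, 2 * k + 1, hB, ?_, ?_⟩
  · intro ω hω n hn hnH hgn
    have h1 := Set.mem_iInter₂.mp hω n (Finset.mem_range.mpr hnH)
    have h2 := Set.mem_iInter₂.mp hgn n (Finset.mem_range.mpr hnH)
    exact hV3 n hn ω h1 h2
  · intro ω
    obtain ⟨n, hn, hgn⟩ := Set.mem_iUnion₂.mp (ht (Set.mem_univ ((g ^ ((k : ℤ) + 1)) ω)))
    have h1 := abs_le.mp (hk n hn)
    refine ⟨(n + (k + 1)).toNat, by omega, by omega, ?_⟩
    rw [Int.toNat_of_nonneg (by omega), zpow_add]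
    exact hgn

end

end Vale.Agent.P093
end
end
end

section

section

section

/-!
Upper bound for the mean dimension of a frozen skew shift.
-/

open Set Filter Uniformity
open scoped ENNReal

namespace Vale.Agent.P093

noncomputable section

section Order

variable {X : Type*} [TopologicalSpace X]

theorem card_le_of_order {V : Set (Set X)} (hV : V.Finite) (x : X) (S : Finset (Set X))
    (hS : ↑S ⊆ V) (hx : ∀ s ∈ S, x ∈ s) : S.card ≤ coverOrder V + 1 := by
  have hb : BddAbove {k | ∃ S : Finset (Set X), ↑S ⊆ V ∧ (⋂₀ (S : Set (Set X))).Nonempty ∧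
      S.card = k} := by
    refine ⟨hV.toFinset.card, ?_⟩
    rintro k ⟨T, hT, _, rfl⟩
    apply Finset.card_le_card
    intro s hs
    rw [Set.Finite.mem_toFinset]
    exact hT hs
  have h1 : S.card ≤ sSup {k | ∃ S : Finset (Set X), ↑S ⊆ V ∧ (⋂₀ (S : Set (Set X))).Nonempty ∧
      S.card = k} := le_csSup hb ⟨S, hS, ⟨x, fun s hs => hx s hs⟩, rfl⟩
  unfold coverOrder
  omega

theorem order_le {V : Set (Set X)} {m : ℕ}
    (h : ∀ S : Finset (Set X), ↑S ⊆ V → (⋂₀ (S : Set (Set X))).Nonempty → S.card ≤ m + 1) :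
    coverOrder V ≤ m := by
  unfold coverOrder
  have : sSup {k | ∃ S : Finset (Set X), ↑S ⊆ V ∧ (⋂₀ (S : Set (Set X))).Nonempty ∧
      S.card = k} ≤ m + 1 := by
    rcases Set.eq_empty_or_nonempty {k | ∃ S : Finset (Set X), ↑S ⊆ V ∧
      (⋂₀ (S : Set (Set X))).Nonempty ∧ S.card = k} with he | hne
    · rw [he]; simp only [csSup_empty, Nat.bot_eq_zero, le_add_iff_nonneg_left, zero_le]
    · apply csSup_le hne
      rintro k ⟨S, h1, h2, rfl⟩
      exact h S h1 h2
  omega

theorem coverD_le {U V : Set (Set X)} {m : ℕ} (hV : IsFinCover V) (hr : Refines V U)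
    (h : coverOrder V ≤ m) : coverD U ≤ m :=
  (Nat.sInf_le (show coverOrder V ∈ {k | ∃ V : Set (Set X), IsFinCover V ∧ Refines V U ∧
    coverOrder V = k} from ⟨V, hV, hr, rfl⟩)).trans h

theorem exists_refinement {U : Set (Set X)} (hU : IsFinCover U) :
    ∃ V, IsFinCover V ∧ Refines V U ∧ coverOrder V = coverD U := by
  have hne : {k | ∃ V : Set (Set X), IsFinCover V ∧ Refines V U ∧ coverOrder V = k}.Nonempty :=
    ⟨coverOrder U, U, hU, fun v hv => ⟨v, hv, subset_rfl⟩, rfl⟩
  exact Nat.sInf_mem hne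

end Order

section Closed

variable {K Ω : Type*} [TopologicalSpace K] [TopologicalSpace Ω]

theorem isClosed_frozenSet [T2Space K] (g : Ω ≃ₜ Ω) {O : Set Ω} (hO : IsOpen O) {c : Ω → K}
    (hc : ContinuousOn c O) : IsClosed (frozenSet g O c) := by
  have h : frozenSet g O c = ⋂ i : ℤ, {p : (ℤ → K) × Ω | (g ^ i) p.2 ∈ O →
      p.1 i = c ((g ^ i) p.2)} := by
    ext p; simp only [frozenSet, mem_ofPred_eq, mem_iInter]
  rw [h]
  apply isClosed_iInter
  intro i
  rw [← isOpen_compl_iff]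
  have h2 : {p : (ℤ → K) × Ω | (g ^ i) p.2 ∈ O → p.1 i = c ((g ^ i) p.2)}ᶜ =
      {p : (ℤ → K) × Ω | (g ^ i) p.2 ∈ O} ∩
        (fun p : (ℤ → K) × Ω => (p.1 i, c ((g ^ i) p.2))) ⁻¹' (Set.diagonal K)ᶜ := by
    ext p
    simp only [mem_compl_iff, mem_ofPred_eq, Classical.not_imp, preimage_compl, mem_inter_iff, mem_preimage, mem_diagonal_iff]
  rw [h2]
  apply ContinuousOn.isOpen_inter_preimage
  · apply ContinuousOn.prodMk
    · exact ((continuous_apply i).comp continuous_fst).continuousOn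
    · apply hc.comp (((g ^ i).continuous.comp continuous_snd).continuousOn)
      intro p hp
      exact hp
  · exact hO.preimage ((g ^ i).continuous.comp continuous_snd)
  · exact isClosed_diagonal.isOpen_compl

theorem frozen_compact [T2Space K] [CompactSpace K] [CompactSpace Ω] (g : Ω ≃ₜ Ω) {O : Set Ω}
    (hO : IsOpen O) {c : Ω → K} (hc : ContinuousOn c O) : CompactSpace (frozenSet g O c) :=
  isCompact_iff_compactSpace.mp (isClosed_frozenSet g hO hc).isCompact

end Closed

section Lebesgue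

variable {K Ω : Type*} [UniformSpace K] [UniformSpace Ω]

/-- a Lebesgue number statement for the frozen skew shift -/
theorem exists_window [CompactSpace K] [T2Space K] [CompactSpace Ω] (g : Ω ≃ₜ Ω) {O : Set Ω}
    (hO : IsOpen O) {c : Ω → K} (hc : ContinuousOn c O) {U : Set (Set (frozenSet g O c))}
    (hU : IsFinCover U) :
    ∃ (M : ℕ) (E : Set (K × K)) (E' : Set (Ω × Ω)), E ∈ 𝓤 K ∧ E' ∈ 𝓤 Ω ∧
      ∀ p : frozenSet g O c, ∃ u ∈ U, ∀ q : frozenSet g O c,
        (∀ i : ℤ, -(M : ℤ) ≤ i → i ≤ M → (p.1.1 i, q.1.1 i) ∈ E) → (p.1.2, q.1.2) ∈ E' → q ∈ u := by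
  have := frozen_compact g hO hc
  obtain ⟨V, hV, hVU⟩ := lebesgue_number_lemma_sUnion (S := U) isCompact_univ hU.2.1
    (by rw [hU.2.2])
  rw [uniformity_subtype, mem_comap] at hV
  obtain ⟨V', hV', hVV⟩ := hV
  obtain ⟨E1, hE1, E2, hE2, hsub⟩ := entourageProd_subset hV'
  rw [Pi.uniformity, Filter.mem_iInf'] at hE1
  obtain ⟨I, hI, W, hW, -, hWE, -⟩ := hE1
  have hW' : ∀ i, ∃ t ∈ 𝓤 K, (fun a : (ℤ → K) × (ℤ → K) => (a.1 i, a.2 i)) ⁻¹' t ⊆ W i :=
    fun i => mem_comap.mp (hW i)
  choose t ht htW using hW'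
  obtain ⟨M, hM⟩ : ∃ M : ℕ, ∀ i ∈ I, |i| ≤ M := by
    obtain ⟨M, hM⟩ := (hI.image fun i : ℤ => i.natAbs).bddAbove
    refine ⟨M, fun i hi => ?_⟩
    have := hM (Set.mem_image_of_mem _ hi)
    rw [Int.abs_eq_natAbs]
    exact_mod_cast this
  refine ⟨M, ⋂ i ∈ I, t i, E2, (Filter.biInter_mem hI).mpr fun i _ => ht i, hE2, ?_⟩
  intro p
  obtain ⟨u, hu, hbu⟩ := hVU p (Set.mem_univ p)
  refine ⟨u, hu, fun q hq hq' => ?_⟩
  apply hbu
  apply hVV
  apply hsub
  refine ⟨?_, hq'⟩
  change (p.1.1, q.1.1) ∈ E1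
  rw [hWE]
  simp only [Set.mem_iInter]
  intro i hi
  apply htW i
  have h1 := abs_le.mp (hM i hi)
  have := hq i h1.1 h1.2
  simp only [Set.mem_iInter] at this
  exact this i hi

/-- small covers of a compact uniform space -/
theorem exists_small_cover [CompactSpace K] {E : Set (K × K)} (hE : E ∈ 𝓤 K) :
    ∃ W : Set (Set K), IsFinCover W ∧ ∀ w ∈ W, ∀ x ∈ w, ∀ y ∈ w, (x, y) ∈ E := by
  classical
  obtain ⟨D, hD, hDs, hDE⟩ := comp_symm_mem_uniformity_sets hE
  obtain ⟨t, ht⟩ := isCompact_univ.elim_nhds_subcover (fun x : K => interior (UniformSpace.ball x D))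
    (fun x _ => isOpen_interior.mem_nhds (mem_interior_iff_mem_nhds.mpr
      (UniformSpace.ball_mem_nhds x hD)))
  refine ⟨(fun x => interior (UniformSpace.ball x D)) '' (t : Set K), ⟨?_, ?_, ?_⟩, ?_⟩
  · exact t.finite_toSet.image _
  · rintro _ ⟨x, _, rfl⟩
    exact isOpen_interior
  · rw [Set.eq_univ_iff_forall]
    intro x
    obtain ⟨y, hy, hxy⟩ := Set.mem_iUnion₂.mp (ht.2 (Set.mem_univ x))
    exact ⟨_, ⟨y, hy, rfl⟩, hxy⟩
  · rintro _ ⟨z, _, rfl⟩ x hx y hy
    apply hDE
    have h1 : x ∈ UniformSpace.ball z D := interior_subset hx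
    have h2 : y ∈ UniformSpace.ball z D := interior_subset hy
    exact ⟨z, hDs.symm _ _ h1, h2⟩

end Lebesgue

section Bound

variable {K Ω : Type*} [UniformSpace K] [UniformSpace Ω]

/-- local structure of the base: small clopen pieces -/
theorem exists_signature [CompactSpace Ω] [T2Space Ω] [TotallyDisconnectedSpace Ω] (g : Ω ≃ₜ Ω)
    {O : Set Ω} {c : Ω → K} (hc : ContinuousOn c O) {Uf : Set Ω} (hUf : IsClopen Uf)
    (hOU : Oᶜ ⊆ Uf) {E : Set (K × K)} (hE : E ∈ 𝓤 K) {E' : Set (Ω × Ω)} (hE' : E' ∈ 𝓤 Ω)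
    (J : Finset ℤ) :
    ∃ (ι : Type) (_ : Fintype ι) (sig : Ω → ι), (∀ s, IsOpen (sig ⁻¹' {s})) ∧
      ∀ ω ω' : Ω, sig ω = sig ω' → ∀ i ∈ J, ((g ^ i) ω, (g ^ i) ω') ∈ E' ∧
        ((g ^ i) ω ∈ Uf ↔ (g ^ i) ω' ∈ Uf) ∧
        ((g ^ i) ω ∉ Uf → (c ((g ^ i) ω), c ((g ^ i) ω')) ∈ E) := by
  classical
  obtain ⟨D, hD, hDs, hDE⟩ := comp_symm_mem_uniformity_sets hE
  obtain ⟨D', hD', hDs', hDE'⟩ := comp_symm_mem_uniformity_sets hE'
  -- good neighbourhoods
  have hloc : ∀ ω : Ω, ∃ R : Set Ω, IsClopen R ∧ ω ∈ R ∧ ∀ ω' ∈ R, ∀ i ∈ J,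
      ((g ^ i) ω, (g ^ i) ω') ∈ D' ∧ ((g ^ i) ω ∈ Uf ↔ (g ^ i) ω' ∈ Uf) ∧
        ((g ^ i) ω ∉ Uf → (c ((g ^ i) ω), c ((g ^ i) ω')) ∈ D) := by
    intro ω
    have h1 : ∀ i : ℤ, ∀ᶠ ω' in nhds ω, ((g ^ i) ω, (g ^ i) ω') ∈ D' ∧
        ((g ^ i) ω ∈ Uf ↔ (g ^ i) ω' ∈ Uf) ∧
        ((g ^ i) ω ∉ Uf → (c ((g ^ i) ω), c ((g ^ i) ω')) ∈ D) := by
      intro i
      have hcont : ContinuousAt (fun ω' => (g ^ i) ω') ω := (g ^ i).continuous.continuousAt
      have a1 : ∀ᶠ ω' in nhds ω, ((g ^ i) ω, (g ^ i) ω') ∈ D' :=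
        hcont.eventually (mem_nhds_left _ hD')
      have a2 : ∀ᶠ ω' in nhds ω, ((g ^ i) ω ∈ Uf ↔ (g ^ i) ω' ∈ Uf) := by
        by_cases h : (g ^ i) ω ∈ Uf
        · have := hcont.eventually (hUf.isOpen.mem_nhds h)
          filter_upwards [this] with ω' h'
          exact ⟨fun _ => h', fun _ => h⟩
        · have := hcont.eventually (hUf.compl.isOpen.mem_nhds h)
          filter_upwards [this] with ω' h'
          exact ⟨fun h2 => absurd h2 h, fun h2 => absurd h2 h'⟩
      have a3 : ∀ᶠ ω' in nhds ω, ((g ^ i) ω ∉ Uf → (c ((g ^ i) ω), c ((g ^ i) ω')) ∈ D) := by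
        by_cases h : (g ^ i) ω ∈ Uf
        · exact Filter.Eventually.of_forall fun _ h2 => absurd h h2
        · have hO' : (g ^ i) ω ∈ Ufᶜ := h
          have hsub : Ufᶜ ⊆ O := by
            rw [Set.compl_subset_comm]; exact hOU
          have hn : Ufᶜ ∈ nhds ((g ^ i) ω) := hUf.compl.isOpen.mem_nhds hO'
          have hcc : ContinuousAt c ((g ^ i) ω) :=
            (hc.mono hsub).continuousAt hn
          have := (hcc.comp hcont).eventually (mem_nhds_left _ hD)
          filter_upwards [this] with ω' h' _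
          exact h'
      exact a1.and (a2.and a3)
    have h2 : ∀ᶠ ω' in nhds ω, ∀ i ∈ J, ((g ^ i) ω, (g ^ i) ω') ∈ D' ∧
        ((g ^ i) ω ∈ Uf ↔ (g ^ i) ω' ∈ Uf) ∧
        ((g ^ i) ω ∉ Uf → (c ((g ^ i) ω), c ((g ^ i) ω')) ∈ D) := by
      rw [Filter.eventually_all_finset]
      exact fun i _ => h1 i
    obtain ⟨t, ht, hto, hωt⟩ := eventually_nhds_iff.mp h2
    obtain ⟨R, hR, hωR, hRt⟩ := compact_exists_isClopen_in_isOpen hto hωt
    exact ⟨R, hR, hωR, fun ω' h' => ht ω' (hRt h')⟩
  choose R hR hωR hRg using hloc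
  obtain ⟨t, ht⟩ := isCompact_univ.elim_finite_subcover R (fun ω => (hR ω).isOpen)
    (fun ω _ => Set.mem_iUnion.mpr ⟨ω, hωR ω⟩)
  let sig : Ω → Finset (Fin t.card) := fun ω => Finset.univ.filter fun l => ω ∈ R (t.equivFin.symm l)
  refine ⟨Finset (Fin t.card), inferInstance, sig, ?_, ?_⟩
  · intro s
    have : sig ⁻¹' {s} = (⋂ l ∈ s, R (t.equivFin.symm l)) ∩
        ⋂ l ∈ sᶜ, (R (t.equivFin.symm l))ᶜ := by
      ext ω
      simp only [Set.mem_preimage, Set.mem_singleton_iff, Set.mem_inter_iff, Set.mem_iInter,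
        Set.mem_compl_iff, Finset.mem_compl, sig]
      constructor
      · rintro rfl
        constructor
        · intro l hl; simpa only [Finset.mem_filter, Finset.mem_univ, true_and] using hl
        · intro l hl; simpa only [Finset.mem_filter, Finset.mem_univ, true_and] using hl
      · rintro ⟨h1, h2⟩
        ext l
        simp only [Finset.mem_filter, Finset.mem_univ, true_and]
        constructor
        · intro h; by_contra hn; exact h2 l hn h
        · exact h1 l
    rw [this]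
    apply IsOpen.inter
    · exact isOpen_biInter_finset fun l _ => (hR _).isOpen
    · exact isOpen_biInter_finset fun l _ => (hR _).compl.isOpen
  · intro ω ω' hs i hi
    obtain ⟨ω₀, hω₀, hm⟩ := Set.mem_iUnion₂.mp (ht (Set.mem_univ ω))
    have h1 : t.equivFin ⟨ω₀, hω₀⟩ ∈ sig ω := by
      simp only [sig, Finset.mem_filter, Finset.mem_univ, true_and, Equiv.symm_apply_apply]
      exact hm
    rw [hs] at h1
    simp only [sig, Finset.mem_filter, Finset.mem_univ, true_and, Equiv.symm_apply_apply] at h1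
    have a := hRg ω₀ ω hm i hi
    have b := hRg ω₀ ω' h1 i hi
    refine ⟨?_, ?_, ?_⟩
    · apply hDE'
      exact ⟨(g ^ i) ω₀, hDs'.symm _ _ a.1, b.1⟩
    · exact a.2.1.symm.trans b.2.1
    · intro h
      have h0 : (g ^ i) ω₀ ∉ Uf := fun hh => h (a.2.1.mp hh)
      apply hDE
      exact ⟨c ((g ^ i) ω₀), hDs.symm _ _ (a.2.2 h0), b.2.2 h0⟩

open scoped Classical in
/-- a member of the refining cover -/
def fbox {ι : Type} {O : Set Ω} {c : Ω → K} (g : Ω ≃ₜ Ω) (Uf : Set Ω) (J : Finset ℤ) (sig : Ω → ι)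
    (s : ι) (C : J → Set K) : Set (frozenSet g O c) :=
  {p | sig p.1.2 = s ∧ ∀ i : J, (g ^ (i : ℤ)) p.1.2 ∈ Uf → p.1.1 i ∈ C i}

theorem frozen_iterate {O : Set Ω} {c : Ω → K} (g : Ω ≃ₜ Ω) (p : frozenSet g O c) (j : ℕ) :
    (((frozenShift g O c)^[j] p).1.1 = fun i => p.1.1 (i + j)) ∧
      ((frozenShift g O c)^[j] p).1.2 = (g ^ (j : ℤ)) p.1.2 := by
  induction j with
  | zero => simp only [Function.iterate_zero, id_eq, CharP.cast_eq_zero, add_zero, zpow_ofNat, pow_zero, Homeomorph.one_apply, and_self]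
  | succ j ih =>
    rw [Function.iterate_succ_apply']
    constructor
    · change (fun i => ((frozenShift g O c)^[j] p).1.1 (i + 1)) = _
      rw [ih.1]
      funext i
      have : i + 1 + (j : ℤ) = i + ((j + 1 : ℕ) : ℤ) := by push_cast; ring
      simp only [this]
    · change g ((frozenShift g O c)^[j] p).1.2 = _
      rw [ih.2]
      push_cast
      rw [add_comm, zpow_one_add]
      rfl

theorem coverD_join_le [CompactSpace K] [T2Space K] [CompactSpace Ω] [T2Space Ω]
    [TotallyDisconnectedSpace Ω] (g : Ω ≃ₜ Ω) {O : Set Ω}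
    (hO : IsOpen O) {c : Ω → K} (hc : ContinuousOn c O) {U : Set (Set (frozenSet g O c))}
    (hU : IsFinCover U) :
    ∃ (W : Set (Set K)) (L : ℕ), IsFinCover W ∧ ∀ Uf : Set Ω, IsClopen Uf → Oᶜ ⊆ Uf → ∀ N : ℕ,
      coverD (coverJoin (frozenShift g O c) U N) ≤ coverD W * maxVisits g Uf (N + L) := by
  classical
  obtain ⟨M, E, E', hE, hE', hwin⟩ := exists_window g hO hc hU
  obtain ⟨W, hW, hWE⟩ := exists_small_cover hE
  refine ⟨W, 2 * M + 1, hW, fun Uf hUf hOU N => ?_⟩
  set q := coverD W with hq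
  set m := maxVisits g Uf (N + (2 * M + 1)) with hm
  obtain ⟨V, hV, hVr, hVo⟩ := exists_refinement hW
  obtain ⟨C, hC⟩ := exists_colored (q := q) hV hVr (fun x S hS hx => by
    have := card_le_of_order hV.1 x S hS hx
    rw [hVo] at this
    exact this) (q * m + 1)
  -- the window
  set J : Finset ℤ := Finset.Icc (-(M : ℤ)) (N + M) with hJ
  obtain ⟨ι, hι, sig, hsig, hsig2⟩ := exists_signature g hc hUf hOU hE hE' J
  -- number of free positions
  have hfree : ∀ ω : Ω, (J.filter fun i => (g ^ i) ω ∈ Uf).card ≤ m := by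
    intro ω
    have h1 : (J.filter fun i => (g ^ i) ω ∈ Uf).card =
        visits g Uf (N + (2 * M + 1)) ((g ^ (-(M : ℤ))) ω) := by
      unfold visits
      symm
      apply Finset.card_bij (fun (j : ℕ) _ => ((j : ℤ) - M))
      · intro j hj
        rw [Finset.mem_filter, Finset.mem_range] at hj
        rw [Finset.mem_filter, hJ, Finset.mem_Icc]
        refine ⟨⟨by omega, by omega⟩, ?_⟩
        have : (g ^ ((j : ℤ) - M)) ω = (g ^ (j : ℤ)) ((g ^ (-(M : ℤ))) ω) := by
          rw [sub_eq_add_neg, zpow_add]; rfl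
        rw [this]
        exact hj.2
      · intro j hj j' hj' h
        have : (j : ℤ) = j' := by linarith only [h]
        exact_mod_cast this
      · intro i hi
        rw [Finset.mem_filter, hJ, Finset.mem_Icc] at hi
        refine ⟨(i + M).toNat, ?_, ?_⟩
        · rw [Finset.mem_filter, Finset.mem_range]
          have hnn : 0 ≤ i + M := by linarith only [hi]
          refine ⟨by omega, ?_⟩
          have : (g ^ (((i + M).toNat : ℕ) : ℤ)) ((g ^ (-(M : ℤ))) ω) = (g ^ i) ω := by
            rw [Int.toNat_of_nonneg hnn]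
            change ((g ^ (i + M)) * (g ^ (-(M : ℤ)))) ω = _
            rw [← zpow_add]
            congr 2
            ring
          rw [this]
          exact hi.2
        · have hnn : 0 ≤ i + M := by linarith only [hi]
          rw [Int.toNat_of_nonneg hnn]
          ring
    rw [h1]
    exact visits_le_max _ _ _ _
  -- the cover
  let VV : Set (Set (frozenSet g O c)) := {s | s.Nonempty ∧ ∃ (σ : ι) (k : Fin (q * m + 1))
    (D : J → Set K), (∀ i, D i ∈ insert ∅ (C k)) ∧ s = fbox g Uf J sig σ D}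
  have hopen : ∀ (σ : ι) (D : J → Set K), (∀ i, IsOpen (D i)) →
      IsOpen (fbox (O := O) (c := c) g Uf J sig σ D) := by
    intro σ D hD
    have h1 : fbox (O := O) (c := c) g Uf J sig σ D =
        {p : frozenSet g O c | p.1.2 ∈ sig ⁻¹' {σ}} ∩
        ⋂ i : J, ({p : frozenSet g O c | (g ^ (i : ℤ)) p.1.2 ∈ Ufᶜ} ∪
          {p : frozenSet g O c | p.1.1 i ∈ D i}) := by
      ext p
      simp only [fbox, Set.mem_setOf_eq, Set.mem_inter_iff, Set.mem_preimage,
        Set.mem_singleton_iff, Set.mem_iInter, Set.mem_union, Set.mem_compl_iff]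
      constructor
      · rintro ⟨h1, h2⟩
        refine ⟨h1, fun i => ?_⟩
        by_cases h : (g ^ (i : ℤ)) p.1.2 ∈ Uf
        · exact Or.inr (h2 i h)
        · exact Or.inl h
      · rintro ⟨h1, h2⟩
        refine ⟨h1, fun i h => ?_⟩
        exact (h2 i).resolve_left (not_not.mpr h)
    rw [h1]
    apply IsOpen.inter
    · exact (hsig σ).preimage (continuous_snd.comp continuous_subtype_val)
    · apply isOpen_iInter_of_finite
      intro i
      apply IsOpen.union
      · exact hUf.compl.isOpen.preimage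
          ((g ^ (i : ℤ)).continuous.comp (continuous_snd.comp continuous_subtype_val))
      · exact (hD i).preimage
          ((continuous_apply (i : ℤ)).comp (continuous_fst.comp continuous_subtype_val))
  have hVVfin : VV.Finite := by
    have hsub : VV ⊆ ⋃ (σ : ι), ⋃ (k : Fin (q * m + 1)),
        (fun D : J → Set K => fbox g Uf J sig σ D) '' {D | ∀ i, D i ∈ insert ∅ (C k)} := by
      rintro s ⟨_, σ, k, D, hD, rfl⟩
      rw [Set.mem_iUnion]
      refine ⟨σ, ?_⟩
      rw [Set.mem_iUnion]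
      exact ⟨k, D, hD, rfl⟩
    apply Set.Finite.subset _ hsub
    apply Set.finite_iUnion
    intro σ
    apply Set.finite_iUnion
    intro k
    apply Set.Finite.image
    exact Set.Finite.pi' fun i => (hC.fin k).insert ∅
  have hVVcov : IsFinCover VV := by
    refine ⟨hVVfin, ?_, ?_⟩
    · rintro s ⟨_, σ, k, D, hD, rfl⟩
      apply hopen
      intro i
      rcases hD i with h | h
      · rw [h]; exact isOpen_empty
      · exact hC.op k _ h
    · rw [Set.eq_univ_iff_forall]
      intro p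
      -- choose a colour
      set J' := J.filter fun i => (g ^ i) p.1.2 ∈ Uf with hJ'
      have hcol : ∃ k : Fin (q * m + 1), ∀ i ∈ J', p.1.1 i ∈ ⋃₀ C k := by
        by_contra hcon
        push Not at hcon
        have h1 : ∑ k : Fin (q * m + 1), ∑ i ∈ J', (if p.1.1 i ∈ ⋃₀ C k then 0 else 1) ≤ q * m := by
          rw [Finset.sum_comm]
          calc ∑ i ∈ J', ∑ k : Fin (q * m + 1), (if p.1.1 i ∈ ⋃₀ C k then 0 else 1)
              ≤ ∑ _i ∈ J', q := Finset.sum_le_sum fun i _ => hC.miss (p.1.1 i)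
            _ = J'.card * q := by rw [Finset.sum_const, smul_eq_mul]
            _ ≤ m * q := Nat.mul_le_mul_right _ (hfree _)
            _ = q * m := mul_comm _ _
        have h2 : ∑ _k : Fin (q * m + 1), 1 ≤ ∑ k : Fin (q * m + 1), ∑ i ∈ J',
            (if p.1.1 i ∈ ⋃₀ C k then 0 else 1) := by
          apply Finset.sum_le_sum
          intro k _
          obtain ⟨i, hi, hik⟩ := hcon k
          calc 1 = (if p.1.1 i ∈ ⋃₀ C k then 0 else 1) := by rw [if_neg hik]
            _ ≤ _ := Finset.single_le_sum (f := fun i => if p.1.1 i ∈ ⋃₀ C k then 0 else 1)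
                (fun _ _ => Nat.zero_le _) hi
        simp only [Finset.sum_const, Finset.card_univ, Fintype.card_fin, smul_eq_mul,
          mul_one] at h2
        omega
      obtain ⟨k, hk⟩ := hcol
      let D : J → Set K := fun i => if h : p.1.1 i ∈ ⋃₀ C k then h.choose else ∅
      have hD : ∀ i, D i ∈ insert ∅ (C k) := by
        intro i
        simp only [D]
        split_ifs with h
        · exact Set.mem_insert_of_mem _ h.choose_spec.1
        · exact Set.mem_insert _ _
      have hp : p ∈ fbox g Uf J sig (sig p.1.2) D := by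
        refine ⟨rfl, fun i hi => ?_⟩
        have h : p.1.1 i ∈ ⋃₀ C k := hk i (by
          rw [hJ', Finset.mem_filter]; exact ⟨i.2, hi⟩)
        simp only [D]
        rw [dif_pos h]
        exact h.choose_spec.2
      exact ⟨_, ⟨⟨p, hp⟩, sig p.1.2, k, D, hD, rfl⟩, hp⟩
  have hVVref : Refines VV (coverJoin (frozenShift g O c) U N) := by
    rintro s ⟨⟨p, hp⟩, σ, k, D, hD, rfl⟩
    have hu : ∀ j : Fin N, ∃ u ∈ U, ∀ q : frozenSet g O c,
        (∀ i : ℤ, -(M : ℤ) ≤ i → i ≤ M →
          (((frozenShift g O c)^[(j : ℕ)] p).1.1 i, q.1.1 i) ∈ E) →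
        (((frozenShift g O c)^[(j : ℕ)] p).1.2, q.1.2) ∈ E' → q ∈ u := fun j =>
      hwin ((frozenShift g O c)^[(j : ℕ)] p)
    choose f hf hf2 using hu
    refine ⟨⋂ j : Fin N, (⇑(frozenShift g O c))^[(j : ℕ)] ⁻¹' f j, ⟨f, hf, rfl⟩, ?_⟩
    intro p' hp'
    rw [Set.mem_iInter]
    intro j
    apply hf2 j
    · intro i hi1 hi2
      rw [(frozen_iterate g p j).1, (frozen_iterate g p' j).1]
      have hiJ : i + (j : ℕ) ∈ J := by
        rw [hJ, Finset.mem_Icc]
        have := j.2
        constructor <;> omega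
      have hs := hsig2 p.1.2 p'.1.2 (hp.1.trans hp'.1.symm) (i + (j : ℕ)) hiJ
      by_cases hU' : (g ^ (i + (j : ℕ) : ℤ)) p.1.2 ∈ Uf
      · have a := hp.2 ⟨i + (j : ℕ), hiJ⟩ hU'
        have b := hp'.2 ⟨i + (j : ℕ), hiJ⟩ (hs.2.1.mp hU')
        have hDi := hD ⟨i + (j : ℕ), hiJ⟩
        rcases hDi with h | h
        · rw [h] at a; exact absurd a (Set.notMem_empty _)
        · obtain ⟨w, hw, hDw⟩ := hC.ref k _ h
          exact hWE w hw _ (hDw a) _ (hDw b)
      · have hUO : Ufᶜ ⊆ O := by rw [Set.compl_subset_comm]; exact hOU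
        have a := p.2 (i + (j : ℕ)) (hUO hU')
        have b := p'.2 (i + (j : ℕ)) (hUO (fun h => hU' (hs.2.1.mpr h)))
        change (p.1.1 (i + (j : ℕ)), p'.1.1 (i + (j : ℕ))) ∈ E
        rw [a, b]
        exact hs.2.2 hU'
    · rw [(frozen_iterate g p j).2, (frozen_iterate g p' j).2]
      have hjJ : ((j : ℕ) : ℤ) ∈ J := by
        rw [hJ, Finset.mem_Icc]
        have := j.2
        constructor <;> omega
      exact (hsig2 p.1.2 p'.1.2 (hp.1.trans hp'.1.symm) _ hjJ).1
  have hVVord : coverOrder VV ≤ q * m := by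
    apply order_le
    rintro S hS ⟨p, hp⟩
    have hcol : ∀ s : S, ∃ k : Fin (q * m + 1), ∃ (σ : ι) (D : J → Set K),
        (∀ i, D i ∈ insert ∅ (C k)) ∧ (s : Set (frozenSet g O c)) = fbox g Uf J sig σ D := by
      intro s
      obtain ⟨_, σ, k, D, hD, hs⟩ := hS s.2
      exact ⟨k, σ, D, hD, hs⟩
    choose k σ D hD hs using hcol
    have hinj : Function.Injective k := by
      intro s s' hk
      apply Subtype.ext
      have hps : p ∈ fbox g Uf J sig (σ s) (D s) := by rw [← hs]; exact hp s s.2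
      have hps' : p ∈ fbox g Uf J sig (σ s') (D s') := by rw [← hs]; exact hp s' s'.2
      rw [hs, hs]
      have hσ : σ s = σ s' := hps.1.symm.trans hps'.1
      have hDD : ∀ i : J, (g ^ (i : ℤ)) p.1.2 ∈ Uf → D s i = D s' i := by
        intro i hi
        have a := hps.2 i hi
        have b := hps'.2 i hi
        have h1 := hD s i
        have h2 := hD s' i
        rcases h1 with h1 | h1
        · rw [h1] at a; exact absurd a (Set.notMem_empty _)
        · rcases h2 with h2 | h2
          · rw [h2] at b; exact absurd b (Set.notMem_empty _)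
          · rw [← hk] at h2
            exact hC.disj (k s) _ h1 _ h2 ⟨_, a, b⟩
      ext p'
      constructor
      · rintro ⟨h1, h2⟩
        refine ⟨by rw [h1, hσ], fun i hi => ?_⟩
        have hs' := hsig2 p.1.2 p'.1.2 (hps.1.trans h1.symm) i i.2
        rw [← hDD i (hs'.2.1.mpr hi)]
        exact h2 i hi
      · rintro ⟨h1, h2⟩
        refine ⟨by rw [h1, hσ], fun i hi => ?_⟩
        have hs' := hsig2 p.1.2 p'.1.2 (hps'.1.trans h1.symm) i i.2
        rw [hDD i (hs'.2.1.mpr hi)]
        exact h2 i hi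
    have := Fintype.card_le_of_injective k hinj
    simpa only [ge_iff_le, Fintype.card_coe, Fintype.card_fin] using this
  exact coverD_le hVVcov hVVref hVVord

end Bound

end

end Vale.Agent.P093
end
end
end

section

section

section

/-!
The mean dimension of a frozen skew shift is at most the covering dimension of the alphabet times
the upper density of the free positions.
-/

open Set Filter Uniformity
open scoped ENNReal

namespace Vale.Agent.P093

noncomputable section

theorem limsup_visits {a : ℕ → ℕ} {A v N₁ L : ℕ} (hN₁ : 0 < N₁)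
    (ha : ∀ N, a N ≤ A * (((N + L) / N₁ + 1) * v)) :
    limsup (fun N : ℕ => (a N : ℝ≥0∞) / (N : ℝ≥0∞)) atTop ≤ (A : ℝ≥0∞) * ((v : ℝ≥0∞) / N₁) := by
  have hN₁' : (N₁ : ℝ≥0∞) ≠ 0 := by exact_mod_cast hN₁.ne'
  have hN₁t : (N₁ : ℝ≥0∞) ≠ ∞ := ENNReal.natCast_ne_top _
  have hb : ∀ N : ℕ, 0 < N → (a N : ℝ≥0∞) / N ≤
      ((A : ℝ≥0∞) * v) * ((N₁ : ℝ≥0∞)⁻¹ + ((L : ℝ≥0∞) / N₁ + 1) * (N : ℝ≥0∞)⁻¹) := by
    intro N hN
    have hN0 : (N : ℝ≥0∞) ≠ 0 := by exact_mod_cast hN.ne'
    have hNt : (N : ℝ≥0∞) ≠ ∞ := ENNReal.natCast_ne_top _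
    have h1 : (a N : ℝ≥0∞) ≤ (A : ℝ≥0∞) * (((((N + L) / N₁ : ℕ) : ℝ≥0∞) + 1) * v) := by
      exact_mod_cast ha N
    have h2 : (((N + L) / N₁ : ℕ) : ℝ≥0∞) ≤ ((N : ℝ≥0∞) + L) / N₁ := by
      rw [ENNReal.le_div_iff_mul_le (Or.inl hN₁') (Or.inl hN₁t)]
      exact_mod_cast Nat.div_mul_le_self (N + L) N₁
    calc (a N : ℝ≥0∞) / N ≤ ((A : ℝ≥0∞) * ((((N : ℝ≥0∞) + L) / N₁ + 1) * v)) / N := by
          apply ENNReal.div_le_div_right
          refine h1.trans ?_
          (clear * - h2; gcongr)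
      _ = _ := by
          rw [ENNReal.div_eq_inv_mul, ENNReal.add_div, ENNReal.div_eq_inv_mul (a := (N : ℝ≥0∞))]
          have h3 : (N : ℝ≥0∞)⁻¹ * (N : ℝ≥0∞) = 1 := ENNReal.inv_mul_cancel hN0 hNt
          calc (N : ℝ≥0∞)⁻¹ * ((A : ℝ≥0∞) * (((N₁ : ℝ≥0∞)⁻¹ * N + (L : ℝ≥0∞) / N₁ + 1) * v))
              = ((A : ℝ≥0∞) * v) * ((N₁ : ℝ≥0∞)⁻¹ * ((N : ℝ≥0∞)⁻¹ * (N : ℝ≥0∞)) +
                ((L : ℝ≥0∞) / N₁ + 1) * (N : ℝ≥0∞)⁻¹) := by ring
            _ = _ := by rw [h3, mul_one]
  have hlim : Tendsto (fun N : ℕ => ((A : ℝ≥0∞) * v) * ((N₁ : ℝ≥0∞)⁻¹ +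
      ((L : ℝ≥0∞) / N₁ + 1) * (N : ℝ≥0∞)⁻¹)) atTop
      (nhds (((A : ℝ≥0∞) * v) * ((N₁ : ℝ≥0∞)⁻¹ + ((L : ℝ≥0∞) / N₁ + 1) * 0))) := by
    apply ENNReal.Tendsto.const_mul
    · apply Tendsto.const_add
      apply ENNReal.Tendsto.const_mul ENNReal.tendsto_inv_nat_nhds_zero
      right
      exact ENNReal.add_ne_top.mpr ⟨ENNReal.div_ne_top (ENNReal.natCast_ne_top _) hN₁',
        ENNReal.one_ne_top⟩
    · right
      exact ENNReal.mul_ne_top (ENNReal.natCast_ne_top _) (ENNReal.natCast_ne_top _)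
  calc limsup (fun N : ℕ => (a N : ℝ≥0∞) / (N : ℝ≥0∞)) atTop
      ≤ limsup (fun N : ℕ => ((A : ℝ≥0∞) * v) * ((N₁ : ℝ≥0∞)⁻¹ +
        ((L : ℝ≥0∞) / N₁ + 1) * (N : ℝ≥0∞)⁻¹)) atTop := by
        refine limsup_le_limsup ?_ (by isBoundedDefault) (by isBoundedDefault)
        filter_upwards [eventually_gt_atTop 0] with N hN
        exact hb N hN
    _ = ((A : ℝ≥0∞) * v) * ((N₁ : ℝ≥0∞)⁻¹ + ((L : ℝ≥0∞) / N₁ + 1) * 0) := hlim.limsup_eq
    _ = _ := by
        rw [mul_zero, add_zero, mul_assoc, ENNReal.div_eq_inv_mul, mul_comm (v : ℝ≥0∞)]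

section

variable {K Ω : Type*}

theorem mdim_frozen_le_aux [UniformSpace K] [UniformSpace Ω] [CompactSpace K] [T2Space K]
    [CompactSpace Ω] [T2Space Ω] [TotallyDisconnectedSpace Ω] (g : Ω ≃ₜ Ω) {O : Set Ω}
    (hO : IsOpen O) {c : Ω → K} (hc : ContinuousOn c O) :
    mdim (frozenShift g O c) ≤ covDim K * dens g Oᶜ := by
  unfold mdim
  apply iSup₂_le
  intro U hU
  obtain ⟨W, L, hW, hWL⟩ := coverD_join_le g hO hc hU
  have h1 : ∀ N₁ : ℕ, 0 < N₁ → limsup (fun N : ℕ =>
      (coverD (coverJoin (frozenShift g O c) U N) : ℝ≥0∞) / (N : ℝ≥0∞)) atTop ≤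
      (coverD W : ℝ≥0∞) * ((maxVisits g Oᶜ N₁ : ℝ≥0∞) / N₁) := by
    intro N₁ hN₁
    obtain ⟨Uf, hUf, hOU, hvis⟩ := exists_clopen_approx g hO.isClosed_compl N₁
    refine (limsup_visits (A := coverD W) (v := maxVisits g Uf N₁) (L := L) hN₁ ?_).trans ?_
    · intro N
      refine (hWL Uf hUf hOU N).trans ?_
      exact Nat.mul_le_mul_left _ (maxVisits_le_div hN₁ _)
    · (clear * - hvis; gcongr)
  have h2 : limsup (fun N : ℕ =>
      (coverD (coverJoin (frozenShift g O c) U N) : ℝ≥0∞) / (N : ℝ≥0∞)) atTop ≤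
      (coverD W : ℝ≥0∞) * dens g Oᶜ := by
    unfold dens
    by_cases hA : coverD W = 0
    · rw [hA, Nat.cast_zero, zero_mul]
      refine (h1 1 one_pos).trans ?_
      rw [hA, Nat.cast_zero, zero_mul]
    · have hA0 : (coverD W : ℝ≥0∞) ≠ 0 := by exact_mod_cast hA
      simp only [ENNReal.mul_iInf_of_ne hA0 (ENNReal.natCast_ne_top _)]
      exact le_iInf₂ h1
  refine h2.trans ?_
  gcongr
  exact le_iSup₂ (f := fun (U : Set (Set K)) (_ : IsFinCover U) => (coverD U : ℝ≥0∞)) W hW

/-- **Upper bound for the mean dimension.** -/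
theorem mdim_frozen_le [TopologicalSpace K] [TopologicalSpace Ω] [CompactSpace K] [T2Space K]
    [CompactSpace Ω] [T2Space Ω] [TotallyDisconnectedSpace Ω] (g : Ω ≃ₜ Ω) {O : Set Ω}
    (hO : IsOpen O) {c : Ω → K} (hc : ContinuousOn c O) :
    mdim (frozenShift g O c) ≤ covDim K * dens g Oᶜ := by
  let _ : UniformSpace K := uniformSpaceOfCompactR1
  let _ : UniformSpace Ω := uniformSpaceOfCompactR1
  exact mdim_frozen_le_aux g hO hc

end

end

end Vale.Agent.P093
end
end
end

section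

section

section

/-!
Periodic labels of the integers with free positions, and their refinement: the next label fills
enough free positions with all patterns and keeps a prescribed density of free positions.
-/

open Set

namespace Vale.Agent.P093

noncomputable section

/-- a periodic labelling of the integers by elements of `K`, with free positions `none` -/
structure Stage (K : Type*) where
  /-- exponent of the period -/
  e : ℕ
  /-- the label -/
  p : ℤ → Option K
  /-- periodicity -/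
  per : ∀ n, p (n + 2 ^ e) = p n

variable {K : Type*}

theorem Stage.per_mul (S : Stage K) (n k : ℤ) : S.p (n + k * 2 ^ S.e) = S.p n := by
  induction k using Int.induction_on with
  | zero => simp
  | succ k ih =>
    rw [add_mul, one_mul, ← add_assoc, S.per, ih]
  | pred k ih =>
    have h := S.per (n + (-(k : ℤ) - 1) * 2 ^ S.e)
    rw [← h, ← ih]
    congr 1
    ring

theorem Stage.congr_of_dvd (S : Stage K) {n n' : ℤ} (h : (2 : ℤ) ^ S.e ∣ n - n') :
    S.p n = S.p n' := by
  obtain ⟨k, hk⟩ := h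
  have : n = n' + k * 2 ^ S.e := by linarith only [hk]
  rw [this, S.per_mul]

open scoped Classical in
/-- number of free positions in a period -/
def Stage.free (S : Stage K) : ℕ :=
  ((Finset.range (2 ^ S.e)).filter fun n : ℕ => S.p n = none).card

/-- density of free positions -/
def Stage.rho (S : Stage K) : ℝ := S.free / 2 ^ S.e

theorem sum_range_mul_eq (f : ℕ → ℕ) (R Q : ℕ) :
    ∑ n ∈ Finset.range (R * Q), f n = ∑ t ∈ Finset.range R, ∑ j ∈ Finset.range Q, f (t * Q + j) := by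
  induction R with
  | zero => simp
  | succ R ih =>
    rw [Nat.succ_mul, Finset.sum_range_add, ih, Finset.sum_range_succ]

/-- filled label -/
def fillP (S : Stage K) (r s : ℕ) (F : ℕ → ℕ → K) (n : ℤ) : Option K :=
  open scoped Classical in
  if S.p n = none then
    if ((n / (2 ^ (S.e + 1))) % 2 ^ r).toNat < s then
      some (F ((n / (2 ^ (S.e + 1))) % 2 ^ r).toNat (n % (2 ^ (S.e + 1))).toNat)
    else none
  else S.p n

theorem fillP_per (S : Stage K) (r s : ℕ) (F : ℕ → ℕ → K) (n : ℤ) :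
    fillP S r s F (n + 2 ^ (S.e + 1 + r)) = fillP S r s F n := by
  have h1 : S.p (n + 2 ^ (S.e + 1 + r)) = S.p n := by
    have : (2 : ℤ) ^ (S.e + 1 + r) = (2 * 2 ^ r) * 2 ^ S.e := by ring
    rw [this, S.per_mul]
  have h0 : (2 : ℤ) ^ (S.e + 1) ≠ 0 := by positivity
  have h2 : (n + 2 ^ (S.e + 1 + r)) / 2 ^ (S.e + 1) = n / 2 ^ (S.e + 1) + 2 ^ r := by
    have : (2 : ℤ) ^ (S.e + 1 + r) = 2 ^ r * 2 ^ (S.e + 1) := by ring
    rw [this, Int.add_mul_ediv_right _ _ h0]
  have h3 : (n + 2 ^ (S.e + 1 + r)) % 2 ^ (S.e + 1) = n % 2 ^ (S.e + 1) := by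
    have : (2 : ℤ) ^ (S.e + 1 + r) = 2 ^ r * 2 ^ (S.e + 1) := by ring
    rw [this, Int.add_mul_emod_self_right]
  unfold fillP
  rw [h1, h2, h3, Int.add_emod_right]

/-- the filled stage -/
def fillS (S : Stage K) (r s : ℕ) (F : ℕ → ℕ → K) : Stage K where
  e := S.e + 1 + r
  p := fillP S r s F
  per := fillP_per S r s F

theorem fillP_of_ne (S : Stage K) (r s : ℕ) (F : ℕ → ℕ → K) {n : ℤ} (h : S.p n ≠ none) :
    fillP S r s F n = S.p n := by
  unfold fillP
  rw [if_neg h]

theorem ediv_block (S : Stage K) {r t j : ℕ} (ht : t < 2 ^ r) (hj : j < 2 ^ (S.e + 1)) :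
    (((t * 2 ^ (S.e + 1) + j : ℕ) : ℤ) / 2 ^ (S.e + 1)) % 2 ^ r = t ∧
    ((t * 2 ^ (S.e + 1) + j : ℕ) : ℤ) % 2 ^ (S.e + 1) = j := by
  have h0 : (0 : ℕ) < 2 ^ (S.e + 1) := by positivity
  constructor
  · have h1 : (t * 2 ^ (S.e + 1) + j) / 2 ^ (S.e + 1) % 2 ^ r = t := by
      rw [mul_comm, Nat.mul_add_div h0, Nat.div_eq_of_lt hj, add_zero, Nat.mod_eq_of_lt ht]
    exact_mod_cast h1
  · have h1 : (t * 2 ^ (S.e + 1) + j) % 2 ^ (S.e + 1) = j := by
      rw [mul_comm, Nat.mul_add_mod, Nat.mod_eq_of_lt hj]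
    exact_mod_cast h1

theorem per_block (S : Stage K) (t j : ℕ) :
    S.p ((t * 2 ^ (S.e + 1) + j : ℕ) : ℤ) = S.p j := by
  have : ((t * 2 ^ (S.e + 1) + j : ℕ) : ℤ) = (j : ℤ) + (t * 2) * 2 ^ S.e := by
    push_cast; ring
  rw [this, S.per_mul]

theorem fillP_block (S : Stage K) {r s : ℕ} (F : ℕ → ℕ → K) {t j : ℕ} (ht : t < 2 ^ r)
    (hj : j < 2 ^ (S.e + 1)) :
    fillP S r s F ((t * 2 ^ (S.e + 1) + j : ℕ) : ℤ) =
      open scoped Classical in
      if S.p j = none then (if t < s then some (F t j) else none) else S.p j := by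
  unfold fillP
  rw [per_block, (ediv_block S ht hj).1, (ediv_block S ht hj).2]
  simp

theorem free_double (S : Stage K) :
    (open scoped Classical in ∑ j ∈ Finset.range (2 ^ (S.e + 1)), if S.p (j : ℤ) = none then 1 else 0) =
      2 * S.free := by
  classical
  have h1 : 2 ^ (S.e + 1) = 2 * 2 ^ S.e := by ring
  rw [h1, sum_range_mul_eq]
  have h2 : ∀ t ∈ Finset.range 2, ∑ j ∈ Finset.range (2 ^ S.e),
      (if S.p ((t * 2 ^ S.e + j : ℕ) : ℤ) = none then 1 else 0) = S.free := by
    intro t _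
    unfold Stage.free
    rw [Finset.card_filter]
    apply Finset.sum_congr rfl
    intro j _
    have : ((t * 2 ^ S.e + j : ℕ) : ℤ) = (j : ℤ) + t * 2 ^ S.e := by push_cast; ring
    rw [this, S.per_mul]
  rw [Finset.sum_congr rfl h2]
  simp

theorem free_fillS (S : Stage K) {r s : ℕ} (hs : s ≤ 2 ^ r) (F : ℕ → ℕ → K) :
    (fillS S r s F).free = (2 ^ r - s) * (2 * S.free) := by
  classical
  have h1 : (fillS S r s F).free = ∑ n ∈ Finset.range (2 ^ r * 2 ^ (S.e + 1)),
      (if fillP S r s F (n : ℤ) = none then 1 else 0) := by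
    unfold Stage.free
    rw [Finset.card_filter]
    have : 2 ^ (fillS S r s F).e = 2 ^ r * 2 ^ (S.e + 1) := by
      change 2 ^ (S.e + 1 + r) = _
      ring
    rw [this]
    rfl
  rw [h1, sum_range_mul_eq]
  have h2 : ∀ t ∈ Finset.range (2 ^ r), ∑ j ∈ Finset.range (2 ^ (S.e + 1)),
      (if fillP S r s F ((t * 2 ^ (S.e + 1) + j : ℕ) : ℤ) = none then 1 else 0) =
      if s ≤ t then 2 * S.free else 0 := by
    intro t ht
    rw [Finset.mem_range] at ht
    by_cases hst : s ≤ t
    · rw [if_pos hst, ← free_double]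
      apply Finset.sum_congr rfl
      intro j hj
      rw [Finset.mem_range] at hj
      rw [fillP_block S F ht hj]
      by_cases hp : S.p (j : ℤ) = none
      · simp [hp, not_lt.mpr hst]
      · simp [hp]
    · rw [if_neg hst]
      apply Finset.sum_eq_zero
      intro j hj
      rw [Finset.mem_range] at hj
      rw [fillP_block S F ht hj]
      push Not at hst
      by_cases hp : S.p (j : ℤ) = none
      · simp [hp, hst]
      · simp [hp]
  rw [Finset.sum_congr rfl h2, ← Finset.sum_filter, Finset.sum_const, smul_eq_mul]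
  congr 1
  have h3 : (Finset.range (2 ^ r)).filter (fun t => s ≤ t) = Finset.Ico s (2 ^ r) := by
    ext t
    rw [Finset.mem_filter, Finset.mem_range, Finset.mem_Ico]
    (clear * -; tauto)
  rw [h3, Nat.card_Ico]

theorem rho_fillS (S : Stage K) {r s : ℕ} (hs : s ≤ 2 ^ r) (F : ℕ → ℕ → K) :
    (fillS S r s F).rho = S.rho * (1 - s / 2 ^ r) := by
  unfold Stage.rho
  rw [free_fillS S hs F]
  change (((2 ^ r - s) * (2 * S.free) : ℕ) : ℝ) / 2 ^ (S.e + 1 + r) = _
  push_cast [Nat.cast_sub hs]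
  field_simp
  ring

theorem rho_le_one (S : Stage K) : S.rho ≤ 1 := by
  classical
  unfold Stage.rho Stage.free
  rw [div_le_one (by positivity)]
  have := Finset.card_filter_le (Finset.range (2 ^ S.e)) (fun n : ℕ => S.p n = none)
  rw [Finset.card_range] at this
  exact_mod_cast this

/-- **Refinement step.** -/
theorem exists_next (κ : ℕ → K) {D : ℝ} (hD : 0 ≤ D) (S : Stage K) (hS : D < S.rho) (m : ℕ) :
    ∃ S' : Stage K, S.e < S'.e ∧ (∀ n, S.p n ≠ none → S'.p n = S.p n) ∧ D < S'.rho ∧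
      S'.rho ≤ D + 1 / (m + 1) ∧
      ∀ f : ℕ → Fin (m + 1), ∃ n₀ : ℤ, (2 : ℤ) ^ S.e ∣ n₀ ∧
        ∀ j : ℕ, j < 2 * 2 ^ S.e → S.p j = none → S'.p (n₀ + j) = some (κ (f j)) := by
  classical
  set Q := 2 ^ (S.e + 1) with hQ
  set N := Fintype.card (Fin Q → Fin (m + 1)) with hN
  let eN := Fintype.equivFin (Fin Q → Fin (m + 1))
  have hρ0 : 0 < S.rho := lt_of_le_of_lt hD hS
  -- choice of `r`
  obtain ⟨r, hr⟩ : ∃ r : ℕ, S.rho * N / (S.rho - D) + (m + 1) < 2 ^ r := by
    obtain ⟨r, hr⟩ := exists_nat_gt (S.rho * N / (S.rho - D) + (m + 1))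
    refine ⟨r, hr.trans ?_⟩
    exact_mod_cast Nat.lt_two_pow_self
  have h2r : (0 : ℝ) < 2 ^ r := by positivity
  have hsub : 0 < S.rho - D := by linarith only [hS]
  have hnn : 0 ≤ S.rho * N / (S.rho - D) := by positivity
  have hr1 : S.rho * N < (S.rho - D) * 2 ^ r := by
    have h1 : S.rho * N / (S.rho - D) < 2 ^ r := by
      have : (0 : ℝ) ≤ m := Nat.cast_nonneg _
      linarith only [hr]
    rw [div_lt_iff₀ hsub] at h1
    linarith only [h1]
  have hr2 : (m + 1 : ℝ) ≤ 2 ^ r := by linarith only [hr, hnn]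
  -- choice of `s`
  let P : ℕ → Prop := fun s => D < S.rho * (1 - s / 2 ^ r)
  have hNr : N ≤ 2 ^ r := by
    have h1 : S.rho * N < S.rho * 2 ^ r := by nlinarith only [hr1, hD, h2r]
    have h2 := lt_of_mul_lt_mul_left h1 hρ0.le
    exact_mod_cast h2.le
  have hPN : P N := by
    change D < S.rho * (1 - N / 2 ^ r)
    have h1 : S.rho * (N / 2 ^ r) < S.rho - D := by
      rw [mul_div_assoc', div_lt_iff₀ h2r]
      exact hr1
    linarith only [h1]
  set s := Nat.findGreatest P (2 ^ r) with hs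
  have hPs : P s := Nat.findGreatest_spec hNr hPN
  have hNs : N ≤ s := Nat.le_findGreatest hNr hPN
  have hsr : s ≤ 2 ^ r := Nat.findGreatest_le _
  have hsr' : s < 2 ^ r := by
    rcases lt_or_eq_of_le hsr with h | h
    · exact h
    · exfalso
      have h1 : D < S.rho * (1 - (s : ℝ) / 2 ^ r) := hPs
      rw [h] at h1
      push_cast at h1
      rw [div_self h2r.ne', sub_self, mul_zero] at h1
      linarith only [hD, h1]
  have hPs1 : ¬ P (s + 1) := Nat.findGreatest_is_greatest (Nat.lt_succ_self s) hsr'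
  have hPs1' : S.rho * (1 - ((s : ℝ) + 1) / 2 ^ r) ≤ D := by
    have : ¬ D < S.rho * (1 - ((s + 1 : ℕ) : ℝ) / 2 ^ r) := hPs1
    push Not at this
    push_cast at this
    exact this
  -- the patterns
  let F : ℕ → ℕ → K := fun t j =>
    if h : t < N ∧ j < Q then κ (eN.symm ⟨t, h.1⟩ ⟨j, h.2⟩) else κ 0
  refine ⟨fillS S r s F, ?_, fun n hn => fillP_of_ne S r s F hn, ?_, ?_, ?_⟩
  · change S.e < S.e + 1 + r
    omega
  · rw [rho_fillS S hsr F]
    exact hPs
  · rw [rho_fillS S hsr F]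
    have h1 : S.rho * (1 - (s : ℝ) / 2 ^ r) = S.rho * (1 - ((s : ℝ) + 1) / 2 ^ r) + S.rho / 2 ^ r := by
      field_simp
      ring
    rw [h1]
    have h2 : S.rho / 2 ^ r ≤ 1 / (m + 1) := by
      have hm : (0 : ℝ) < m + 1 := by (clear * -; positivity)
      rw [div_le_div_iff₀ h2r hm]
      have := rho_le_one S
      nlinarith only [hr, hnn, this]
    linarith only [hPs1', h2]
  · intro f
    let t : Fin N := eN (fun j => f j)
    refine ⟨((t * 2 ^ (S.e + 1) : ℕ) : ℤ), ?_, ?_⟩
    · refine ⟨(t : ℤ) * 2, ?_⟩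
      push_cast
      ring
    · intro j hj hp
      have hj' : j < 2 ^ (S.e + 1) := by
        have : 2 ^ (S.e + 1) = 2 * 2 ^ S.e := by ring
        omega
      have htr : (t : ℕ) < 2 ^ r := t.2.trans_le hNr
      change fillP S r s F _ = _
      have h1 : (((t : ℕ) * 2 ^ (S.e + 1) : ℕ) : ℤ) + (j : ℤ) =
          (((t : ℕ) * 2 ^ (S.e + 1) + j : ℕ) : ℤ) := by push_cast; ring
      rw [h1, fillP_block S F htr hj', if_pos hp, if_pos (t.2.trans_le hNs)]
      have h2 : (t : ℕ) < N ∧ j < Q := ⟨t.2, hj'⟩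
      change some (if h : (t : ℕ) < N ∧ j < Q then κ (eN.symm ⟨t, h.1⟩ ⟨j, h.2⟩) else κ 0) = _
      rw [dif_pos h2]
      have h3 : eN.symm ⟨(t : ℕ), h2.1⟩ = fun j : Fin Q => f j := by
        change eN.symm (eN (fun j : Fin Q => f j)) = _
        rw [Equiv.symm_apply_apply]
      rw [h3]

end

end Vale.Agent.P093
end
end
end

section

section

section

/-!
Toeplitz type open sets in the dyadic odometer with prescribed density of the complement.
-/

open Set Filter
open scoped ENNReal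

namespace Vale.Agent.P093

noncomputable section

/-- the dyadic integers -/
abbrev Z2 := ℤ_[2]

/-- the odometer -/
def odo : Z2 ≃ₜ Z2 := Homeomorph.addRight 1

theorem odo_zpow (i : ℤ) (ω : Z2) : (odo ^ i) ω = ω + (i : Z2) := by
  induction i using Int.induction_on generalizing ω with
  | zero => simp
  | succ k ih =>
    rw [zpow_add_one]
    change (odo ^ (k : ℤ)) (ω + 1) = _
    rw [ih]
    push_cast
    ring
  | pred k ih =>
    rw [zpow_sub_one]
    change (odo ^ (-(k : ℤ))) (odo⁻¹ ω) = _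
    have : odo⁻¹ ω = ω - 1 := by
      change (Homeomorph.addRight (1 : Z2)).symm ω = _
      rw [Homeomorph.addRight_symm, Homeomorph.coe_addRight, sub_eq_add_neg]
    rw [this, ih]
    push_cast
    ring

/-- congruence modulo `2 ^ k` between a dyadic integer and an integer -/
def Cong (k : ℕ) (ω : Z2) (n : ℤ) : Prop := (2 : Z2) ^ k ∣ ω - (n : Z2)

theorem pow_dvd_iff_norm (k : ℕ) (x : Z2) : (2 : Z2) ^ k ∣ x ↔ ‖x‖ ≤ (2 : ℝ) ^ (-k : ℤ) := by
  have h := PadicInt.norm_le_pow_iff_mem_span_pow x k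
  rw [Ideal.mem_span_singleton] at h
  exact h.symm

theorem isOpen_dvd_sub (k : ℕ) (y : Z2) : IsOpen {ω : Z2 | (2 : Z2) ^ k ∣ ω - y} := by
  have h : {ω : Z2 | (2 : Z2) ^ k ∣ ω - y} = Metric.closedBall y ((2 : ℝ) ^ (-k : ℤ)) := by
    ext ω
    rw [Set.mem_setOf_eq, pow_dvd_iff_norm, Metric.mem_closedBall, dist_eq_norm]
  rw [h]
  exact IsUltrametricDist.isOpen_closedBall y (by positivity)

theorem exists_nat_cong (k : ℕ) (ω : Z2) : ∃ n : ℕ, Cong k ω n := by
  refine ⟨ω.appr k, ?_⟩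
  have h := PadicInt.appr_spec k ω
  rw [Ideal.mem_span_singleton] at h
  unfold Cong
  push_cast at h ⊢
  exact h

theorem Cong.mono {k l : ℕ} (h : k ≤ l) {ω : Z2} {n : ℤ} (hc : Cong l ω n) : Cong k ω n :=
  (pow_dvd_pow _ h).trans hc

theorem int_dvd_of_dvd {k : ℕ} {a : ℤ} (h : (2 : Z2) ^ k ∣ (a : Z2)) : (2 : ℤ) ^ k ∣ a := by
  have := (PadicInt.pow_p_dvd_int_iff (p := 2) k a).mp (by push_cast; exact h)
  exact_mod_cast this

theorem dvd_of_int_dvd {k : ℕ} {a : ℤ} (h : (2 : ℤ) ^ k ∣ a) : (2 : Z2) ^ k ∣ (a : Z2) := by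
  have := (PadicInt.pow_p_dvd_int_iff (p := 2) k a).mpr (by exact_mod_cast h)
  push_cast at this
  exact this

theorem Cong.dvd_sub {k : ℕ} {ω : Z2} {n n' : ℤ} (h : Cong k ω n) (h' : Cong k ω n') :
    (2 : ℤ) ^ k ∣ n - n' := by
  apply int_dvd_of_dvd
  have : ((n - n' : ℤ) : Z2) = (ω - (n' : Z2)) - (ω - (n : Z2)) := by push_cast; ring
  rw [this]
  exact _root_.dvd_sub h' h

theorem Cong.add {k : ℕ} {ω : Z2} {n : ℤ} (h : Cong k ω n) (i : ℤ) :
    Cong k (ω + (i : Z2)) (n + i) := by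
  unfold Cong at *
  have : ω + (i : Z2) - ((n + i : ℤ) : Z2) = ω - (n : Z2) := by push_cast; ring
  rw [this]
  exact h

theorem Cong.of_dvd {k : ℕ} {ω : Z2} {n n' : ℤ} (h : Cong k ω n) (h' : (2 : ℤ) ^ k ∣ n - n') :
    Cong k ω n' := by
  unfold Cong at *
  have : ω - (n' : Z2) = (ω - (n : Z2)) + ((n - n' : ℤ) : Z2) := by push_cast; ring
  rw [this]
  exact dvd_add h (dvd_of_int_dvd h')

theorem Cong.dvd_sub_padic {k : ℕ} {ω ω' : Z2} {n : ℤ} (h : Cong k ω n) (h' : Cong k ω' n) :
    (2 : Z2) ^ k ∣ ω - ω' := by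
  have : ω - ω' = (ω - (n : Z2)) - (ω' - (n : Z2)) := by ring
  rw [this]
  exact _root_.dvd_sub h h'

/-- basic neighbourhoods -/
theorem exists_pow_nbhd {W : Set Z2} (hW : IsOpen W) {ω : Z2} (hω : ω ∈ W) :
    ∃ k : ℕ, ∀ ω' : Z2, (2 : Z2) ^ k ∣ ω' - ω → ω' ∈ W := by
  obtain ⟨ε, hε, hball⟩ := Metric.isOpen_iff.mp hW ω hω
  obtain ⟨k, hk⟩ := exists_pow_lt_of_lt_one hε (show (1 / 2 : ℝ) < 1 by norm_num)
  refine ⟨k, fun ω' h => hball ?_⟩
  rw [Metric.mem_ball, dist_eq_norm]
  rw [pow_dvd_iff_norm] at h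
  refine h.trans_lt ?_
  rw [zpow_neg, zpow_natCast, ← inv_pow]
  simpa only [inv_pow, one_div] using hk

theorem odo_dense (ω : Z2) : Dense (Set.range fun n : ℤ => (odo ^ n) ω) := by
  rw [dense_iff_inter_open]
  rintro W hW ⟨ω', hω'⟩
  obtain ⟨k, hk⟩ := exists_pow_nbhd hW hω'
  obtain ⟨a, ha⟩ := exists_nat_cong k ω
  obtain ⟨b, hb⟩ := exists_nat_cong k ω'
  refine ⟨(odo ^ ((b : ℤ) - a)) ω, hk _ ?_, ⟨_, rfl⟩⟩
  rw [odo_zpow]
  have h1 := Cong.add ha ((b : ℤ) - a)
  have h2 : (a : ℤ) + (b - a) = b := by ring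
  rw [h2] at h1
  exact h1.dvd_sub_padic hb

section Stages

variable {K : Type*} (κ : ℕ → K) {D : ℝ}

/-- a sequence of stages with all properties -/
structure Stages (K : Type*) (κ : ℕ → K) (D : ℝ) where
  /-- the stages -/
  S : ℕ → Stage K
  lt : ∀ m, (S m).e < (S (m + 1)).e
  ext : ∀ m n, (S m).p n ≠ none → (S (m + 1)).p n = (S m).p n
  rho_gt : ∀ m, D < (S m).rho
  rho_le : ∀ m : ℕ, (S (m + 1)).rho ≤ D + 1 / (m + 1)
  pattern : ∀ (m : ℕ) (f : ℕ → Fin (m + 1)), ∃ n₀ : ℤ, (2 : ℤ) ^ (S m).e ∣ n₀ ∧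
        ∀ j : ℕ, j < 2 * 2 ^ (S m).e → (S m).p j = none → (S (m + 1)).p (n₀ + j) = some (κ (f j))

theorem exists_stages (hD0 : 0 ≤ D) (hD1 : D < 1) : Nonempty (Stages K κ D) := by
  classical
  let T := {S : Stage K // D < S.rho}
  have hnext : ∀ (m : ℕ) (S : T), ∃ S' : T, S.1.e < S'.1.e ∧
      (∀ n, S.1.p n ≠ none → S'.1.p n = S.1.p n) ∧
      S'.1.rho ≤ D + 1 / (m + 1) ∧
      ∀ f : ℕ → Fin (m + 1), ∃ n₀ : ℤ, (2 : ℤ) ^ S.1.e ∣ n₀ ∧
        ∀ j : ℕ, j < 2 * 2 ^ S.1.e → S.1.p j = none → S'.1.p (n₀ + j) = some (κ (f j)) := by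
    intro m S
    obtain ⟨S', h1, h2, h3, h4, h5⟩ := exists_next κ hD0 S.1 S.2 m
    exact ⟨⟨S', h3⟩, h1, h2, h4, h5⟩
  choose nx hnx using hnext
  let S₀ : Stage K := ⟨0, fun _ => none, fun _ => rfl⟩
  have hS₀ : D < S₀.rho := by
    have h1 : S₀.free = 1 := by
      unfold Stage.free
      rw [Finset.filter_true_of_mem (fun _ _ => rfl)]
      simp [S₀]
    unfold Stage.rho
    rw [h1]
    simpa [S₀] using hD1
  let seq : ℕ → T := fun m => Nat.rec ⟨S₀, hS₀⟩ (fun m S => nx m S) m
  exact ⟨{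
    S := fun m => (seq m).1
    lt := fun m => (hnx m (seq m)).1
    ext := fun m n => (hnx m (seq m)).2.1 n
    rho_gt := fun m => (seq m).2
    rho_le := fun m => (hnx m (seq m)).2.2.1
    pattern := fun m => (hnx m (seq m)).2.2.2 }⟩

variable {κ}

theorem Stages.ext_le (T : Stages K κ D) {m m' : ℕ} (h : m ≤ m') {n : ℤ}
    (hn : (T.S m).p n ≠ none) : (T.S m').p n = (T.S m).p n := by
  induction m', h using Nat.le_induction with
  | base => rfl
  | succ m' _ ih =>
    rw [T.ext m' n (by rw [ih]; exact hn), ih]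

theorem Stages.strictMono (T : Stages K κ D) : StrictMono fun m => (T.S m).e :=
  strictMono_nat_of_lt_succ T.lt

theorem Stages.le_e (T : Stages K κ D) (m : ℕ) : m ≤ (T.S m).e := T.strictMono.le_apply

/-- the labelled part at stage `m` -/
def Stages.Om (T : Stages K κ D) (m : ℕ) : Set Z2 :=
  {ω | ∃ n : ℤ, Cong (T.S m).e ω n ∧ (T.S m).p n ≠ none}

/-- the labelled part -/
def Stages.O (T : Stages K κ D) : Set Z2 := ⋃ m, T.Om m

theorem Stages.mem_Om_iff (T : Stages K κ D) {m : ℕ} {ω : Z2} {n : ℤ}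
    (h : Cong (T.S m).e ω n) : ω ∈ T.Om m ↔ (T.S m).p n ≠ none := by
  constructor
  · rintro ⟨n', hn', hp⟩
    rwa [(T.S m).congr_of_dvd (hn'.dvd_sub h)] at hp
  · intro hp
    exact ⟨n, h, hp⟩

theorem isOpen_cong (k : ℕ) (n : ℤ) : IsOpen {ω : Z2 | Cong k ω n} := isOpen_dvd_sub k n

theorem Stages.isOpen_Om (T : Stages K κ D) (m : ℕ) : IsOpen (T.Om m) := by
  have : T.Om m = ⋃ n ∈ {n : ℤ | (T.S m).p n ≠ none}, {ω : Z2 | Cong (T.S m).e ω n} := by
    ext ω
    simp only [Om, mem_setOf_eq, mem_iUnion, exists_prop]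
    constructor
    · rintro ⟨n, h1, h2⟩; exact ⟨n, h2, h1⟩
    · rintro ⟨n, h1, h2⟩; exact ⟨n, h2, h1⟩
  rw [this]
  exact isOpen_biUnion fun n _ => isOpen_cong _ n

theorem Stages.isOpen_O (T : Stages K κ D) : IsOpen T.O := isOpen_iUnion T.isOpen_Om

theorem Stages.Om_mono (T : Stages K κ D) {m m' : ℕ} (h : m ≤ m') : T.Om m ⊆ T.Om m' := by
  intro ω hω
  obtain ⟨n, hn⟩ := exists_nat_cong (T.S m').e ω
  have hn' : Cong (T.S m).e ω n := hn.mono (T.strictMono.monotone h)
  rw [T.mem_Om_iff hn'] at hω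
  rw [T.mem_Om_iff hn, T.ext_le h hω]
  exact hω

/-- the label of a point of `O` -/
def Stages.c (T : Stages K κ D) (ω : Z2) : K :=
  open scoped Classical in
  if h : ∃ (v : K) (m : ℕ) (n : ℤ), Cong (T.S m).e ω n ∧ (T.S m).p n = some v then h.choose
  else κ 0

theorem Stages.label_unique (T : Stages K κ D) {ω : Z2} {v v' : K} {m m' : ℕ} {n n' : ℤ}
    (h : Cong (T.S m).e ω n) (hp : (T.S m).p n = some v) (h' : Cong (T.S m').e ω n')
    (hp' : (T.S m').p n' = some v') : v = v' := by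
  obtain ⟨l, hl⟩ := exists_nat_cong (T.S (max m m')).e ω
  have e1 : (T.S m).p n = (T.S m).p l := (T.S m).congr_of_dvd
    (h.dvd_sub (hl.mono (T.strictMono.monotone (le_max_left _ _))))
  have e2 : (T.S m').p n' = (T.S m').p l := (T.S m').congr_of_dvd
    (h'.dvd_sub (hl.mono (T.strictMono.monotone (le_max_right _ _))))
  have e3 := T.ext_le (le_max_left m m') (n := l) (by rw [← e1, hp]; simp)
  have e4 := T.ext_le (le_max_right m m') (n := l) (by rw [← e2, hp']; simp)
  rw [e3, ← e1, ← e2, hp, hp'] at e4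
  exact Option.some_injective _ e4

theorem Stages.c_eq (T : Stages K κ D) {ω : Z2} {v : K} {m : ℕ} {n : ℤ}
    (h : Cong (T.S m).e ω n) (hp : (T.S m).p n = some v) : ω ∈ T.O ∧ T.c ω = v := by
  constructor
  · exact Set.mem_iUnion.mpr ⟨m, n, h, by rw [hp]; simp⟩
  · have hex : ∃ (v : K) (m : ℕ) (n : ℤ), Cong (T.S m).e ω n ∧ (T.S m).p n = some v :=
      ⟨v, m, n, h, hp⟩
    unfold Stages.c
    rw [dif_pos hex]
    obtain ⟨m', n', h', hp'⟩ := hex.choose_spec
    exact T.label_unique h' hp' h hp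

theorem Stages.exists_of_mem (T : Stages K κ D) {ω : Z2} (h : ω ∈ T.O) :
    ∃ (m : ℕ) (n : ℤ), Cong (T.S m).e ω n ∧ (T.S m).p n = some (T.c ω) := by
  obtain ⟨m, n, hn, hp⟩ := Set.mem_iUnion.mp h
  obtain ⟨v, hv⟩ := Option.ne_none_iff_exists'.mp hp
  exact ⟨m, n, hn, by rw [hv, (T.c_eq hn hv).2]⟩

theorem Stages.continuousOn_c [TopologicalSpace K] (T : Stages K κ D) :
    ContinuousOn T.c T.O := by
  intro ω hω
  obtain ⟨m, n, hn, hp⟩ := T.exists_of_mem hω
  apply ContinuousAt.continuousWithinAt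
  apply ContinuousAt.congr (f := fun _ => T.c ω) continuousAt_const
  have : {ω' : Z2 | Cong (T.S m).e ω' n} ∈ nhds ω := (isOpen_cong _ n).mem_nhds hn
  filter_upwards [this] with ω' hω'
  exact ((T.c_eq hω' hp).2).symm

open scoped Classical in
/-- visits to the free part of stage `m` in terms of the label -/
theorem Stages.visits_Om_compl (T : Stages K κ D) (m N : ℕ) {ω : Z2} {n : ℕ}
    (h : Cong (T.S m).e ω n) : visits odo (T.Om m)ᶜ N ω =
      ((Finset.range N).filter fun j : ℕ => (T.S m).p ((n + j : ℕ) : ℤ) = none).card := by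
  rw [visits_eq_card]
  congr 1
  ext j
  rw [mem_vset, Finset.mem_filter, Finset.mem_range, odo_zpow]
  have h1 := h.add (j : ℤ)
  rw [Set.mem_compl_iff, T.mem_Om_iff h1, not_not]
  push_cast
  rfl

open scoped Classical in
theorem card_filter_shift (S : Stage K) (n : ℕ) :
    ((Finset.range (2 ^ S.e)).filter fun j : ℕ => S.p ((n + j : ℕ) : ℤ) = none).card = S.free := by
  have hper : Function.Periodic (fun j : ℕ => S.p (j : ℤ) = none) (2 ^ S.e) := by
    intro j
    have : S.p ((j + 2 ^ S.e : ℕ) : ℤ) = S.p j := by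
      push_cast
      exact S.per j
    simp only [this]
  have h := Nat.filter_Ico_card_eq_of_periodic n (2 ^ S.e) (fun j : ℕ => S.p (j : ℤ) = none) hper
  rw [Nat.count_eq_card_filter_range] at h
  unfold Stage.free
  rw [← h]
  symm
  apply Finset.card_bij' (fun j _ => j - n) (fun j _ => n + j)
  · intro j hj
    rw [Finset.mem_filter, Finset.mem_Ico] at hj
    rw [Finset.mem_filter, Finset.mem_range]
    refine ⟨by omega, ?_⟩
    have : n + (j - n) = j := by omega
    rw [this]
    exact hj.2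
  · intro j hj
    rw [Finset.mem_filter, Finset.mem_range] at hj
    rw [Finset.mem_filter, Finset.mem_Ico]
    exact ⟨by omega, hj.2⟩
  · intro j hj
    rw [Finset.mem_filter, Finset.mem_Ico] at hj
    omega
  · intro j _
    omega

theorem Stages.dens_le (T : Stages K κ D) (m : ℕ) :
    dens odo T.Oᶜ ≤ ENNReal.ofReal (T.S m).rho := by
  have hpos : 0 < 2 ^ (T.S m).e := by positivity
  unfold dens
  refine (iInf₂_le (2 ^ (T.S m).e) hpos).trans ?_
  have h1 : maxVisits odo T.Oᶜ (2 ^ (T.S m).e) ≤ (T.S m).free := by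
    apply maxVisits_le
    intro ω
    obtain ⟨n, hn⟩ := exists_nat_cong (T.S m).e ω
    have hsub : T.Oᶜ ⊆ (T.Om m)ᶜ := Set.compl_subset_compl.mpr (Set.subset_iUnion T.Om m)
    refine (visits_mono_set hsub _ _).trans ?_
    rw [T.visits_Om_compl m _ hn, card_filter_shift]
  have h2 : ENNReal.ofReal (T.S m).rho = ((T.S m).free : ℝ≥0∞) / ((2 ^ (T.S m).e : ℕ) : ℝ≥0∞) := by
    unfold Stage.rho
    rw [ENNReal.ofReal_div_of_pos (by positivity), ENNReal.ofReal_natCast]
    congr 1
    rw [ENNReal.ofReal_pow (by norm_num)]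
    push_cast
    norm_num
  rw [h2]
  gcongr

theorem Stages.le_dens (T : Stages K κ D) (hD : 0 ≤ D) : ENNReal.ofReal D ≤ dens odo T.Oᶜ := by
  classical
  unfold dens
  apply le_iInf₂
  intro N hN
  obtain ⟨U, hU, hOU, hmax⟩ := exists_clopen_approx odo T.isOpen_O.isClosed_compl N
  -- compactness
  obtain ⟨m, hm⟩ : ∃ m, (T.Om m)ᶜ ⊆ U := by
    have hcov : Uᶜ ⊆ ⋃ m, T.Om m := Set.compl_subset_comm.mp hOU
    obtain ⟨m, hm⟩ := hU.compl.isClosed.isCompact.elim_directed_cover T.Om T.isOpen_Om hcov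
      (directed_of_isDirected_le fun _ _ h => T.Om_mono h)
    exact ⟨m, Set.compl_subset_comm.mp hm⟩
  have hv : ∀ n : ℕ, ((Finset.range N).filter
      fun j : ℕ => (T.S m).p ((n + j : ℕ) : ℤ) = none).card ≤ maxVisits odo T.Oᶜ N := by
    intro n
    have hc : Cong (T.S m).e ((n : ℤ) : Z2) (n : ℤ) := by
      unfold Cong; simp only [Int.cast_natCast, sub_self, dvd_zero]
    rw [← T.visits_Om_compl m N hc]
    exact ((visits_mono_set hm _ _).trans (visits_le_max _ _ _ _)).trans hmax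
  have hsum : N * (T.S m).free ≤ 2 ^ (T.S m).e * maxVisits odo T.Oᶜ N := by
    calc N * (T.S m).free = ∑ j ∈ Finset.range N, ((Finset.range (2 ^ (T.S m).e)).filter
          fun n : ℕ => (T.S m).p ((j + n : ℕ) : ℤ) = none).card := by
          rw [Finset.sum_congr rfl fun j _ => card_filter_shift (T.S m) j]
          simp
      _ = ∑ n ∈ Finset.range (2 ^ (T.S m).e), ((Finset.range N).filter
          fun j : ℕ => (T.S m).p ((n + j : ℕ) : ℤ) = none).card := by
          simp only [Finset.card_filter]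
          rw [Finset.sum_comm]
          apply Finset.sum_congr rfl
          intro n _
          apply Finset.sum_congr rfl
          intro j _
          rw [Nat.add_comm]
      _ ≤ ∑ n ∈ Finset.range (2 ^ (T.S m).e), maxVisits odo T.Oᶜ N :=
          Finset.sum_le_sum fun n _ => hv n
      _ = _ := by simp
  have hN' : (0 : ℝ) < N := by exact_mod_cast hN
  have h1 : D ≤ (maxVisits odo T.Oᶜ N : ℝ) / N := by
    have h2 := T.rho_gt m
    unfold Stage.rho at h2
    rw [lt_div_iff₀ (by positivity)] at h2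
    have h3 : (N : ℝ) * ((T.S m).free : ℝ) ≤ 2 ^ (T.S m).e * (maxVisits odo T.Oᶜ N : ℝ) := by
      exact_mod_cast hsum
    rw [le_div_iff₀ hN']
    have h4 : (0 : ℝ) < 2 ^ (T.S m).e := by positivity
    by_contra hcon
    push Not at hcon
    have h5 : 2 ^ (T.S m).e * (maxVisits odo T.Oᶜ N : ℝ) < 2 ^ (T.S m).e * (D * N) :=
      mul_lt_mul_of_pos_left hcon h4
    nlinarith only [h3, h5, h2]
  calc ENNReal.ofReal D ≤ ENNReal.ofReal ((maxVisits odo T.Oᶜ N : ℝ) / N) :=
        ENNReal.ofReal_le_ofReal h1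
    _ = _ := by
        rw [ENNReal.ofReal_div_of_pos hN', ENNReal.ofReal_natCast, ENNReal.ofReal_natCast]

theorem Stages.dens_eq (T : Stages K κ D) (hD : 0 ≤ D) : dens odo T.Oᶜ = ENNReal.ofReal D := by
  apply le_antisymm _ (T.le_dens hD)
  have h1 : ∀ m : ℕ, dens odo T.Oᶜ ≤ ENNReal.ofReal (D + 1 / ((m : ℝ) + 1)) := fun m =>
    (T.dens_le (m + 1)).trans (ENNReal.ofReal_le_ofReal (T.rho_le m))
  have h2 : Tendsto (fun m : ℕ => ENNReal.ofReal (D + 1 / ((m : ℝ) + 1))) atTop
      (nhds (ENNReal.ofReal (D + 0))) := by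
    apply (ENNReal.continuous_ofReal.tendsto _).comp
    exact tendsto_const_nhds.add tendsto_one_div_add_atTop_nhds_zero_nat
  rw [add_zero] at h2
  exact ge_of_tendsto' h2 h1

end Stages

end

end Vale.Agent.P093
end
end
end

section

section

section

/-!
Minimality of the frozen skew shifts over the dyadic odometer built from stages.
-/

open Set Filter

namespace Vale.Agent.P093

noncomputable section

theorem frozen_zpow {K Ω : Type*} [TopologicalSpace K] [TopologicalSpace Ω] (g : Ω ≃ₜ Ω)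
    {O : Set Ω} {c : Ω → K} (n : ℤ) (x : frozenSet g O c) :
    (∀ i, (((frozenShift g O c) ^ n) x).1.1 i = x.1.1 (i + n)) ∧
      (((frozenShift g O c) ^ n) x).1.2 = (g ^ n) x.1.2 := by
  have h1 : ∀ y : frozenSet g O c, (∀ i, (frozenShift g O c y).1.1 i = y.1.1 (i + 1)) ∧
      (frozenShift g O c y).1.2 = g y.1.2 := fun y => ⟨fun i => rfl, rfl⟩
  have h2 : ∀ y : frozenSet g O c,
      (∀ i, (((frozenShift g O c)⁻¹ : frozenSet g O c ≃ₜ frozenSet g O c) y).1.1 i =
        y.1.1 (i - 1)) ∧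
      (((frozenShift g O c)⁻¹ : frozenSet g O c ≃ₜ frozenSet g O c) y).1.2 = g⁻¹ y.1.2 :=
    fun y => ⟨fun i => rfl, rfl⟩
  induction n using Int.induction_on generalizing x with
  | zero => simp only [zpow_ofNat, pow_zero, Homeomorph.one_apply, add_zero, implies_true, and_self]
  | succ k ih =>
    rw [zpow_add_one, zpow_add_one]
    change (∀ i, (((frozenShift g O c) ^ (k : ℤ)) (frozenShift g O c x)).1.1 i = _) ∧
      (((frozenShift g O c) ^ (k : ℤ)) (frozenShift g O c x)).1.2 = (g ^ (k : ℤ)) (g x.1.2)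
    obtain ⟨h3, h4⟩ := ih (frozenShift g O c x)
    refine ⟨fun i => ?_, ?_⟩
    · rw [h3, (h1 x).1]
      congr 1
      ring
    · rw [h4, (h1 x).2]
  | pred k ih =>
    rw [zpow_sub_one, zpow_sub_one]
    change (∀ i, (((frozenShift g O c) ^ (-(k : ℤ))) ((frozenShift g O c)⁻¹ x)).1.1 i = _) ∧
      (((frozenShift g O c) ^ (-(k : ℤ))) ((frozenShift g O c)⁻¹ x)).1.2 =
        (g ^ (-(k : ℤ))) (g⁻¹ x.1.2)
    obtain ⟨h3, h4⟩ := ih ((frozenShift g O c)⁻¹ x)
    refine ⟨fun i => ?_, ?_⟩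
    · rw [h3, (h2 x).1]
      congr 1
      ring
    · rw [h4, (h2 x).2]

/-- the projection of the frozen set to the base is surjective -/
theorem frozen_surjective {K Ω : Type*} [TopologicalSpace K] [TopologicalSpace Ω] (g : Ω ≃ₜ Ω)
    (O : Set Ω) (c : Ω → K) (ω : Ω) : ∃ x : frozenSet g O c, x.1.2 = ω :=
  ⟨⟨(fun i => c ((g ^ i) ω), ω), fun _ _ => rfl⟩, rfl⟩

theorem Stages.minimal {K : Type*} [TopologicalSpace K] {κ : ℕ → K} {D : ℝ}
    (T : Stages K κ D) (hκ : DenseRange κ) (x : frozenSet odo T.O T.c) :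
    Dense (Set.range fun n : ℤ => (frozenShift odo T.O T.c ^ n) x) := by
  classical
  rw [dense_iff_inter_open]
  rintro W hW ⟨y, hy⟩
  obtain ⟨W', hW', rfl⟩ := isOpen_induced_iff.mp hW
  change y.1 ∈ W' at hy
  obtain ⟨A, C, hA, hC, hyA, hyC, hAC⟩ := isOpen_prod_iff.mp hW' y.1.1 y.1.2 hy
  obtain ⟨I, u, hu, hIA⟩ := isOpen_pi_iff.mp hA y.1.1 hyA
  obtain ⟨k, hk⟩ := exists_pow_nbhd hC hyC
  -- indices of approximating elements
  have hidx : ∀ i : ℤ, ∃ n : ℕ, i ∈ I → κ n ∈ u i := by
    intro i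
    by_cases hi : i ∈ I
    · obtain ⟨n, hn⟩ := hκ.exists_mem_open (hu i hi).1 ⟨_, (hu i hi).2⟩
      exact ⟨n, fun _ => hn⟩
    · exact ⟨0, fun h => absurd h hi⟩
  choose idx hidx using hidx
  let L : ℕ := I.sup Int.natAbs
  have hL : ∀ i ∈ I, -(L : ℤ) ≤ i ∧ i ≤ L := by
    intro i hi
    have : i.natAbs ≤ L := Finset.le_sup (f := Int.natAbs) hi
    omega
  let m : ℕ := max (I.sup idx) (max k (2 * L + 1))
  have hm1 : ∀ i ∈ I, idx i ≤ m := fun i hi =>
    (Finset.le_sup (f := idx) hi).trans (le_max_left _ _)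
  have hm2 : k ≤ (T.S m).e := ((le_max_left k _).trans (le_max_right _ _)).trans (T.le_e m)
  have hm3 : 2 * L + 1 ≤ 2 ^ (T.S m).e := by
    have h1 : 2 * L + 1 ≤ (T.S m).e :=
      ((le_max_right k _).trans (le_max_right _ _)).trans (T.le_e m)
    exact h1.trans Nat.lt_two_pow_self.le
  -- the residue of the left end of the window
  obtain ⟨a', ha'⟩ := exists_nat_cong (T.S m).e (y.1.2 + ((-(L : ℤ) : ℤ) : Z2))
  let a : ℕ := a' % 2 ^ (T.S m).e
  have halt : a < 2 ^ (T.S m).e := Nat.mod_lt _ (by positivity)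
  have ha : Cong (T.S m).e (y.1.2 + ((-(L : ℤ) : ℤ) : Z2)) a := by
    apply ha'.of_dvd
    have h1 : (((2 ^ (T.S m).e : ℕ) : ℤ)) ∣ ((a' : ℤ) - (a : ℤ)) := by
      have h2 : a ≡ a' [MOD 2 ^ (T.S m).e] := Nat.mod_modEq _ _
      exact (Nat.modEq_iff_dvd.mp h2)
    push_cast at h1
    exact h1
  -- the pattern
  let f : ℕ → Fin (m + 1) := fun j => ⟨min (idx ((j : ℤ) - a - L)) m, by omega⟩
  obtain ⟨n₀, hn₀, hpat⟩ := T.pattern m f
  obtain ⟨b, hb⟩ := exists_nat_cong (T.S (m + 1)).e x.1.2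
  let N : ℤ := n₀ + a + L - b
  refine ⟨(frozenShift odo T.O T.c ^ N) x, ?_, ⟨N, rfl⟩⟩
  change ((frozenShift odo T.O T.c ^ N) x).1 ∈ W'
  apply hAC
  have hpos : ∀ i : ℤ, Cong (T.S (m + 1)).e (x.1.2 + ((i + N : ℤ) : Z2)) (n₀ + a + L + i) := by
    intro i
    have h1 := hb.add (i + N)
    have h2 : (b : ℤ) + (i + N) = n₀ + a + L + i := by
      change (b : ℤ) + (i + (n₀ + a + L - b)) = _
      ring
    rw [h2] at h1
    exact h1
  refine ⟨?_, ?_⟩
  · apply hIA
    intro i hi
    rw [Finset.mem_coe] at hi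
    rw [(frozen_zpow odo N x).1 i]
    obtain ⟨hLi1, hLi2⟩ := hL i hi
    -- the position in the double block
    obtain ⟨j, hj⟩ : ∃ j : ℕ, (j : ℤ) = a + L + i := ⟨(a + L + i : ℤ).toNat, by omega⟩
    have hjlt : j < 2 * 2 ^ (T.S m).e := by omega
    have hcx : Cong (T.S (m + 1)).e (x.1.2 + ((i + N : ℤ) : Z2)) (n₀ + j) := by
      have := hpos i
      have h2 : n₀ + a + L + i = n₀ + (j : ℤ) := by rw [hj]; ring
      rwa [h2] at this
    by_cases hp : (T.S m).p j = none
    · have h1 := hpat j hjlt hp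
      have h2 : (f j : ℕ) = idx i := by
        change min (idx ((j : ℤ) - a - L)) m = idx i
        have : (j : ℤ) - a - L = i := by rw [hj]; ring
        rw [this]
        exact min_eq_left (hm1 i hi)
      rw [h2] at h1
      obtain ⟨h3, h4⟩ := T.c_eq hcx h1
      have h5 := x.2 (i + N) (by rw [odo_zpow]; exact h3)
      rw [h5, odo_zpow, h4]
      exact hidx i hi
    · obtain ⟨v, hv⟩ := Option.ne_none_iff_exists'.mp hp
      have h1 : (T.S (m + 1)).p (n₀ + j) = some v := by
        have h2 : (T.S m).p (n₀ + j) = some v := by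
          rw [← hv]
          apply (T.S m).congr_of_dvd
          have : n₀ + (j : ℤ) - j = n₀ := by ring
          rw [this]
          exact hn₀
        rw [T.ext m _ (by rw [h2]; simp), h2]
      obtain ⟨h3, h4⟩ := T.c_eq hcx h1
      have h5 := x.2 (i + N) (by rw [odo_zpow]; exact h3)
      rw [h5, odo_zpow, h4]
      have hcy : Cong (T.S m).e (y.1.2 + (i : Z2)) j := by
        have h6 := ha.add (L + i)
        have h7 : (a : ℤ) + (L + i) = j := by rw [hj]; ring
        have h8 : y.1.2 + ((-(L : ℤ) : ℤ) : Z2) + (((L : ℤ) + i : ℤ) : Z2) = y.1.2 + (i : Z2) := by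
          push_cast; ring
        rw [h7, h8] at h6
        exact h6
      obtain ⟨h9, h10⟩ := T.c_eq hcy hv
      have h11 := y.2 i (by rw [odo_zpow]; exact h9)
      rw [← h10]
      have h12 : y.1.1 i = T.c (y.1.2 + (i : Z2)) := by rw [h11, odo_zpow]
      rw [← h12]
      exact (hu i hi).2
  · change ((frozenShift odo T.O T.c ^ N) x).1.2 ∈ C
    rw [(frozen_zpow odo N x).2, odo_zpow]
    apply hk
    have h1 : Cong (T.S m).e (x.1.2 + (N : Z2)) (n₀ + a + L) := by
      have := (hpos 0).mono (T.lt m).le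
      simpa only [zero_add, add_zero] using this
    have h2 : Cong (T.S m).e y.1.2 (a + L) := by
      have h6 := ha.add L
      have h8 : y.1.2 + ((-(L : ℤ) : ℤ) : Z2) + ((L : ℤ) : Z2) = y.1.2 := by
        push_cast; ring
      rw [h8] at h6
      exact h6
    have h3 : Cong (T.S m).e (x.1.2 + (N : Z2)) (a + L) := by
      apply h1.of_dvd
      have : n₀ + (a : ℤ) + L - (a + L) = n₀ := by ring
      rw [this]
      exact hn₀
    exact (pow_dvd_pow _ hm2).trans (h3.dvd_sub_padic h2)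

end

end Vale.Agent.P093
end
end
end

section

section

section

/-!
Ostrand's coloured covers in which finitely many given points are covered by every colour.
-/

open Set Filter Topology

namespace Vale.Agent.P093

noncomputable section

open scoped Classical in
theorem misses_eq_card {K : Type*} {k : ℕ} (C : Fin k → Set (Set K)) (x : K) :
    misses C x = (Finset.univ.filter fun c => x ∉ ⋃₀ C c).card := by
  unfold misses
  rw [Finset.card_filter]
  apply Finset.sum_congr rfl
  intro c _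
  by_cases h : x ∈ ⋃₀ C c <;> simp [h]

/-- one point covered by every colour -/
theorem colored_point {K : Type*} [TopologicalSpace K] [NormalSpace K] [T1Space K]
    {W : Set (Set K)} {q k : ℕ} {C : Fin k → Set (Set K)} (hC : Colored W q k C) (hq : 1 ≤ q)
    {p : K} {w : Set K} (hw : w ∈ W) (hwp : w ∈ 𝓝 p) {N : Set K} (hN : N ∈ 𝓝 p) :
    ∃ C' : Fin k → Set (Set K), Colored W q k C' ∧ (∀ c, p ∈ ⋃₀ C' c) ∧
      ∀ x ∉ N, ∀ c, x ∈ ⋃₀ C c → x ∈ ⋃₀ C' c := by
  classical
  have hUo : ∀ c, IsOpen (⋃₀ C c) := fun c => isOpen_sUnion (hC.op c)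
  let G : Set K := (⋂ c : {c : Fin k // p ∈ ⋃₀ C c}, ⋃₀ C c) ∩ (interior N ∩ interior w)
  have hGo : IsOpen G :=
    (isOpen_iInter_of_finite fun c => hUo _).inter (isOpen_interior.inter isOpen_interior)
  have hpG : p ∈ G := by
    refine ⟨mem_iInter.2 fun c => c.2, mem_interior_iff_mem_nhds.2 hN,
      mem_interior_iff_mem_nhds.2 hwp⟩
  obtain ⟨r, hr0, hr1, hrI⟩ := exists_continuous_zero_one_of_isClosed (s := Gᶜ) (t := {p})
    hGo.isClosed_compl isClosed_singleton (by
      rw [Set.disjoint_singleton_right]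
      exact fun h => h hpG)
  have hrp : r p = 1 := hr1 rfl
  have hrG : ∀ x, 0 < r x → x ∈ G := by
    intro x hx
    by_contra h
    have := hr0 h
    simp only [Pi.zero_apply] at this
    linarith only [hx, this]
  -- thresholds
  let th : Fin k → ℝ := fun c => (1 + (c : ℝ) + (if p ∈ ⋃₀ C c then (k : ℝ) else 0)) / (2 * k + 2)
  have hk0 : (0 : ℝ) < 2 * k + 2 := by (clear * -; positivity)
  have hth0 : ∀ c, 0 < th c := by
    intro c
    apply div_pos _ hk0
    split_ifs <;> (clear * -; positivity)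
  have hth1 : ∀ c, th c < 1 := by
    intro c
    rw [div_lt_one hk0]
    have hc : ((c : ℕ) : ℝ) + 1 ≤ k := by exact_mod_cast c.2
    split_ifs <;> linarith only [hc]
  have hlow : ∀ c c', p ∉ ⋃₀ C c → p ∈ ⋃₀ C c' → th c < th c' := by
    intro c c' h h'
    simp only [th, if_neg h, if_pos h']
    apply div_lt_div_of_pos_right _ hk0
    have hc : ((c : ℕ) : ℝ) + 1 ≤ k := by exact_mod_cast c.2
    have hc' : (0 : ℝ) ≤ ((c' : ℕ) : ℝ) := Nat.cast_nonneg _
    linarith only [hc]
  have hinj : ∀ c c', th c = th c' → c = c' := by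
    intro c c' h
    by_cases h1 : p ∈ ⋃₀ C c <;> by_cases h2 : p ∈ ⋃₀ C c'
    · simp only [th, if_pos h1, if_pos h2] at h
      rw [div_left_inj' hk0.ne'] at h
      have : ((c : ℕ) : ℝ) = (c' : ℕ) := by linarith only [h]
      exact Fin.ext (by exact_mod_cast this)
    · exact absurd h (hlow c' c h2 h1).ne'
    · exact absurd h (hlow c c' h1 h2).ne
    · simp only [th, if_neg h1, if_neg h2] at h
      rw [div_left_inj' hk0.ne'] at h
      have : ((c : ℕ) : ℝ) = (c' : ℕ) := by linarith only [h]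
      exact Fin.ext (by exact_mod_cast this)
  let C' : Fin k → Set (Set K) := fun c =>
    insert {x | th c < r x} ((fun t => t ∩ {x | r x < th c}) '' C c)
  have hcov1 : ∀ c x, th c < r x → x ∈ ⋃₀ C' c := fun c x h =>
    ⟨_, mem_insert _ _, h⟩
  have hcov2 : ∀ c x, r x < th c → x ∈ ⋃₀ C c → x ∈ ⋃₀ C' c := by
    rintro c x h ⟨t, ht, hxt⟩
    exact ⟨_, mem_insert_of_mem _ ⟨t, ht, rfl⟩, hxt, h⟩
  refine ⟨C', ⟨?_, ?_, ?_, ?_, ?_⟩, ?_, ?_⟩
  · intro c
    exact ((hC.fin c).image _).insert _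
  · rintro c s (rfl | ⟨t, ht, rfl⟩)
    · exact isOpen_lt continuous_const r.continuous
    · exact (hC.op c t ht).inter (isOpen_lt r.continuous continuous_const)
  · rintro c s (rfl | ⟨t, ht, rfl⟩)
    · refine ⟨w, hw, fun x hx => ?_⟩
      exact interior_subset (hrG x ((hth0 c).trans hx)).2.2
    · obtain ⟨u, hu, htu⟩ := hC.ref c t ht
      exact ⟨u, hu, inter_subset_left.trans htu⟩
  · rintro c s (rfl | ⟨t, ht, rfl⟩) s' (rfl | ⟨t', ht', rfl⟩) ⟨x, hx, hx'⟩
    · rfl
    · exact absurd (show th c < r x from hx) (not_lt.2 (le_of_lt hx'.2))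
    · exact absurd (show th c < r x from hx') (not_lt.2 (le_of_lt hx.2))
    · rw [hC.disj c t ht t' ht' ⟨x, hx.1, hx'.1⟩]
  · intro x
    rw [misses_eq_card]
    have hmx := hC.miss x
    rw [misses_eq_card] at hmx
    by_cases hx : ∃ c₀, r x = th c₀
    · obtain ⟨c₀, hc₀⟩ := hx
      have hxG : x ∈ G := hrG x (hc₀ ▸ hth0 c₀)
      have hsub : ∀ c, c ≠ c₀ → x ∉ ⋃₀ C' c → x ∉ ⋃₀ C c := by
        intro c hc h1 h2
        have hne : r x ≠ th c := fun h => hc (hinj _ _ (h.symm.trans hc₀))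
        rcases lt_or_gt_of_ne hne with h | h
        · exact h1 (hcov2 c x h h2)
        · exact h1 (hcov1 c x h)
      by_cases h0 : x ∉ ⋃₀ C c₀
      · refine le_trans (Finset.card_le_card ?_) hmx
        intro c hc
        simp only [Finset.mem_filter, Finset.mem_univ, true_and] at hc ⊢
        by_cases hcc : c = c₀
        · rw [hcc]; exact h0
        · exact hsub c hcc hc
      · rw [not_not] at h0
        have h1 : (Finset.univ.filter fun c => x ∉ ⋃₀ C' c) ⊆
            insert c₀ ((Finset.univ.filter fun c => x ∉ ⋃₀ C c).filter fun c => x ∉ ⋃₀ C' c) := by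
          intro c hc
          simp only [Finset.mem_filter, Finset.mem_univ, true_and, Finset.mem_insert] at hc ⊢
          by_cases hcc : c = c₀
          · exact Or.inl hcc
          · exact Or.inr ⟨hsub c hcc hc, hc⟩
        refine (Finset.card_le_card h1).trans ((Finset.card_insert_le _ _).trans ?_)
        by_cases hlt : (Finset.univ.filter fun c => x ∉ ⋃₀ C c).card < q
        · have := Finset.card_filter_le (Finset.univ.filter fun c => x ∉ ⋃₀ C c)
            (fun c => x ∉ ⋃₀ C' c)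
          omega
        · have heq : (Finset.univ.filter fun c => x ∉ ⋃₀ C c).card = q := by omega
          have hmp := hC.miss p
          rw [misses_eq_card] at hmp
          have hss : (Finset.univ.filter fun c => x ∉ ⋃₀ C c) ⊆
              Finset.univ.filter fun c => p ∉ ⋃₀ C c := by
            intro c hc
            simp only [Finset.mem_filter, Finset.mem_univ, true_and] at hc ⊢
            intro hpc
            exact hc (mem_iInter.1 hxG.1 ⟨c, hpc⟩)
          have hE := Finset.eq_of_subset_of_card_le hss (by rw [heq]; exact hmp)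
          have hp0 : p ∈ ⋃₀ C c₀ := by
            by_contra hcon
            have : c₀ ∈ Finset.univ.filter fun c => p ∉ ⋃₀ C c := by simpa only [mem_sUnion, not_exists, not_and, Finset.mem_filter, Finset.mem_univ, true_and] using hcon
            rw [← hE] at this
            simp only [Finset.mem_filter, Finset.mem_univ, true_and] at this
            exact this h0
          have hz : ((Finset.univ.filter fun c => x ∉ ⋃₀ C c).filter
              fun c => x ∉ ⋃₀ C' c) = ∅ := by
            rw [Finset.filter_eq_empty_iff]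
            intro c hc
            rw [hE] at hc
            simp only [Finset.mem_filter, Finset.mem_univ, true_and] at hc
            rw [not_not]
            exact hcov1 c x (by rw [hc₀]; exact hlow c c₀ hc hp0)
          rw [hz]
          simpa only [Finset.card_empty, zero_add, ge_iff_le] using hq
    · push Not at hx
      refine le_trans (Finset.card_le_card ?_) hmx
      intro c hc
      simp only [Finset.mem_filter, Finset.mem_univ, true_and] at hc ⊢
      intro h2
      rcases lt_or_gt_of_ne (hx c) with h | h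
      · exact hc (hcov2 c x h h2)
      · exact hc (hcov1 c x h)
  · intro c
    exact hcov1 c p (by rw [hrp]; exact hth1 c)
  · intro x hx c hxc
    have : r x < th c := by
      have h1 : ¬ 0 < r x := fun h => hx (interior_subset (hrG x h).2.1)
      exact lt_of_le_of_lt (not_lt.1 h1) (hth0 c)
    exact hcov2 c x this hxc

/-- finitely many points covered by every colour -/
theorem colored_points {K : Type*} [TopologicalSpace K] [NormalSpace K] [T1Space K]
    {W : Set (Set K)} (hW : ∀ w ∈ W, IsOpen w) (hWc : ⋃₀ W = univ) {q k : ℕ}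
    {C : Fin k → Set (Set K)} (hC : Colored W q k C) (P : Finset K) :
    ∃ C' : Fin k → Set (Set K), Colored W q k C' ∧ ∀ p ∈ P, ∀ c, p ∈ ⋃₀ C' c := by
  classical
  rcases Nat.eq_zero_or_pos q with rfl | hq
  · refine ⟨C, hC, fun p _ c => ?_⟩
    have h1 := hC.miss p
    rw [misses_eq_card] at h1
    have h2 := Finset.card_eq_zero.1 (Nat.le_zero.1 h1)
    rw [Finset.filter_eq_empty_iff] at h2
    simpa using h2 (Finset.mem_univ c)
  · induction P using Finset.induction_on with
    | empty => exact ⟨C, hC, by simp only [Finset.notMem_empty, mem_sUnion, IsEmpty.forall_iff, implies_true]⟩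
    | insert p P hp ih =>
      obtain ⟨C₁, hC₁, hP⟩ := ih
      have hpu : p ∈ ⋃₀ W := by rw [hWc]; trivial
      obtain ⟨w, hw, hpw⟩ := hpu
      have hN : ((P : Set K)ᶜ) ∈ 𝓝 p :=
        P.finite_toSet.isClosed.isOpen_compl.mem_nhds (by simpa using hp)
      obtain ⟨C₂, hC₂, hp2, hP2⟩ := colored_point hC₁ hq hw ((hW w hw).mem_nhds hpw) hN
      refine ⟨C₂, hC₂, fun p' hp' c => ?_⟩
      rcases Finset.mem_insert.1 hp' with rfl | h
      · exact hp2 c
      · exact hP2 p' (by simpa using h) c (hP p' h c)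

end

end Vale.Agent.P093
end
end
end

section

section

section

/-!
The upper bound for the mean dimension in terms of the official definitions.
-/

open Set Filter Topology
open scoped ENNReal

namespace Vale.Agent.P093

noncomputable section

section Bridge

variable {X : Type*} [TopologicalSpace X]

theorem card_le_of_coverOrder {V : Set (Set X)} (hV : V.Finite) {S : Finset (Set X)}
    (hS : ↑S ⊆ V) (hne : (⋂₀ (S : Set (Set X))).Nonempty) : S.card ≤ coverOrder V + 1 := by
  have hb : BddAbove {k | ∃ S : Finset (Set X), ↑S ⊆ V ∧ (⋂₀ (S : Set (Set X))).Nonempty ∧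
      S.card = k} := by
    refine ⟨hV.toFinset.card, ?_⟩
    rintro _ ⟨S, hS, _, rfl⟩
    apply Finset.card_le_card
    intro s hs
    rw [Set.Finite.mem_toFinset]
    exact hS hs
  have h1 : S.card ≤ sSup {k | ∃ S : Finset (Set X), ↑S ⊆ V ∧ (⋂₀ (S : Set (Set X))).Nonempty ∧
      S.card = k} := le_csSup hb ⟨S, hS, hne, rfl⟩
  unfold coverOrder
  omega

theorem coverDim_le_coverD {U : Set (Set X)} (hU : IsFinCover U) : coverDim U ≤ coverD U := by
  have hne : {k | ∃ V : Set (Set X), IsFinCover V ∧ Refines V U ∧ coverOrder V = k}.Nonempty :=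
    ⟨coverOrder U, U, hU, fun u hu => ⟨u, hu, le_rfl⟩, rfl⟩
  obtain ⟨V, hV, hVU, hk⟩ := Nat.sInf_mem hne
  change coverOrder V = coverD U at hk
  apply Nat.sInf_le
  refine ⟨V, hV, hVU, ?_⟩
  intro S hS hSne
  have hfin : S.Finite := hV.1.subset hS
  have h1 := card_le_of_coverOrder (S := hfin.toFinset) hV.1 (by simpa only [Finite.coe_toFinset] using hS)
    (by simpa only [Finite.coe_toFinset, nonempty_sInter] using hSne)
  rw [hfin.encard_eq_coe_toFinset_card]
  rw [hk] at h1
  exact_mod_cast h1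

theorem coverD_le_coverDim {U : Set (Set X)} (hU : IsFinCover U) : coverD U ≤ coverDim U := by
  have hne : {d : ℕ | ∃ 𝒱 : Set (Set X), IsFinOpenCover 𝒱 ∧ (∀ V ∈ 𝒱, ∃ W ∈ U, V ⊆ W) ∧
      ∀ S ⊆ 𝒱, (⋂₀ S).Nonempty → S.encard ≤ d + 1}.Nonempty := by
    refine ⟨hU.1.toFinset.card, U, hU, fun u hu => ⟨u, hu, le_rfl⟩, fun S hS _ => ?_⟩
    have h1 : S.encard ≤ U.encard := Set.encard_le_encard hS
    rw [hU.1.encard_eq_coe_toFinset_card] at h1
    exact h1.trans (by exact_mod_cast Nat.le_succ _)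
  obtain ⟨V, hV, hVU, hk⟩ := Nat.sInf_mem hne
  change ∀ S ⊆ V, (⋂₀ S).Nonempty → S.encard ≤ (coverDim U : ℕ∞) + 1 at hk
  have h1 : coverOrder V ≤ coverDim U := by
    unfold coverOrder
    have h2 : sSup {k | ∃ S : Finset (Set X), ↑S ⊆ V ∧ (⋂₀ (S : Set (Set X))).Nonempty ∧
        S.card = k} ≤ coverDim U + 1 := by
      by_cases hemp : {k | ∃ S : Finset (Set X), ↑S ⊆ V ∧ (⋂₀ (S : Set (Set X))).Nonempty ∧
        S.card = k}.Nonempty
      · apply csSup_le hemp
        rintro _ ⟨S, hS, hSne, rfl⟩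
        have := hk S hS hSne
        rw [Set.encard_coe_eq_coe_finsetCard] at this
        exact_mod_cast this
      · rw [Set.not_nonempty_iff_eq_empty] at hemp
        rw [hemp]
        simp only [csSup_empty, Nat.bot_eq_zero, le_add_iff_nonneg_left, zero_le]
    omega
  have h3 : coverD U ≤ coverOrder V := by
    apply Nat.sInf_le
    exact ⟨V, hV, hVU, rfl⟩
  exact h3.trans h1

theorem isFinCover_coverJoin (h : X ≃ₜ X) {U : Set (Set X)} (hU : IsFinCover U) (N : ℕ) :
    IsFinCover (coverJoin h U N) := by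
  refine ⟨?_, ?_, ?_⟩
  · have : coverJoin h U N = Set.range (fun f : Fin N → U =>
        ⋂ j : Fin N, (⇑h)^[(j : ℕ)] ⁻¹' (f j : Set X)) := by
      ext s
      constructor
      · rintro ⟨f, hf, rfl⟩
        exact ⟨fun j => ⟨f j, hf j⟩, rfl⟩
      · rintro ⟨f, rfl⟩
        exact ⟨fun j => f j, fun j => (f j).2, rfl⟩
    rw [this]
    have : Finite U := hU.1
    exact Set.finite_range _
  · rintro _ ⟨f, hf, rfl⟩
    exact isOpen_iInter_of_finite fun j => (hU.2.1 _ (hf j)).preimage (h.continuous.iterate _)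
  · rw [Set.eq_univ_iff_forall]
    intro x
    have hx : ∀ j : Fin N, ∃ u ∈ U, (⇑h)^[(j : ℕ)] x ∈ u := by
      intro j
      have : (⇑h)^[(j : ℕ)] x ∈ ⋃₀ U := by rw [hU.2.2]; exact Set.mem_univ _
      exact this
    choose f hf hxf using hx
    exact ⟨_, ⟨f, hf, rfl⟩, Set.mem_iInter.mpr fun j => hxf j⟩

theorem pow_eq_iterate (h : X ≃ₜ X) (j : ℕ) : ⇑(h ^ j) = (⇑h)^[j] := by
  induction j with
  | zero => rfl
  | succ j ih =>
    rw [pow_succ', Function.iterate_succ']
    funext x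
    change h ((h ^ j) x) = h ((⇑h)^[j] x)
    rw [ih]

theorem iterCover_eq_coverJoin (h : X ≃ₜ X) {U : Set (Set X)} (hU : U.Nonempty) (N : ℕ) :
    iterCover h U N = coverJoin h U N := by
  obtain ⟨u₀, hu₀⟩ := hU
  ext s
  constructor
  · rintro ⟨f, hf, rfl⟩
    refine ⟨fun j => f j, fun j => hf j, ?_⟩
    ext x
    simp only [Set.mem_iInter, Finset.mem_range, pow_eq_iterate]
    exact ⟨fun hx j => hx j j.2, fun hx j hj => hx ⟨j, hj⟩⟩
  · rintro ⟨f, hf, rfl⟩
    refine ⟨fun j => if hj : j < N then f ⟨j, hj⟩ else u₀, ?_, ?_⟩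
    · intro j
      by_cases hj : j < N
      · simp only [hj, dif_pos]; exact hf _
      · simp only [hj, dif_neg, not_false_eq_true]; exact hu₀
    · ext x
      simp only [Set.mem_iInter, Finset.mem_range, pow_eq_iterate]
      constructor
      · intro hx j hj
        have := hx ⟨j, hj⟩
        simpa [hj] using this
      · intro hx j
        have := hx j j.2
        simpa using this

theorem coverDim_iterCover_le (h : X ≃ₜ X) {U : Set (Set X)} (hU : IsFinOpenCover U) (N : ℕ) :
    coverDim (iterCover h U N) ≤ coverD (coverJoin h U N) := by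
  by_cases hne : U.Nonempty
  · rw [iterCover_eq_coverJoin h hne]
    exact coverDim_le_coverD (isFinCover_coverJoin h hU N)
  · rw [Set.not_nonempty_iff_eq_empty] at hne
    have hX : (Set.univ : Set X) = ∅ := by
      rw [← hU.2.2, hne, Set.sUnion_empty]
    have : coverDim (iterCover h U N) ≤ 0 := by
      apply Nat.sInf_le
      refine ⟨∅, ⟨Set.finite_empty, by simp only [mem_empty_iff_false, IsEmpty.forall_iff, implies_true], by rw [Set.sUnion_empty, hX]⟩, by simp only [mem_empty_iff_false, IsEmpty.forall_iff, implies_true], ?_⟩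
      intro S _ hS
      obtain ⟨x, _⟩ := hS
      exact absurd (Set.mem_univ x) (by rw [hX]; exact Set.notMem_empty x)
    exact this.trans (Nat.zero_le _)

theorem meanDim_le_mdim (h : X ≃ₜ X) : meanDim h ≤ mdim h := by
  unfold meanDim mdim
  apply iSup_le
  rintro ⟨U, hU⟩
  refine le_trans ?_ (le_iSup₂ (f := fun (U : Set (Set X)) (_ : IsFinCover U) =>
    limsup (fun N : ℕ => (coverD (coverJoin h U N) : ℝ≥0∞) / (N : ℝ≥0∞)) atTop) U hU)
  refine limsup_le_limsup ?_ (by isBoundedDefault) (by isBoundedDefault)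
  filter_upwards with N
  apply ENNReal.div_le_div_right
  exact_mod_cast coverDim_iterCover_le h hU N

theorem covDim_le_coveringDim : covDim X ≤ coveringDim X := by
  unfold covDim coveringDim
  apply iSup₂_le
  intro U hU
  refine le_trans ?_ (le_iSup (f := fun 𝒰 : {𝒰 : Set (Set X) // IsFinOpenCover 𝒰} =>
    (coverDim 𝒰.1 : ℝ≥0∞)) ⟨U, hU⟩)
  exact_mod_cast coverD_le_coverDim hU

end Bridge

/-- **Upper bound for the mean dimension of frozen skew shifts.** -/
theorem meanDim_frozen_le {K Ω : Type*} [TopologicalSpace K] [TopologicalSpace Ω] [CompactSpace K]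
    [T2Space K] [CompactSpace Ω] [T2Space Ω] [TotallyDisconnectedSpace Ω] (g : Ω ≃ₜ Ω) {O : Set Ω}
    (hO : IsOpen O) {c : Ω → K} (hc : ContinuousOn c O) :
    meanDim (frozenShift g O c) ≤ coveringDim K * dens g Oᶜ :=
  (meanDim_le_mdim _).trans ((mdim_frozen_le g hO hc).trans
    (mul_le_mul_left covDim_le_coveringDim _))

end

end Vale.Agent.P093
end
end
end

section

section

section

/-!
The covering dimension of the cube of dimension `q` is at most `q`.
-/

open Set Filter
open scoped ENNReal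

namespace Vale.Agent.P093

noncomputable section

/-- arbitrarily fine covers of order at most `d` -/
def FineCovers (K : Type*) [MetricSpace K] (d : ℕ) : Prop :=
  ∀ ε : ℝ, 0 < ε → ∃ V : Set (Set K), IsFinCover V ∧ (∀ v ∈ V, ∀ x ∈ v, ∀ y ∈ v, dist x y < ε) ∧
    ∀ x : K, ∀ S : Finset (Set K), ↑S ⊆ V → (∀ s ∈ S, x ∈ s) → S.card ≤ d + 1

theorem coverDim_pi_le {K : Type*} [MetricSpace K] [CompactSpace K] {d : ℕ}
    (hK : FineCovers K d) (q : ℕ) {U : Set (Set (Fin q → K))} (hU : IsFinOpenCover U) :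
    coverDim U ≤ q * d := by
  classical
  obtain ⟨δ, hδ, hleb⟩ := lebesgue_number_lemma_of_metric_sUnion (c := U)
    (isCompact_univ : IsCompact (Set.univ : Set (Fin q → K))) hU.2.1 (by rw [hU.2.2])
  obtain ⟨V, hV, hVδ, hVS⟩ := hK δ hδ
  obtain ⟨C, hC⟩ := exists_colored (W := V) hV (fun v hv => ⟨v, hv, subset_rfl⟩) hVS (q * d + 1)
  let V' : Set (Set (Fin q → K)) :=
    {v | v.Nonempty ∧ ∃ (k : Fin (q * d + 1)) (s : Fin q → Set K), (∀ i, s i ∈ C k) ∧
      v = Set.pi Set.univ s}
  apply Nat.sInf_le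
  refine ⟨V', ⟨?_, ?_, ?_⟩, ?_, ?_⟩
  · -- finiteness
    have hfin : (⋃ k : Fin (q * d + 1), (fun s : Fin q → Set K => Set.pi Set.univ s) ''
        (Set.pi Set.univ fun _ => C k)).Finite := by
      apply Set.finite_iUnion
      intro k
      exact (Set.Finite.pi fun _ => hC.fin k).image _
    apply hfin.subset
    rintro v ⟨_, k, s, hs, rfl⟩
    exact Set.mem_iUnion.mpr ⟨k, s, fun i _ => hs i, rfl⟩
  · rintro v ⟨_, k, s, hs, rfl⟩
    exact isOpen_set_pi Set.finite_univ fun i _ => hC.op k _ (hs i)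
  · rw [Set.eq_univ_iff_forall]
    intro x
    -- some colour is missed by no coordinate
    obtain ⟨k, hk⟩ : ∃ k : Fin (q * d + 1), ∀ i : Fin q, x i ∈ ⋃₀ C k := by
      by_contra hcon
      push Not at hcon
      have h1 : ∀ k : Fin (q * d + 1), 1 ≤ ∑ i : Fin q, (if x i ∈ ⋃₀ C k then 0 else 1) := by
        intro k
        obtain ⟨i, hi⟩ := hcon k
        calc 1 = (if x i ∈ ⋃₀ C k then 0 else 1) := by rw [if_neg hi]
          _ ≤ _ := Finset.single_le_sum (f := fun i => if x i ∈ ⋃₀ C k then 0 else 1)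
            (fun _ _ => Nat.zero_le _) (Finset.mem_univ i)
      have h2 : q * d + 1 ≤ ∑ k : Fin (q * d + 1), ∑ i : Fin q,
          (if x i ∈ ⋃₀ C k then 0 else 1) := by
        calc q * d + 1 = ∑ _k : Fin (q * d + 1), 1 := by simp
          _ ≤ _ := Finset.sum_le_sum fun k _ => h1 k
      rw [Finset.sum_comm] at h2
      have h3 : ∑ i : Fin q, ∑ k : Fin (q * d + 1), (if x i ∈ ⋃₀ C k then 0 else 1) ≤ q * d := by
        calc _ ≤ ∑ _i : Fin q, d := Finset.sum_le_sum fun i _ => hC.miss (x i)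
          _ = q * d := by simp only [Finset.sum_const, Finset.card_univ, Fintype.card_fin, smul_eq_mul]
      omega
    choose s hs hxs using hk
    exact ⟨Set.pi Set.univ s, ⟨⟨x, fun i _ => hxs i⟩, k, s, hs, rfl⟩, fun i _ => hxs i⟩
  · rintro v ⟨⟨x, hx⟩, k, s, hs, rfl⟩
    obtain ⟨u, hu, hball⟩ := hleb x (Set.mem_univ x)
    refine ⟨u, hu, fun y hy => hball ?_⟩
    rw [Metric.mem_ball, dist_pi_lt_iff hδ]
    intro i
    obtain ⟨w, hw, hsw⟩ := hC.ref k _ (hs i)
    exact hVδ w hw _ (hsw (hy i (Set.mem_univ i))) _ (hsw (hx i (Set.mem_univ i)))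
  · intro S hS hSne
    obtain ⟨x, hx⟩ := hSne
    let col : Set (Fin q → K) → Fin (q * d + 1) := fun v =>
      if h : v ∈ V' then h.2.choose else ⟨0, Nat.succ_pos _⟩
    have hinj : Set.InjOn col S := by
      intro v hv w hw hvw
      have hv' := hS hv
      have hw' := hS hw
      have h1 : col v = hv'.2.choose := dif_pos hv'
      have h2 : col w = hw'.2.choose := dif_pos hw'
      obtain ⟨s, hs, hvs⟩ := hv'.2.choose_spec
      obtain ⟨t, ht, hwt⟩ := hw'.2.choose_spec
      have hxv := Set.mem_sInter.mp hx v hv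
      have hxw := Set.mem_sInter.mp hx w hw
      rw [hvs] at hxv
      rw [hwt] at hxw
      rw [hvs, hwt]
      congr 1
      funext i
      have h3 : hv'.2.choose = hw'.2.choose := by rw [← h1, ← h2, hvw]
      apply hC.disj hw'.2.choose (s i) (by rw [← h3]; exact hs i) (t i) (ht i)
      exact ⟨x i, hxv i (Set.mem_univ i), hxw i (Set.mem_univ i)⟩
    rw [← hinj.encard_image]
    calc (col '' S).encard ≤ (Set.univ : Set (Fin (q * d + 1))).encard :=
          Set.encard_le_encard (Set.subset_univ _)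
      _ = ((q * d : ℕ) : ℕ∞) + 1 := by
          rw [Set.encard_univ, ENat.card_eq_coe_fintype_card, Fintype.card_fin]
          push_cast
          rfl

/-- the unit interval has fine covers of order one -/
theorem fineCovers_unitInterval : FineCovers unitInterval 1 := by
  classical
  intro ε hε
  obtain ⟨n, hn⟩ := exists_nat_gt (2 / ε)
  have hn0 : (0 : ℝ) < n := lt_trans (by positivity) hn
  have hnε : 2 / (n : ℝ) < ε := by
    rw [div_lt_iff₀ hε] at hn
    rw [div_lt_iff₀ hn0]
    linarith only [hn]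
  let v : ℤ → Set unitInterval := fun k => {x | |(n : ℝ) * (x : ℝ) - k| < 2 / 3}
  let V : Set (Set unitInterval) := v '' (Finset.Icc (0 : ℤ) n : Set ℤ)
  refine ⟨V, ⟨?_, ?_, ?_⟩, ?_, ?_⟩
  · exact (Finset.finite_toSet _).image _
  · rintro _ ⟨k, _, rfl⟩
    change IsOpen {x : unitInterval | |(n : ℝ) * (x : ℝ) - k| < 2 / 3}
    apply isOpen_lt
    · exact (((continuous_const.mul continuous_subtype_val).sub continuous_const)).abs
    · exact continuous_const
  · rw [Set.eq_univ_iff_forall]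
    intro x
    refine ⟨v (round ((n : ℝ) * x)), ⟨_, ?_, rfl⟩, ?_⟩
    · rw [Finset.coe_Icc, Set.mem_Icc]
      have h0 : 0 ≤ (n : ℝ) * x := mul_nonneg hn0.le x.2.1
      have h1 : (n : ℝ) * x ≤ n := mul_le_of_le_one_right hn0.le x.2.2
      have hr := abs_le.mp (abs_sub_round ((n : ℝ) * (x : ℝ)))
      constructor
      · have : (-1 : ℝ) < (round ((n : ℝ) * (x : ℝ)) : ℝ) := by linarith only [h0, hr]
        have h2 : (-1 : ℤ) < round ((n : ℝ) * (x : ℝ)) := by exact_mod_cast this
        omega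
      · have : (round ((n : ℝ) * (x : ℝ)) : ℝ) < n + 1 := by linarith only [h1, hr]
        have h2 : round ((n : ℝ) * (x : ℝ)) < (n : ℤ) + 1 := by exact_mod_cast this
        omega
    · change |(n : ℝ) * (x : ℝ) - round ((n : ℝ) * (x : ℝ))| < 2 / 3
      have := abs_sub_round ((n : ℝ) * (x : ℝ))
      linarith only [this]
  · rintro _ ⟨k, _, rfl⟩ x hx y hy
    change |(n : ℝ) * (x : ℝ) - k| < 2 / 3 at hx
    change |(n : ℝ) * (y : ℝ) - k| < 2 / 3 at hy
    rw [Subtype.dist_eq, Real.dist_eq]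
    have h1 : |(n : ℝ) * ((x : ℝ) - y)| < 2 := by
      have h2 : (n : ℝ) * ((x : ℝ) - y) = ((n : ℝ) * x - k) - ((n : ℝ) * y - k) := by ring
      rw [h2]
      exact (abs_sub _ _).trans_lt (by linarith only [hx, hy])
    rw [abs_mul, abs_of_pos hn0] at h1
    have h3 : |(x : ℝ) - y| < 2 / n := by
      rw [lt_div_iff₀ hn0]
      linarith only [h1]
    exact h3.trans hnε
  · intro x S hS hxS
    set a : ℤ := ⌊(n : ℝ) * (x : ℝ) - 2 / 3⌋ with ha
    have hsub : S ⊆ {v (a + 1), v (a + 2)} := by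
      intro s hs
      obtain ⟨k, _, rfl⟩ := hS hs
      have hx := hxS _ hs
      change |(n : ℝ) * (x : ℝ) - k| < 2 / 3 at hx
      obtain ⟨h1, h2⟩ := abs_lt.mp hx
      have h3 : a < k := by
        rw [ha, Int.floor_lt]
        linarith only [h2]
      have h4 := Int.lt_floor_add_one ((n : ℝ) * (x : ℝ) - 2 / 3)
      rw [← ha] at h4
      have h5 : (k : ℝ) < (a : ℝ) + 3 := by linarith only [h1, h4]
      have h6 : k < a + 3 := by exact_mod_cast h5
      have h7 : k = a + 1 ∨ k = a + 2 := by omega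
      rw [Finset.mem_insert, Finset.mem_singleton]
      rcases h7 with h | h
      · left; rw [h]
      · right; rw [h]
    exact (Finset.card_le_card hsub).trans (Finset.card_le_two)

/-- **The covering dimension of a cube.** -/
theorem coveringDim_cube_le (q : ℕ) : coveringDim (Fin q → unitInterval) ≤ q := by
  unfold coveringDim
  apply iSup_le
  rintro ⟨U, hU⟩
  have := coverDim_pi_le fineCovers_unitInterval q hU
  rw [mul_one] at this
  exact_mod_cast this

end

end Vale.Agent.P093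
end
end
end

section

section

section

/-!
Upper bound for the mean dimension of a subshift of `K^ℤ × Y` in which most coordinates lie in a
finite subset of the alphabet.
-/

open Set Filter Topology Uniformity
open scoped ENNReal

namespace Vale.Agent.P093

noncomputable section

section Limsup

theorem limsup_add_le_of_le {u v : ℕ → ℝ≥0∞} {B : ℝ≥0∞} (hv : limsup v atTop ≤ B) :
    limsup (fun n => u n + v n) atTop ≤ limsup u atTop + B := by
  rcases eq_or_ne B ⊤ with rfl | hB
  · simp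
  refine ENNReal.le_of_forall_pos_le_add fun ε hε _ => ?_
  have hε' : (0 : ℝ≥0∞) < ε := by exact_mod_cast hε
  have h1 : limsup v atTop < B + ε :=
    lt_of_le_of_lt hv (ENNReal.lt_add_right hB hε'.ne')
  have h2 : ∀ᶠ n in atTop, v n < B + ε := eventually_lt_of_limsup_lt h1
  calc limsup (fun n => u n + v n) atTop ≤ limsup (fun n => u n + (B + ε)) atTop := by
        refine limsup_le_limsup ?_ (by isBoundedDefault) (by isBoundedDefault)
        filter_upwards [h2] with n hn
        gcongr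
    _ = limsup u atTop + (B + ε) :=
        limsup_add_const _ _ _ (by isBoundedDefault) (by isBoundedDefault)
    _ = limsup u atTop + B + ε := by rw [add_assoc]

end Limsup

section Window

variable {X K Y : Type*} [TopologicalSpace X] [CompactSpace X]

/-- Lebesgue number for an embedded system -/
theorem exists_window_sub [UniformSpace K] [UniformSpace Y] [T2Space K] [T2Space Y]
    {c : X → (ℤ → K) × Y} (hc : Continuous c) (hci : Function.Injective c)
    {U : Set (Set X)} (hU : IsFinCover U) :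
    ∃ (M : ℕ) (E : Set (K × K)) (E' : Set (Y × Y)), E ∈ 𝓤 K ∧ E' ∈ 𝓤 Y ∧
      ∀ p : X, ∃ u ∈ U, ∀ q : X,
        (∀ i : ℤ, -(M : ℤ) ≤ i → i ≤ M → ((c p).1 i, (c q).1 i) ∈ E) →
          ((c p).2, (c q).2) ∈ E' → q ∈ u := by
  have hce : IsClosedEmbedding c := hc.isClosedEmbedding hci
  have hop : ∀ u ∈ U, ∃ u' : Set ((ℤ → K) × Y), IsOpen u' ∧ c ⁻¹' u' = u := fun u hu =>
    hce.isInducing.isOpen_iff.1 (hU.2.1 u hu)
  choose! F hFo hFc using hop
  obtain ⟨V, hV, hVU⟩ := lebesgue_number_lemma_sUnion (S := F '' U) (isCompact_range hc)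
    (by rintro _ ⟨u, hu, rfl⟩; exact hFo u hu)
    (by
      rintro _ ⟨x, rfl⟩
      have : x ∈ ⋃₀ U := by rw [hU.2.2]; trivial
      obtain ⟨u, hu, hxu⟩ := this
      refine ⟨F u, ⟨u, hu, rfl⟩, ?_⟩
      rw [← hFc u hu] at hxu
      exact hxu)
  obtain ⟨E1, hE1, E2, hE2, hsub⟩ := entourageProd_subset hV
  rw [Pi.uniformity, Filter.mem_iInf'] at hE1
  obtain ⟨I, hI, W, hW, -, hWE, -⟩ := hE1
  have hW' : ∀ i, ∃ t ∈ 𝓤 K, (fun a : (ℤ → K) × (ℤ → K) => (a.1 i, a.2 i)) ⁻¹' t ⊆ W i :=
    fun i => mem_comap.mp (hW i)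
  choose t ht htW using hW'
  obtain ⟨M, hM⟩ : ∃ M : ℕ, ∀ i ∈ I, |i| ≤ M := by
    obtain ⟨M, hM⟩ := (hI.image fun i : ℤ => i.natAbs).bddAbove
    refine ⟨M, fun i hi => ?_⟩
    have := hM (Set.mem_image_of_mem _ hi)
    rw [Int.abs_eq_natAbs]
    exact_mod_cast this
  refine ⟨M, ⋂ i ∈ I, t i, E2, (Filter.biInter_mem hI).mpr fun i _ => ht i, hE2, ?_⟩
  intro p
  obtain ⟨_, ⟨u, hu, rfl⟩, hbu⟩ := hVU (c p) (mem_range_self p)
  refine ⟨u, hu, fun q hq hq' => ?_⟩
  rw [← hFc u hu]
  apply hbu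
  apply hsub
  refine ⟨?_, hq'⟩
  change ((c p).1, (c q).1) ∈ E1
  rw [hWE]
  simp only [Set.mem_iInter]
  intro i hi
  apply htW i
  have h1 := abs_le.mp (hM i hi)
  have := hq i h1.1 h1.2
  simp only [Set.mem_iInter] at this
  exact this i hi

/-- coordinates of iterates -/
theorem coord_iterate {h : X ≃ₜ X} {c : X → (ℤ → K) × Y}
    (hcs : ∀ x i, (c (h x)).1 i = (c x).1 (i + 1)) (j : ℤ) (x : X) (i : ℤ) :
    (c ((h ^ j) x)).1 i = (c x).1 (i + j) := by
  induction j using Int.induction_on generalizing x i with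
  | zero => simp only [zpow_ofNat, pow_zero, Homeomorph.one_apply, add_zero]
  | succ j ih =>
    have h1 : (h ^ ((j : ℤ) + 1)) x = h ((h ^ (j : ℤ)) x) := by
      rw [add_comm, zpow_one_add]
      rfl
    rw [h1, hcs, ih]
    ring_nf
  | pred j ih =>
    have h1 : (h ^ (-(j : ℤ))) x = h ((h ^ (-(j : ℤ) - 1)) x) := by
      have : (-(j : ℤ)) = 1 + (-(j : ℤ) - 1) := by ring
      conv_lhs => rw [this]
      rw [zpow_one_add]
      rfl
    have h2 : (c ((h ^ (-(j : ℤ) - 1)) x)).1 i = (c (h ((h ^ (-(j : ℤ) - 1)) x))).1 (i - 1) := by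
      rw [hcs]
      ring_nf
    rw [h2, ← h1, ih]
    ring_nf

end Window

section Bound

variable {X K Y : Type*} [TopologicalSpace X] [CompactSpace X]

theorem base_iterate {h : X ≃ₜ X} {c : X → (ℤ → K) × Y} {g : Y → Y}
    (hcg : ∀ x, (c (h x)).2 = g (c x).2) (j : ℕ) (x : X) :
    (c ((⇑h)^[j] x)).2 = g^[j] (c x).2 := by
  induction j with
  | zero => simp
  | succ j ih => rw [Function.iterate_succ_apply', hcg, ih, Function.iterate_succ_apply']

/-- a member of the refining cover -/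
def sbox (c : X → (ℤ → K) × Y) (J : Finset ℤ) (V : Set Y) (D : J → Set K) : Set X :=
  {x | (c x).2 ∈ V ∧ ∀ i : J, (c x).1 i ∈ D i}

theorem coverD_join_sub_le [UniformSpace K] [CompactSpace K] [T2Space K] [UniformSpace Y]
    [CompactSpace Y] [T2Space Y] {h : X ≃ₜ X} {c : X → (ℤ → K) × Y} (hc : Continuous c)
    (hci : Function.Injective c) (hcs : ∀ x i, (c (h x)).1 i = (c x).1 (i + 1)) {g : Y ≃ₜ Y}
    (hcg : ∀ x, (c (h x)).2 = g (c x).2) {U : Set (Set X)} (hU : IsFinCover U) :
    ∃ (W : Set (Set K)) (WY : Set (Set Y)) (L : ℕ), IsFinCover W ∧ IsFinCover WY ∧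
      ∀ P : Set K, P.Finite → ∀ N : ℕ, coverD (coverJoin h U N) ≤
        coverD (coverJoin g WY N) + coverD W * maxVisits h {x | (c x).1 0 ∉ P} (N + L) := by
  classical
  obtain ⟨M, E, E', hE, hE', hwin⟩ := exists_window_sub hc hci hU
  obtain ⟨W, hW, hWE⟩ := exists_small_cover hE
  obtain ⟨WY, hWY, hWYE⟩ := exists_small_cover hE'
  refine ⟨W, WY, 2 * M + 1, hW, hWY, fun P hP N => ?_⟩
  set q := coverD W with hq
  set m := maxVisits h {x | (c x).1 0 ∉ P} (N + (2 * M + 1)) with hm
  set d := coverD (coverJoin g WY N) with hd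
  -- coloured covers
  obtain ⟨V, hV, hVr, hVo⟩ := exists_refinement hW
  obtain ⟨C₀, hC₀⟩ := exists_colored (q := q) hV hVr (fun x S hS hx => by
    have := card_le_of_order hV.1 x S hS hx
    rw [hVo] at this
    exact this) (d + q * m + 1)
  obtain ⟨C, hC, hCP⟩ := colored_points hW.2.1 hW.2.2 hC₀ hP.toFinset
  obtain ⟨V', hV', hVr', hVo'⟩ := exists_refinement (isFinCover_coverJoin g hWY N)
  obtain ⟨B, hB⟩ := exists_colored (q := d) hV' hVr' (fun x S hS hx => by
    have := card_le_of_order hV'.1 x S hS hx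
    rw [hVo'] at this
    exact this) (d + q * m + 1)
  -- the window
  set J : Finset ℤ := Finset.Icc (-(M : ℤ)) (N + M) with hJ
  -- number of free positions
  have hfree : ∀ x : X, (J.filter fun i => (c x).1 i ∉ P).card ≤ m := by
    intro x
    have h1 : (J.filter fun i => (c x).1 i ∉ P).card ≤
        visits h {x | (c x).1 0 ∉ P} (N + (2 * M + 1)) ((h ^ (-(M : ℤ))) x) := by
      rw [visits_eq_card]
      apply Finset.card_le_card_of_injOn (fun i : ℤ => (i + M).toNat)
      · intro i hi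
        have hi' := Finset.mem_filter.1 (Finset.mem_coe.1 hi)
        rw [hJ, Finset.mem_Icc] at hi'
        have hnn : 0 ≤ i + M := by linarith only [hi']
        rw [Finset.mem_coe, mem_vset]
        refine ⟨by dsimp only; omega, ?_⟩
        change (c ((h ^ (((i + M).toNat : ℕ) : ℤ)) ((h ^ (-(M : ℤ))) x))).1 0 ∉ P
        rw [coord_iterate hcs, coord_iterate hcs, Int.toNat_of_nonneg hnn]
        have : 0 + (i + M) + -(M : ℤ) = i := by ring
        rw [this]
        exact hi'.2
      · intro a ha b hb hab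
        have ha' := Finset.mem_filter.1 (Finset.mem_coe.1 ha)
        have hb' := Finset.mem_filter.1 (Finset.mem_coe.1 hb)
        rw [hJ, Finset.mem_Icc] at ha' hb'
        simp only at hab
        omega
    exact h1.trans (visits_le_max _ _ _ _)
  -- the cover
  let VV : Set (Set X) := {s | s.Nonempty ∧ ∃ (k : Fin (d + q * m + 1)) (b : Set Y)
    (D : J → Set K), b ∈ B k ∧ (∀ i, D i ∈ C k) ∧ s = sbox c J b D}
  have hopen : ∀ (b : Set Y) (D : J → Set K), IsOpen b → (∀ i, IsOpen (D i)) →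
      IsOpen (sbox c J b D) := by
    intro b D hb hD
    have h1 : sbox c J b D = {x | (c x).2 ∈ b} ∩ ⋂ i : J, {x | (c x).1 i ∈ D i} := by
      ext p
      simp only [sbox, Set.mem_ofPred_eq, Set.mem_inter_iff, Set.mem_iInter]
    rw [h1]
    apply IsOpen.inter
    · exact hb.preimage (continuous_snd.comp hc)
    · apply isOpen_iInter_of_finite
      intro i
      exact (hD i).preimage ((continuous_apply (i : ℤ)).comp (continuous_fst.comp hc))
  have hVVfin : VV.Finite := by
    have hsub : VV ⊆ ⋃ (k : Fin (d + q * m + 1)),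
        (fun D : Set Y × (J → Set K) => sbox c J D.1 D.2) ''
          ((B k) ×ˢ {D : J → Set K | ∀ i, D i ∈ C k}) := by
      rintro s ⟨_, k, b, D, hb, hD, rfl⟩
      rw [Set.mem_iUnion]
      exact ⟨k, (b, D), ⟨hb, hD⟩, rfl⟩
    apply Set.Finite.subset _ hsub
    apply Set.finite_iUnion
    intro k
    apply Set.Finite.image
    exact (hB.fin k).prod (Set.Finite.pi' fun i => hC.fin k)
  have hVVcov : IsFinCover VV := by
    refine ⟨hVVfin, ?_, ?_⟩
    · rintro s ⟨_, k, b, D, hb, hD, rfl⟩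
      exact hopen _ _ (hB.op k b hb) fun i => hC.op k _ (hD i)
    · rw [Set.eq_univ_iff_forall]
      intro x
      -- choose a colour
      set J' := J.filter fun i => (c x).1 i ∉ P with hJ'
      have hcol : ∃ k : Fin (d + q * m + 1), (c x).2 ∈ ⋃₀ B k ∧ ∀ i ∈ J', (c x).1 i ∈ ⋃₀ C k := by
        by_contra hcon
        push Not at hcon
        have h1 : ∑ k : Fin (d + q * m + 1), ∑ i ∈ J', (if (c x).1 i ∈ ⋃₀ C k then 0 else 1) ≤
            q * m := by
          rw [Finset.sum_comm]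
          calc ∑ i ∈ J', ∑ k : Fin (d + q * m + 1), (if (c x).1 i ∈ ⋃₀ C k then 0 else 1)
              ≤ ∑ _i ∈ J', q := Finset.sum_le_sum fun i _ => hC.miss ((c x).1 i)
            _ = J'.card * q := by rw [Finset.sum_const, smul_eq_mul]
            _ ≤ m * q := Nat.mul_le_mul_right _ (hfree _)
            _ = q * m := mul_comm _ _
        have h3 : ∑ k : Fin (d + q * m + 1), (if (c x).2 ∈ ⋃₀ B k then 0 else 1) ≤ d :=
          hB.miss _
        have h2 : ∑ _k : Fin (d + q * m + 1), 1 ≤ ∑ k : Fin (d + q * m + 1),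
            ((if (c x).2 ∈ ⋃₀ B k then 0 else 1) +
              ∑ i ∈ J', (if (c x).1 i ∈ ⋃₀ C k then 0 else 1)) := by
          apply Finset.sum_le_sum
          intro k _
          by_cases hk : (c x).2 ∈ ⋃₀ B k
          · obtain ⟨i, hi, hik⟩ := hcon k hk
            calc 1 = (if (c x).1 i ∈ ⋃₀ C k then 0 else 1) := by rw [if_neg hik]
              _ ≤ ∑ i ∈ J', (if (c x).1 i ∈ ⋃₀ C k then 0 else 1) :=
                  Finset.single_le_sum (f := fun i => if (c x).1 i ∈ ⋃₀ C k then 0 else 1)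
                    (fun _ _ => Nat.zero_le _) hi
              _ ≤ _ := Nat.le_add_left _ _
          · rw [if_neg hk]
            exact Nat.le_add_right _ _
        rw [Finset.sum_add_distrib] at h2
        simp only [Finset.sum_const, Finset.card_univ, Fintype.card_fin, smul_eq_mul,
          mul_one] at h2
        omega
      obtain ⟨k, hkB, hk⟩ := hcol
      have hall : ∀ i : J, (c x).1 i ∈ ⋃₀ C k := by
        intro i
        by_cases hi : (c x).1 (i : ℤ) ∈ P
        · exact hCP _ (by simpa using hi) k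
        · exact hk i (by rw [hJ', Finset.mem_filter]; exact ⟨i.2, hi⟩)
      obtain ⟨b, hb, hxb⟩ := hkB
      choose D hD hxD using hall
      have hp : x ∈ sbox c J b D := ⟨hxb, hxD⟩
      exact ⟨_, ⟨⟨x, hp⟩, k, b, D, hb, hD, rfl⟩, hp⟩
  have hVVref : Refines VV (coverJoin h U N) := by
    rintro s ⟨⟨p, hp⟩, k, b, D, hb, hD, rfl⟩
    have hu : ∀ j : Fin N, ∃ u ∈ U, ∀ q : X,
        (∀ i : ℤ, -(M : ℤ) ≤ i → i ≤ M →
          ((c ((⇑h)^[(j : ℕ)] p)).1 i, (c q).1 i) ∈ E) →
        ((c ((⇑h)^[(j : ℕ)] p)).2, (c q).2) ∈ E' → q ∈ u := fun j => hwin ((⇑h)^[(j : ℕ)] p)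
    choose f hf hf2 using hu
    refine ⟨⋂ j : Fin N, (⇑h)^[(j : ℕ)] ⁻¹' f j, ⟨f, hf, rfl⟩, ?_⟩
    intro p' hp'
    rw [Set.mem_iInter]
    intro j
    apply hf2 j
    · intro i hi1 hi2
      have hco : ∀ x : X, (c ((⇑h)^[(j : ℕ)] x)).1 i = (c x).1 (i + (j : ℕ)) := by
        intro x
        rw [← pow_eq_iterate, ← zpow_natCast, coord_iterate hcs]
      rw [hco, hco]
      have hiJ : i + (j : ℕ) ∈ J := by
        rw [hJ, Finset.mem_Icc]
        have := j.2
        constructor <;> omega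
      obtain ⟨w, hw, hDw⟩ := hC.ref k _ (hD ⟨i + (j : ℕ), hiJ⟩)
      exact hWE w hw _ (hDw (hp.2 ⟨i + (j : ℕ), hiJ⟩)) _ (hDw (hp'.2 ⟨i + (j : ℕ), hiJ⟩))
    · rw [base_iterate hcg, base_iterate hcg]
      obtain ⟨w, ⟨fw, hfw, rfl⟩, hbw⟩ := hB.ref k _ hb
      exact hWYE (fw j) (hfw j) _ (mem_iInter.1 (hbw hp.1) j) _ (mem_iInter.1 (hbw hp'.1) j)
  have hVVord : coverOrder VV ≤ d + q * m := by
    apply order_le
    rintro S hS ⟨p, hp⟩
    have hcol : ∀ s : S, ∃ k : Fin (d + q * m + 1), ∃ (b : Set Y) (D : J → Set K),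
        b ∈ B k ∧ (∀ i, D i ∈ C k) ∧ (s : Set X) = sbox c J b D := by
      intro s
      obtain ⟨_, k, b, D, hb, hD, hs⟩ := hS s.2
      exact ⟨k, b, D, hb, hD, hs⟩
    choose k b D hb hD hs using hcol
    have hinj : Function.Injective k := by
      intro s s' hk
      apply Subtype.ext
      have hps : p ∈ sbox c J (b s) (D s) := by rw [← hs]; exact hp s s.2
      have hps' : p ∈ sbox c J (b s') (D s') := by rw [← hs]; exact hp s' s'.2
      rw [hs, hs]
      have hbb : b s = b s' := by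
        apply hB.disj (k s) _ (hb s) _ (by rw [hk]; exact hb s')
        exact ⟨_, hps.1, hps'.1⟩
      have hDD : D s = D s' := by
        funext i
        apply hC.disj (k s) _ (hD s i) _ (by rw [hk]; exact hD s' i)
        exact ⟨_, hps.2 i, hps'.2 i⟩
      rw [hbb, hDD]
    have := Fintype.card_le_of_injective k hinj
    simpa only [ge_iff_le, Fintype.card_coe, Fintype.card_fin] using this
  exact coverD_le hVVcov hVVref hVVord

end Bound

section Final

variable {X : Type*} [TopologicalSpace X]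

theorem limsup_coverJoin_le_meanDim {Y : Type*} [TopologicalSpace Y] [Nonempty Y] (g : Y ≃ₜ Y)
    {W : Set (Set Y)} (hW : IsFinCover W) :
    limsup (fun N : ℕ => (coverD (coverJoin g W N) : ℝ≥0∞) / (N : ℝ≥0∞)) atTop ≤ meanDim g := by
  have hne : W.Nonempty := by
    obtain ⟨y⟩ := ‹Nonempty Y›
    have : y ∈ ⋃₀ W := by rw [hW.2.2]; trivial
    obtain ⟨w, hw, _⟩ := this
    exact ⟨w, hw⟩
  unfold meanDim
  refine le_trans ?_ (le_iSup (f := fun 𝒰 : {𝒰 : Set (Set Y) // IsFinOpenCover 𝒰} =>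
    limsup (fun N : ℕ => (coverDim (iterCover g 𝒰.1 N) : ℝ≥0∞) / N) atTop) ⟨W, hW⟩)
  refine limsup_le_limsup ?_ (by isBoundedDefault) (by isBoundedDefault)
  filter_upwards with N
  apply ENNReal.div_le_div_right
  have h1 := coverD_le_coverDim (isFinCover_coverJoin g hW N)
  rw [← iterCover_eq_coverJoin g hne] at h1
  rw [← iterCover_eq_coverJoin g hne]
  exact_mod_cast h1

theorem meanDim_sub_le_aux [CompactSpace X] {K Y : Type*} [UniformSpace K] [CompactSpace K]
    [T2Space K] [UniformSpace Y] [CompactSpace Y] [T2Space Y] {h : X ≃ₜ X}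
    {c : X → (ℤ → K) × Y} (hc : Continuous c)
    (hci : Function.Injective c) (hcs : ∀ x i, (c (h x)).1 i = (c x).1 (i + 1)) {g : Y ≃ₜ Y}
    (hcg : ∀ x, (c (h x)).2 = g (c x).2) {ρ : ℝ≥0∞}
    (hup : ∀ ε > 0, ∃ P : Set K, P.Finite ∧ ∃ N > 0,
      (maxVisits h {x | (c x).1 0 ∉ P} N : ℝ≥0∞) / N ≤ ρ + ε) :
    meanDim h ≤ meanDim g + coveringDim K * ρ := by
  refine (meanDim_le_mdim h).trans ?_
  unfold mdim
  apply iSup₂_le
  intro U hU
  rcases isEmpty_or_nonempty X with hX | hX
  · have hz : ∀ N : ℕ, coverD (coverJoin h U N) = 0 := by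
      intro N
      apply Nat.le_zero.1
      refine coverD_le (V := ∅) ⟨Set.finite_empty, by simp, ?_⟩ (fun v hv => absurd hv (by simp)) ?_
      · rw [Set.sUnion_empty, eq_comm, Set.univ_eq_empty_iff]
        exact hX
      · apply order_le
        intro S _ hS
        obtain ⟨x, _⟩ := hS
        exact hX.elim x
    simp only [hz, CharP.cast_eq_zero, ENNReal.zero_div, limsup_const, zero_le]
  obtain ⟨W, WY, L, hW, hWY, hWL⟩ := coverD_join_sub_le hc hci hcs hcg hU
  have : Nonempty Y := ⟨(c hX.some).2⟩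
  have hA : (coverD W : ℝ≥0∞) ≤ coveringDim K := by
    refine le_trans ?_ covDim_le_coveringDim
    exact le_iSup₂ (f := fun (U : Set (Set K)) (_ : IsFinCover U) => (coverD U : ℝ≥0∞)) W hW
  have h1 : ∀ ε > 0, limsup (fun N : ℕ => (coverD (coverJoin h U N) : ℝ≥0∞) / (N : ℝ≥0∞)) atTop ≤
      meanDim g + (coverD W : ℝ≥0∞) * (ρ + ε) := by
    intro ε hε
    obtain ⟨P, hP, N₁, hN₁, hv⟩ := hup ε hε
    have h2 : limsup (fun N : ℕ => (coverD (coverJoin h U N) : ℝ≥0∞) / (N : ℝ≥0∞)) atTop ≤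
        limsup (fun N : ℕ => (coverD (coverJoin g WY N) : ℝ≥0∞) / (N : ℝ≥0∞) +
          ((coverD W * maxVisits h {x | (c x).1 0 ∉ P} (N + L) : ℕ) : ℝ≥0∞) / (N : ℝ≥0∞))
          atTop := by
      refine limsup_le_limsup ?_ (by isBoundedDefault) (by isBoundedDefault)
      filter_upwards with N
      rw [← ENNReal.add_div]
      apply ENNReal.div_le_div_right
      exact_mod_cast hWL P hP N
    refine h2.trans ((limsup_add_le_of_le (B := (coverD W : ℝ≥0∞) * (ρ + ε)) ?_).trans ?_)
    · refine (limsup_visits (A := coverD W) (v := maxVisits h {x | (c x).1 0 ∉ P} N₁) (L := L)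
        hN₁ ?_).trans ?_
      · intro N
        exact Nat.mul_le_mul_left _ (maxVisits_le_div hN₁ _)
      · (clear * - hv; gcongr)
    · gcongr
      exact limsup_coverJoin_le_meanDim g hWY
  -- let ε → 0
  have h3 : limsup (fun N : ℕ => (coverD (coverJoin h U N) : ℝ≥0∞) / (N : ℝ≥0∞)) atTop ≤
      meanDim g + (coverD W : ℝ≥0∞) * ρ := by
    refine ENNReal.le_of_forall_pos_le_add fun ε hε _ => ?_
    have hA1 : (0 : ℝ≥0∞) < (coverD W : ℝ≥0∞) + 1 := by positivity
    have hA2 : (coverD W : ℝ≥0∞) + 1 ≠ ⊤ :=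
      ENNReal.add_ne_top.2 ⟨ENNReal.natCast_ne_top _, ENNReal.one_ne_top⟩
    have hε' : (0 : ℝ≥0∞) < ε := by exact_mod_cast hε
    refine (h1 (ε / ((coverD W : ℝ≥0∞) + 1)) (ENNReal.div_pos hε'.ne' hA2)).trans ?_
    rw [mul_add, ← add_assoc]
    gcongr
    calc (coverD W : ℝ≥0∞) * (ε / ((coverD W : ℝ≥0∞) + 1))
        ≤ ((coverD W : ℝ≥0∞) + 1) * (ε / ((coverD W : ℝ≥0∞) + 1)) := by
          gcongr
          exact le_self_add
      _ = ε := ENNReal.mul_div_cancel hA1.ne' hA2
  refine h3.trans ?_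
  (clear * - hA; gcongr)

/-- **Upper bound for the mean dimension of subshifts of `K^ℤ × Y`.** For every `ε > 0` there is
a finite set `P` of letters and a length `N` such that no point of `X` has more than `(ρ + ε) N`
coordinates outside of `P` in the window `[0, N)`. Then
`mdim(X, h) ≤ mdim(Y, g) + dim(K) ρ`. -/
theorem meanDim_subshift_le [CompactSpace X] {K Y : Type*} [TopologicalSpace K] [CompactSpace K]
    [T2Space K] [TopologicalSpace Y] [CompactSpace Y] [T2Space Y] {h : X ≃ₜ X}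
    {c : X → (ℤ → K) × Y} (hc : Continuous c)
    (hci : Function.Injective c) (hcs : ∀ x i, (c (h x)).1 i = (c x).1 (i + 1)) {g : Y ≃ₜ Y}
    (hcg : ∀ x, (c (h x)).2 = g (c x).2) {ρ : ℝ}
    (hup : ∀ ε > 0, ∃ P : Set K, P.Finite ∧ ∃ N : ℕ, 0 < N ∧
      ∀ x, ({i : ℤ | 0 ≤ i ∧ i < N ∧ (c x).1 i ∉ P}.ncard : ℝ) ≤ (ρ + ε) * N) :
    meanDim h ≤ meanDim g + coveringDim K * ENNReal.ofReal ρ := by
  classical
  let _ : UniformSpace K := uniformSpaceOfCompactR1
  let _ : UniformSpace Y := uniformSpaceOfCompactR1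
  refine meanDim_sub_le_aux hc hci hcs hcg fun ε hε => ?_
  rcases eq_or_ne ε ⊤ with rfl | hε'
  · refine ⟨∅, Set.finite_empty, 1, one_pos, by simp only [mem_empty_iff_false, not_false_eq_true, ofPred_true, Nat.cast_one, div_one, add_top, le_top]⟩
  obtain ⟨P, hP, N, hN, hx⟩ := hup ε.toReal (ENNReal.toReal_pos hε.ne' hε')
  refine ⟨P, hP, N, hN, ?_⟩
  have hN0 : (0 : ℝ) < N := by exact_mod_cast hN
  have hN0' : (N : ℝ≥0∞) ≠ 0 := by exact_mod_cast hN.ne'
  rw [ENNReal.div_le_iff hN0' (ENNReal.natCast_ne_top _)]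
  have hcard : ∀ x, visits h {x | (c x).1 0 ∉ P} N x =
      {i : ℤ | 0 ≤ i ∧ i < N ∧ (c x).1 i ∉ P}.ncard := by
    intro x
    rw [visits_eq_card, ← Set.ncard_coe_finset]
    apply Set.ncard_congr (fun (j : ℕ) _ => (j : ℤ))
    · intro j hj
      rw [Finset.mem_coe, mem_vset] at hj
      refine ⟨by (clear * -; positivity), by exact_mod_cast hj.1, ?_⟩
      have : (c ((h ^ (j : ℤ)) x)).1 0 ∉ P := hj.2
      rw [coord_iterate hcs, zero_add] at this
      exact this
    · intro a b _ _ hab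
      exact_mod_cast hab
    · rintro i ⟨h1, h2, h3⟩
      refine ⟨i.toNat, ?_, Int.toNat_of_nonneg h1⟩
      rw [Finset.mem_coe, mem_vset]
      refine ⟨by omega, ?_⟩
      change (c ((h ^ ((i.toNat : ℕ) : ℤ)) x)).1 0 ∉ P
      rw [coord_iterate hcs, zero_add, Int.toNat_of_nonneg h1]
      exact h3
  rcases isEmpty_or_nonempty X with hX | hX
  · have : maxVisits h {x | (c x).1 0 ∉ P} N = 0 := by
      apply Nat.le_zero.1
      exact maxVisits_le fun x => hX.elim x
    rw [this]
    simp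
  obtain ⟨x, hxm⟩ := exists_visits_eq h {x | (c x).1 0 ∉ P} N
  rw [← hxm, hcard]
  have h4 := hx x
  rw [← ENNReal.ofReal_toReal hε', ← ENNReal.ofReal_natCast, ← ENNReal.ofReal_natCast N]
  have h5 : ENNReal.ofReal (({i : ℤ | 0 ≤ i ∧ i < N ∧ (c x).1 i ∉ P}.ncard : ℕ) : ℝ) ≤
      ENNReal.ofReal ((ρ + ε.toReal) * N) := ENNReal.ofReal_le_ofReal h4
  refine h5.trans ?_
  rw [ENNReal.ofReal_mul' hN0.le]
  gcongr
  exact ENNReal.ofReal_add_le

end Final

end

end Vale.Agent.P093
end
end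
end

section

section

section

/-!
Upper bound for the mean dimension of an extension of a zero-dimensional system inside
`K^ℤ × Y` in which most coordinates take finitely many values that vary continuously with the
point of the base.
-/

open Set Filter Topology Uniformity
open scoped ENNReal

namespace Vale.Agent.P093

noncomputable section

/-- a locally constant choice of a neighbourhood in a zero-dimensional compact space -/
theorem exists_locallyConst_choice {Y : Type*} [TopologicalSpace Y] [CompactSpace Y] [T2Space Y]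
    [TotallyDisconnectedSpace Y] [Nonempty Y] (V : Y → Set Y) (hV : ∀ y, V y ∈ 𝓝 y) :
    ∃ (t : Finset Y) (r : Y → Y), (∀ y, r y ∈ t) ∧ (∀ y, y ∈ V (r y)) ∧
      ∀ z, IsOpen (r ⁻¹' {z}) := by
  classical
  have h1 : ∀ y, ∃ R : Set Y, IsClopen R ∧ y ∈ R ∧ R ⊆ V y := by
    intro y
    obtain ⟨R, hR, hyR, hRV⟩ := compact_exists_isClopen_in_isOpen isOpen_interior
      (mem_interior_iff_mem_nhds.2 (hV y))
    exact ⟨R, hR, hyR, hRV.trans interior_subset⟩
  choose R hR hyR hRV using h1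
  obtain ⟨t, ht⟩ := isCompact_univ.elim_finite_subcover R (fun y => (hR y).isOpen)
    (fun y _ => mem_iUnion.2 ⟨y, hyR y⟩)
  let sig : Y → Finset Y := fun y => t.filter fun z => y ∈ R z
  have hsig : ∀ y, (sig y).Nonempty := by
    intro y
    obtain ⟨z, hz, hyz⟩ := mem_iUnion₂.1 (ht (mem_univ y))
    exact ⟨z, Finset.mem_filter.2 ⟨hz, hyz⟩⟩
  let ch : Finset Y → Y := fun s => if h : s.Nonempty then h.choose else Classical.arbitrary Y
  have hch : ∀ s : Finset Y, s.Nonempty → ch s ∈ s := by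
    intro s hs
    simp only [ch, dif_pos hs]
    exact hs.choose_spec
  refine ⟨t, fun y => ch (sig y), fun y => (Finset.mem_filter.1 (hch _ (hsig y))).1,
    fun y => hRV _ (Finset.mem_filter.1 (hch _ (hsig y))).2, fun z => ?_⟩
  have h2 : (fun y => ch (sig y)) ⁻¹' {z} = ⋃ s ∈ t.powerset.filter (fun s => ch s = z),
      {y | sig y = s} := by
    ext y
    simp only [mem_preimage, mem_singleton_iff, mem_iUnion, Finset.mem_filter,
      Finset.mem_powerset, exists_prop]
    constructor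
    · intro h
      exact ⟨sig y, ⟨Finset.filter_subset _ _, h⟩, rfl⟩
    · rintro ⟨s, ⟨-, h⟩, h'⟩
      have : sig y = s := h'
      rw [this]
      exact h
  rw [h2]
  refine isOpen_biUnion fun s _ => ?_
  have h3 : {y | sig y = s} = {y | ∀ z ∈ t, (y ∈ R z ↔ z ∈ s)} ∩ {_y | s ⊆ t} := by
    ext y
    constructor
    · intro h
      have h' : sig y = s := h
      refine ⟨fun z hz => ?_, ?_⟩
      · rw [← h']
        simp only [sig, Finset.mem_filter]
        exact ⟨fun h => ⟨hz, h⟩, fun h => h.2⟩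
      · change s ⊆ t
        rw [← h']
        exact Finset.filter_subset _ _
    · rintro ⟨h, h'⟩
      change sig y = s
      ext z
      simp only [sig, Finset.mem_filter]
      constructor
      · rintro ⟨hz, hyz⟩
        exact (h z hz).1 hyz
      · intro hz
        exact ⟨h' hz, (h z (h' hz)).2 hz⟩
  rw [h3]
  refine IsOpen.inter ?_ isOpen_const
  have h4 : {y | ∀ z ∈ t, (y ∈ R z ↔ z ∈ s)} = ⋂ z ∈ t, {y | (y ∈ R z ↔ z ∈ s)} := by
    ext y
    simp only [mem_ofPred_eq, mem_iInter]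
  rw [h4]
  refine isOpen_biInter_finset fun z _ => ?_
  by_cases hz : z ∈ s
  · have : {y | (y ∈ R z ↔ z ∈ s)} = R z := by
      ext y
      simp [hz]
    rw [this]
    exact (hR z).isOpen
  · have : {y | (y ∈ R z ↔ z ∈ s)} = (R z)ᶜ := by
      ext y
      simp [hz]
    rw [this]
    exact (hR z).compl.isOpen

section Tile

variable {X K Y : Type*} [TopologicalSpace X] [TopologicalSpace K] [TopologicalSpace Y]

/-- at most `v` of the coordinates in `[a, a + N)` take values outside of finitely many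
continuous functions, locally in the base -/
def NearFinite (c : X → (ℤ → K) × Y) (a : ℤ) (N v : ℕ) : Prop :=
  ∀ y : Y, ∃ V ∈ 𝓝 y, ∃ Γ : Set (Y → K), Γ.Finite ∧ (∀ γ ∈ Γ, ContinuousOn γ V) ∧
    ∀ x, (c x).2 ∈ V → {i : ℤ | a ≤ i ∧ i < a + N ∧ ∀ γ ∈ Γ, (c x).1 i ≠ γ (c x).2}.ncard ≤ v

theorem finite_window (a : ℤ) (N : ℕ) (p : ℤ → Prop) : {i : ℤ | a ≤ i ∧ i < a + N ∧ p i}.Finite :=
  (Set.finite_Ico a (a + N)).subset fun _ hi => ⟨hi.1, hi.2.1⟩

theorem NearFinite.shift {h : X ≃ₜ X} {g : Y ≃ₜ Y} {c : X → (ℤ → K) × Y}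
    (hcz : ∀ (j : ℤ) x i, (c ((h ^ j) x)).1 i = (c x).1 (i + j))
    (hgz : ∀ (j : ℤ) x, (c ((h ^ j) x)).2 = (g ^ j) (c x).2) {a : ℤ} {N v : ℕ}
    (hf : NearFinite c a N v) (s : ℤ) : NearFinite c (a + s) N v := by
  intro y
  obtain ⟨V, hV, Γ, hΓ, hΓc, hx⟩ := hf ((g ^ s) y)
  refine ⟨(g ^ s) ⁻¹' V, (g ^ s).continuous.continuousAt hV, (fun γ => γ ∘ (g ^ s)) '' Γ,
    hΓ.image _, ?_, fun x hxV => ?_⟩
  · rintro _ ⟨γ, hγ, rfl⟩
    exact (hΓc γ hγ).comp (g ^ s).continuous.continuousOn fun y hy => hy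
  · have h1 := hx ((h ^ s) x) (by rw [hgz]; exact hxV)
    refine le_trans (le_of_eq ?_) h1
    refine Set.ncard_congr (fun i _ => i - s) ?_ ?_ ?_
    · rintro i ⟨h2, h3, h4⟩
      refine ⟨by linarith only [h2], by linarith only [h3], fun γ hγ => ?_⟩
      rw [hcz, hgz, sub_add_cancel]
      exact h4 _ ⟨γ, hγ, rfl⟩
    · intro i j _ _ hij
      linarith only [hij]
    · rintro i ⟨h2, h3, h4⟩
      refine ⟨i + s, ⟨by linarith only [h2], by linarith only [h3], ?_⟩, by ring⟩
      rintro _ ⟨γ, hγ, rfl⟩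
      have := h4 γ hγ
      rw [hcz, hgz] at this
      exact this

theorem NearFinite.add {c : X → (ℤ → K) × Y} {a : ℤ} {N₁ N₂ v₁ v₂ : ℕ}
    (h₁ : NearFinite c a N₁ v₁) (h₂ : NearFinite c (a + N₁) N₂ v₂) :
    NearFinite c a (N₁ + N₂) (v₁ + v₂) := by
  intro y
  obtain ⟨V, hV, Γ, hΓ, hΓc, hx⟩ := h₁ y
  obtain ⟨V', hV', Γ', hΓ', hΓc', hx'⟩ := h₂ y
  refine ⟨V ∩ V', inter_mem hV hV', Γ ∪ Γ', hΓ.union hΓ', ?_, fun x hxV => ?_⟩
  · rintro γ (hγ | hγ)
    · exact (hΓc γ hγ).mono inter_subset_left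
    · exact (hΓc' γ hγ).mono inter_subset_right
  · have h1 := hx x hxV.1
    have h2 := hx' x hxV.2
    have h3 : {i : ℤ | a ≤ i ∧ i < a + (N₁ + N₂ : ℕ) ∧ ∀ γ ∈ Γ ∪ Γ', (c x).1 i ≠ γ (c x).2} ⊆
        {i : ℤ | a ≤ i ∧ i < a + N₁ ∧ ∀ γ ∈ Γ, (c x).1 i ≠ γ (c x).2} ∪
        {i : ℤ | a + N₁ ≤ i ∧ i < a + N₁ + N₂ ∧ ∀ γ ∈ Γ', (c x).1 i ≠ γ (c x).2} := by
      rintro i ⟨h4, h5, h6⟩
      push_cast at h5
      by_cases hi : i < a + N₁
      · exact Or.inl ⟨h4, hi, fun γ hγ => h6 γ (Or.inl hγ)⟩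
      · exact Or.inr ⟨not_lt.1 hi, by linarith only [h5], fun γ hγ => h6 γ (Or.inr hγ)⟩
    refine (Set.ncard_le_ncard h3 ((finite_window _ _ _).union (finite_window _ _ _))).trans ?_
    exact (Set.ncard_union_le _ _).trans (Nat.add_le_add h1 h2)

theorem NearFinite.mul {h : X ≃ₜ X} {g : Y ≃ₜ Y} {c : X → (ℤ → K) × Y}
    (hcz : ∀ (j : ℤ) x i, (c ((h ^ j) x)).1 i = (c x).1 (i + j))
    (hgz : ∀ (j : ℤ) x, (c ((h ^ j) x)).2 = (g ^ j) (c x).2) {N v : ℕ}
    (hf : NearFinite c 0 N v) (a : ℤ) (n : ℕ) : NearFinite c a (n * N) (n * v) := by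
  induction n generalizing a with
  | zero =>
    intro y
    refine ⟨univ, univ_mem, ∅, Set.finite_empty, by simp, fun x _ => ?_⟩
    have : {i : ℤ | a ≤ i ∧ i < a + ((0 * N : ℕ) : ℤ) ∧
        ∀ γ ∈ (∅ : Set (Y → K)), (c x).1 i ≠ γ (c x).2} = ∅ := by
      rw [Set.eq_empty_iff_forall_notMem]
      rintro i ⟨h1, h2, -⟩
      simp only [zero_mul, Nat.cast_zero, add_zero] at h2
      omega
    rw [this]
    simp
  | succ n ih =>
    have h1 : NearFinite c (0 + a) N v := hf.shift hcz hgz a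
    rw [zero_add] at h1
    have h2 := h1.add (ih (a + N))
    have h3 : (n + 1) * N = N + n * N := by ring
    have h4 : (n + 1) * v = v + n * v := by ring
    rw [h3, h4]
    exact h2

end Tile

section Bound

variable {X K Y : Type*} [TopologicalSpace X] [CompactSpace X]

theorem coverD_join_sub_le2 [UniformSpace K] [CompactSpace K] [T2Space K] [UniformSpace Y]
    [CompactSpace Y] [T2Space Y] [TotallyDisconnectedSpace Y] {h : X ≃ₜ X} {c : X → (ℤ → K) × Y}
    (hc : Continuous c) (hci : Function.Injective c)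
    (hcs : ∀ x i, (c (h x)).1 i = (c x).1 (i + 1)) {g : Y ≃ₜ Y}
    (hcg : ∀ x, (c (h x)).2 = g (c x).2) {U : Set (Set X)} (hU : IsFinCover U) :
    ∃ (W : Set (Set K)) (M : ℕ), IsFinCover W ∧
      ∀ N m : ℕ, NearFinite c (-M) (N + (2 * M + 1)) m →
        coverD (coverJoin h U N) ≤ coverD W * m := by
  classical
  obtain ⟨M, E, E', hE, hE', hwin⟩ := exists_window_sub hc hci hU
  obtain ⟨W, hW, hWE⟩ := exists_small_cover hE
  obtain ⟨WY, hWY, hWYE⟩ := exists_small_cover hE'
  refine ⟨W, M, hW, fun N m hNF => ?_⟩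
  set q := coverD W with hq
  rcases isEmpty_or_nonempty X with hX | hX
  · refine (coverD_le (V := ∅) ⟨Set.finite_empty, by simp, ?_⟩ (fun v hv => absurd hv (by simp))
      (order_le (m := 0) ?_)).trans (Nat.zero_le _)
    · rw [Set.sUnion_empty, eq_comm, Set.univ_eq_empty_iff]
      exact hX
    · intro S _ hS
      obtain ⟨x, _⟩ := hS
      exact hX.elim x
  have hYne : Nonempty Y := ⟨(c hX.some).2⟩
  obtain ⟨V, hV, hVr, hVo⟩ := exists_refinement hW
  obtain ⟨C₀, hC₀⟩ := exists_colored (q := q) hV hVr (fun x S hS hx => by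
    have := card_le_of_order hV.1 x S hS hx
    rw [hVo] at this
    exact this) (q * m + 1)
  -- the window
  set J : Finset ℤ := Finset.Icc (-(M : ℤ)) (N + M) with hJ
  -- local families
  have hloc : ∀ y : Y, ∃ C : Fin (q * m + 1) → Set (Set K), Colored W q (q * m + 1) C ∧
      ∃ R ∈ 𝓝 y, (∃ w ∈ coverJoin g WY N, R ⊆ w) ∧
        ∀ x, (c x).2 ∈ R → (J.filter fun i => ∃ k, (c x).1 i ∉ ⋃₀ C k).card ≤ m := by
    intro y
    obtain ⟨V₁, hV₁, Γ, hΓ, hΓc, hx⟩ := hNF y
    obtain ⟨C, hC, hCP⟩ := colored_points hW.2.1 hW.2.2 hC₀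
      ((hΓ.image fun γ => γ y).toFinset)
    have hyu : y ∈ ⋃₀ coverJoin g WY N := by
      rw [(isFinCover_coverJoin g hWY N).2.2]; trivial
    obtain ⟨w, hw, hyw⟩ := hyu
    have hO : ∀ γ ∈ Γ, ∀ᶠ y' in 𝓝 y, ∀ k, γ y' ∈ ⋃₀ C k := by
      intro γ hγ
      rw [Filter.eventually_all]
      intro k
      have h1 : ContinuousAt γ y := (hΓc γ hγ).continuousAt hV₁
      refine h1.eventually ((isOpen_sUnion (hC.op k)).mem_nhds ?_)
      exact hCP _ (by simpa only [Finite.mem_toFinset, mem_image] using ⟨γ, hγ, rfl⟩) k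
    have hO' : ∀ᶠ y' in 𝓝 y, ∀ γ ∈ Γ, ∀ k, γ y' ∈ ⋃₀ C k :=
      (Filter.eventually_all_finite hΓ).2 hO
    refine ⟨C, hC, V₁ ∩ {y' | ∀ γ ∈ Γ, ∀ k, γ y' ∈ ⋃₀ C k} ∩ w,
      inter_mem (inter_mem hV₁ hO')
        (((isFinCover_coverJoin g hWY N).2.1 w hw).mem_nhds hyw),
      ⟨w, hw, inter_subset_right⟩, fun x hxR => ?_⟩
    refine le_trans ?_ (hx x hxR.1.1)
    rw [← Set.ncard_coe_finset]
    refine Set.ncard_le_ncard ?_ (finite_window _ _ _)
    intro i hi
    rw [Finset.mem_coe, Finset.mem_filter, hJ, Finset.mem_Icc] at hi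
    obtain ⟨⟨h1, h2⟩, k, hk⟩ := hi
    refine ⟨h1, by push_cast; linarith only [h2], fun γ hγ hγx => ?_⟩
    rw [hγx] at hk
    exact hk (hxR.1.2 γ hγ k)
  choose C hC R hR hRw hRm using hloc
  obtain ⟨t, r, hrt, hrR, hro⟩ := exists_locallyConst_choice R hR
  -- the cover
  let VV : Set (Set X) := {s | s.Nonempty ∧ ∃ (k : Fin (q * m + 1)) (z : Y)
    (D : J → Set K), z ∈ t ∧ (∀ i, D i ∈ C z k) ∧ s = sbox c J (r ⁻¹' {z}) D}
  have hopen : ∀ (b : Set Y) (D : J → Set K), IsOpen b → (∀ i, IsOpen (D i)) →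
      IsOpen (sbox c J b D) := by
    intro b D hb hD
    have h1 : sbox c J b D = {x | (c x).2 ∈ b} ∩ ⋂ i : J, {x | (c x).1 i ∈ D i} := by
      ext p
      simp only [sbox, Set.mem_ofPred_eq, Set.mem_inter_iff, Set.mem_iInter]
    rw [h1]
    apply IsOpen.inter
    · exact hb.preimage (continuous_snd.comp hc)
    · apply isOpen_iInter_of_finite
      intro i
      exact (hD i).preimage ((continuous_apply (i : ℤ)).comp (continuous_fst.comp hc))
  have hVVfin : VV.Finite := by
    have hsub : VV ⊆ ⋃ (k : Fin (q * m + 1)), ⋃ z ∈ (t : Set Y),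
        (fun D : J → Set K => sbox c J (r ⁻¹' {z}) D) '' {D : J → Set K | ∀ i, D i ∈ C z k} := by
      rintro s ⟨_, k, z, D, hz, hD, rfl⟩
      rw [Set.mem_iUnion]
      refine ⟨k, ?_⟩
      rw [Set.mem_iUnion₂]
      exact ⟨z, hz, D, hD, rfl⟩
    apply Set.Finite.subset _ hsub
    apply Set.finite_iUnion
    intro k
    refine t.finite_toSet.biUnion fun z _ => ?_
    apply Set.Finite.image
    exact Set.Finite.pi' fun i => (hC z).fin k
  have hVVcov : IsFinCover VV := by
    refine ⟨hVVfin, ?_, ?_⟩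
    · rintro s ⟨_, k, z, D, hz, hD, rfl⟩
      exact hopen _ _ (hro z) fun i => (hC z).op k _ (hD i)
    · rw [Set.eq_univ_iff_forall]
      intro x
      set z := r (c x).2 with hz
      have hxz : (c x).2 ∈ R z := hrR _
      -- choose a colour
      set J' := J.filter fun i => ∃ k, (c x).1 i ∉ ⋃₀ C z k with hJ'
      have hJm : J'.card ≤ m := hRm z x hxz
      have hcol : ∃ k : Fin (q * m + 1), ∀ i ∈ J', (c x).1 i ∈ ⋃₀ C z k := by
        by_contra hcon
        push Not at hcon
        have h1 : ∑ k : Fin (q * m + 1), ∑ i ∈ J', (if (c x).1 i ∈ ⋃₀ C z k then 0 else 1) ≤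
            q * m := by
          rw [Finset.sum_comm]
          calc ∑ i ∈ J', ∑ k : Fin (q * m + 1), (if (c x).1 i ∈ ⋃₀ C z k then 0 else 1)
              ≤ ∑ _i ∈ J', q := Finset.sum_le_sum fun i _ => (hC z).miss ((c x).1 i)
            _ = J'.card * q := by rw [Finset.sum_const, smul_eq_mul]
            _ ≤ m * q := Nat.mul_le_mul_right _ hJm
            _ = q * m := mul_comm _ _
        have h2 : ∑ _k : Fin (q * m + 1), 1 ≤ ∑ k : Fin (q * m + 1),
            ∑ i ∈ J', (if (c x).1 i ∈ ⋃₀ C z k then 0 else 1) := by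
          apply Finset.sum_le_sum
          intro k _
          obtain ⟨i, hi, hik⟩ := hcon k
          calc 1 = (if (c x).1 i ∈ ⋃₀ C z k then 0 else 1) := by rw [if_neg hik]
            _ ≤ ∑ i ∈ J', (if (c x).1 i ∈ ⋃₀ C z k then 0 else 1) :=
                Finset.single_le_sum (f := fun i => if (c x).1 i ∈ ⋃₀ C z k then 0 else 1)
                  (fun _ _ => Nat.zero_le _) hi
        simp only [Finset.sum_const, Finset.card_univ, Fintype.card_fin, smul_eq_mul,
          mul_one] at h2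
        omega
      obtain ⟨k, hk⟩ := hcol
      have hall : ∀ i : J, (c x).1 i ∈ ⋃₀ C z k := by
        intro i
        by_cases hi : ∃ k, (c x).1 (i : ℤ) ∉ ⋃₀ C z k
        · exact hk i (by rw [hJ', Finset.mem_filter]; exact ⟨i.2, hi⟩)
        · push Not at hi
          exact hi k
      choose D hD hxD using hall
      have hp : x ∈ sbox c J (r ⁻¹' {z}) D := ⟨hz.symm, hxD⟩
      exact ⟨_, ⟨⟨x, hp⟩, k, z, D, hrt _, hD, rfl⟩, hp⟩
  have hVVref : Refines VV (coverJoin h U N) := by
    rintro s ⟨⟨p, hp⟩, k, z, D, hz, hD, rfl⟩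
    have hu : ∀ j : Fin N, ∃ u ∈ U, ∀ q : X,
        (∀ i : ℤ, -(M : ℤ) ≤ i → i ≤ M →
          ((c ((⇑h)^[(j : ℕ)] p)).1 i, (c q).1 i) ∈ E) →
        ((c ((⇑h)^[(j : ℕ)] p)).2, (c q).2) ∈ E' → q ∈ u := fun j => hwin ((⇑h)^[(j : ℕ)] p)
    choose f hf hf2 using hu
    refine ⟨⋂ j : Fin N, (⇑h)^[(j : ℕ)] ⁻¹' f j, ⟨f, hf, rfl⟩, ?_⟩
    intro p' hp'
    rw [Set.mem_iInter]
    intro j
    apply hf2 j
    · intro i hi1 hi2
      have hco : ∀ x : X, (c ((⇑h)^[(j : ℕ)] x)).1 i = (c x).1 (i + (j : ℕ)) := by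
        intro x
        rw [← pow_eq_iterate, ← zpow_natCast, coord_iterate hcs]
      rw [hco, hco]
      have hiJ : i + (j : ℕ) ∈ J := by
        rw [hJ, Finset.mem_Icc]
        have := j.2
        constructor <;> omega
      obtain ⟨w, hw, hDw⟩ := (hC z).ref k _ (hD ⟨i + (j : ℕ), hiJ⟩)
      exact hWE w hw _ (hDw (hp.2 ⟨i + (j : ℕ), hiJ⟩)) _ (hDw (hp'.2 ⟨i + (j : ℕ), hiJ⟩))
    · rw [base_iterate hcg, base_iterate hcg]
      obtain ⟨w, ⟨fw, hfw, rfl⟩, hbw⟩ := hRw z
      have h1 : (c p).2 ∈ R z := by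
        have h3 := hrR (c p).2
        have h4 : r (c p).2 = z := hp.1
        rwa [h4] at h3
      have h2 : (c p').2 ∈ R z := by
        have h3 := hrR (c p').2
        have h4 : r (c p').2 = z := hp'.1
        rwa [h4] at h3
      exact hWYE (fw j) (hfw j) _ (mem_iInter.1 (hbw h1) j) _ (mem_iInter.1 (hbw h2) j)
  have hVVord : coverOrder VV ≤ q * m := by
    apply order_le
    rintro S hS ⟨p, hp⟩
    have hcol : ∀ s : S, ∃ k : Fin (q * m + 1), ∃ (z : Y) (D : J → Set K),
        (∀ i, D i ∈ C z k) ∧ (s : Set X) = sbox c J (r ⁻¹' {z}) D := by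
      intro s
      obtain ⟨_, k, z, D, hz, hD, hs⟩ := hS s.2
      exact ⟨k, z, D, hD, hs⟩
    choose k z D hD hs using hcol
    have hinj : Function.Injective k := by
      intro s s' hk
      apply Subtype.ext
      have hps : p ∈ sbox c J (r ⁻¹' {z s}) (D s) := by rw [← hs]; exact hp s s.2
      have hps' : p ∈ sbox c J (r ⁻¹' {z s'}) (D s') := by rw [← hs]; exact hp s' s'.2
      rw [hs, hs]
      have hzz : z s = z s' := by
        have h1 : r (c p).2 = z s := hps.1
        have h2 : r (c p).2 = z s' := hps'.1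
        rw [← h1, h2]
      have hDD : D s = D s' := by
        funext i
        apply (hC (z s)).disj (k s) _ (hD s i) _ (by rw [hk, hzz]; exact hD s' i)
        exact ⟨_, hps.2 i, hps'.2 i⟩
      rw [hzz, hDD]
    have := Fintype.card_le_of_injective k hinj
    simpa only [ge_iff_le, Fintype.card_coe, Fintype.card_fin] using this
  exact coverD_le hVVcov hVVref hVVord

end Bound

end

end Vale.Agent.P093
end
end
end

section

section

section

/-!
A normed model of the exterior algebra and the top-degree product of two-forms.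
-/

namespace Vale.Agent.P093

noncomputable section

open ExteriorAlgebra in
/-- the product of the generators is nonzero -/
theorem ext_prod_ne_zero {n N : ℕ} (σ : Fin n × Fin 2 ≃ Fin (N + 1)) :
    (List.ofFn fun j : Fin n => ι ℂ (Pi.single (σ (j, 0)) 1 : Fin (N + 1) → ℂ) *
      ι ℂ (Pi.single (σ (j, 1)) 1 : Fin (N + 1) → ℂ)).prod ≠ 0 := by
  set τ : Fin (n * 2) ≃ Fin (N + 1) := finProdFinEquiv.symm.trans σ with hτ
  set v : Fin (n * 2) → (Fin (N + 1) → ℂ) := fun t => Pi.single (τ t) 1 with hv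
  have h1 : (List.ofFn fun j : Fin n => ι ℂ (Pi.single (σ (j, 0)) 1 : Fin (N + 1) → ℂ) *
      ι ℂ (Pi.single (σ (j, 1)) 1 : Fin (N + 1) → ℂ)).prod = ιMulti ℂ (n * 2) v := by
    rw [ιMulti_apply, List.ofFn_mul, List.prod_flatten, List.map_ofFn]
    congr 2
    funext j
    have e0 : ∀ h, τ ⟨(j : ℕ) * 2 + ((0 : Fin 2) : ℕ), h⟩ = σ (j, 0) := by
      intro h
      simp only [hτ, Equiv.trans_apply]
      congr 1
      rw [Equiv.symm_apply_eq]
      apply Fin.ext
      simp only [Fin.isValue, Fin.coe_ofNat_eq_mod, Nat.zero_mod, add_zero, finProdFinEquiv, mul_comm, Equiv.coe_fn_mk, zero_add]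
    have e1 : ∀ h, τ ⟨(j : ℕ) * 2 + ((1 : Fin 2) : ℕ), h⟩ = σ (j, 1) := by
      intro h
      simp only [hτ, Equiv.trans_apply]
      congr 1
      rw [Equiv.symm_apply_eq]
      apply Fin.ext
      simp [finProdFinEquiv, mul_comm, add_comm]
    simp only [Function.comp_apply, List.ofFn_succ, List.ofFn_zero, List.prod_cons, List.prod_nil,
      mul_one, hv]
    rw [e0]
    have : (Fin.succ (0 : Fin 1) : Fin 2) = 1 := rfl
    rw [this, e1]
  rw [h1]
  set b : Module.Basis (Fin (n * 2)) ℂ (Fin (N + 1) → ℂ) :=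
    (Pi.basisFun ℂ (Fin (N + 1))).reindex τ.symm with hb
  have hbv : ⇑b = v := by
    funext t
    simp [hb, hv]
  intro h0
  have h2 := liftAlternating_apply_ιMulti (R := ℂ) (N := ℂ)
    (fun i => if h : i = n * 2 then (h ▸ b.det) else 0) v
  rw [h0, map_zero] at h2
  simp only [dite_true] at h2
  rw [← hbv, b.det_self] at h2
  exact zero_ne_one h2

section Comm

variable {A : Type*} [Ring A]

theorem add_pow_succ_of_sq_zero {a s : A} (hc : a * s = s * a) (ha : a * a = 0) (n : ℕ) :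
    (a + s) ^ (n + 1) = s ^ (n + 1) + (n + 1) • (a * s ^ n) := by
  have hcp : ∀ k, s ^ k * a = a * s ^ k := fun k =>
    ((show Commute a s from hc).pow_right k).eq.symm
  induction n with
  | zero => simp [add_comm]
  | succ n ih =>
    rw [pow_succ, ih, add_mul, mul_add, mul_add, smul_mul_assoc, smul_mul_assoc]
    have h1 : a * s ^ n * a = 0 := by
      rw [mul_assoc, hcp, ← mul_assoc, ha, zero_mul]
    have h2 : a * s ^ n * s = a * s ^ (n + 1) := by rw [mul_assoc, ← pow_succ]
    rw [h1, h2, hcp, ← pow_succ, smul_zero, zero_add, succ_nsmul _ (n + 1)]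
    abel

theorem sum_pow_list (L : List A) (hc : ∀ x ∈ L, ∀ y ∈ L, x * y = y * x)
    (hz : ∀ x ∈ L, x * x = 0) :
    L.sum ^ L.length = L.length.factorial • L.prod ∧ L.sum ^ (L.length + 1) = 0 := by
  induction L with
  | nil => simp
  | cons a L ih =>
    have ih' := ih (fun x hx y hy => hc x (by simp [hx]) y (by simp [hy]))
      (fun x hx => hz x (by simp [hx]))
    have hcomm : a * L.sum = L.sum * a := by
      have : Commute a L.sum := Commute.list_sum_right _ _ fun y hy => hc a (by simp) y (by simp [hy])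
      exact this
    have ha : a * a = 0 := hz a (by simp)
    rw [List.sum_cons, List.length_cons, List.prod_cons]
    constructor
    · rw [add_pow_succ_of_sq_zero hcomm ha, ih'.2, ih'.1, zero_add, Nat.factorial_succ,
        mul_smul_comm, smul_smul]
    · rw [add_pow_succ_of_sq_zero hcomm ha, ih'.2, mul_zero, smul_zero, add_zero, pow_succ, ih'.2,
        zero_mul]

theorem prod_sub_mul {S T : A} (L : List A) (c : A) (hc : ∀ x : A, c * x = x * c)
    (hS : ∀ x ∈ L, S * x = x * S) (hST : S * T = 0) :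
    (L.map fun a => c * (S - a)).prod * T = (-c) ^ L.length * L.prod * T := by
  have key : S * ((L.map fun a => c * (S - a)).prod * T) = 0 := by
    have : S * (L.map fun a => c * (S - a)).prod = (L.map fun a => c * (S - a)).prod * S := by
      have : Commute S (L.map fun a => c * (S - a)).prod := by
        apply Commute.list_prod_right
        intro y hy
        rw [List.mem_map] at hy
        obtain ⟨a, ha, rfl⟩ := hy
        change S * (c * (S - a)) = c * (S - a) * S
        rw [← mul_assoc, ← hc S, mul_assoc, mul_assoc, mul_sub, sub_mul, hS a ha]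
      exact this
    rw [← mul_assoc, this, mul_assoc, hST, mul_zero]
  induction L with
  | nil => simp
  | cons a L ih =>
    have hS' : ∀ x ∈ L, S * x = x * S := fun x hx => hS x (by simp [hx])
    have key' : S * ((L.map fun a => c * (S - a)).prod * T) = 0 := by
      have : S * (L.map fun a => c * (S - a)).prod = (L.map fun a => c * (S - a)).prod * S := by
        have : Commute S (L.map fun a => c * (S - a)).prod := by
          apply Commute.list_prod_right
          intro y hy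
          rw [List.mem_map] at hy
          obtain ⟨a, ha, rfl⟩ := hy
          change S * (c * (S - a)) = c * (S - a) * S
          rw [← mul_assoc, ← hc S, mul_assoc, mul_assoc, mul_sub, sub_mul, hS' a ha]
        exact this
      rw [← mul_assoc, this, mul_assoc, hST, mul_zero]
    have ih' := ih hS' key'
    rw [List.map_cons, List.prod_cons, List.prod_cons, mul_assoc, mul_assoc c, sub_mul, key',
      zero_sub, ih', List.length_cons, pow_succ]
    have hcc : ∀ x : A, (-c) * x = x * (-c) := fun x => by rw [neg_mul, mul_neg, hc]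
    have hcp : (-c) ^ L.length * a = a * (-c) ^ L.length := by
      have : Commute a ((-c) ^ L.length) := Commute.pow_right (show Commute a (-c) from (hcc a).symm) _
      exact this.symm
    calc c * -(a * ((-c) ^ L.length * L.prod * T))
        = (-c) * (a * ((-c) ^ L.length * L.prod * T)) := by rw [mul_neg, neg_mul]
      _ = (-c) * ((a * (-c) ^ L.length) * (L.prod * T)) := by simp only [mul_assoc]
      _ = (-c) * (((-c) ^ L.length * a) * (L.prod * T)) := by rw [hcp]
      _ = ((-c) * (-c) ^ L.length) * (a * L.prod * T) := by simp only [mul_assoc]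
      _ = ((-c) ^ L.length * (-c)) * (a * L.prod * T) := by rw [hcc]
      _ = _ := by simp only [mul_assoc]

end Comm

/-- existence of a normed algebra with anticommuting generators and nonzero top product -/
theorem exists_ext {n N : ℕ} (σ : Fin n × Fin 2 ≃ Fin (N + 1)) :
    ∃ (Λ : Type) (_ : NormedRing Λ) (_ : NormedAlgebra ℂ Λ) (_ : CompleteSpace Λ)
      (e : Fin (N + 1) → Λ), (∀ i j, e i * e j = - (e j * e i)) ∧
      (List.ofFn fun j : Fin n => e (σ (j, 0)) * e (σ (j, 1))).prod ≠ 0 := by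
  classical
  let B := (Pi.basisFun ℂ (Fin (N + 1))).ExteriorAlgebra
  let L := Algebra.leftMulMatrix B
  let i1 : NormedRing (Matrix (Finset (Fin (N + 1))) (Finset (Fin (N + 1))) ℂ) :=
    Matrix.linftyOpNormedRing
  let i2 : NormedAlgebra ℂ (Matrix (Finset (Fin (N + 1))) (Finset (Fin (N + 1))) ℂ) :=
    Matrix.linftyOpNormedAlgebra
  refine ⟨Matrix (Finset (Fin (N + 1))) (Finset (Fin (N + 1))) ℂ, i1, i2,
    FiniteDimensional.complete ℂ _, fun i => L (ExteriorAlgebra.ι ℂ (Pi.single i 1)), ?_, ?_⟩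
  · intro i j
    have h := congrArg L (eq_neg_of_add_eq_zero_left (ExteriorAlgebra.ι_add_mul_swap
      (R := ℂ) (Pi.single i 1 : Fin (N + 1) → ℂ) (Pi.single j 1)))
    rw [map_neg, map_mul, map_mul] at h
    exact h
  · have h := ext_prod_ne_zero σ
    intro h0
    apply h
    apply Algebra.leftMulMatrix_injective B
    rw [map_zero, ← h0, map_list_prod, List.map_ofFn]
    congr 2
    funext j
    exact map_mul L _ _

end

end Vale.Agent.P093
end
end
end

section

section

section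

/-!
The degree matrix used for the obstruction and the nonvanishing of the curvature product.
-/

namespace Vale.Agent.P093

noncomputable section

/-- degree matrix: the first `n` bundles are `L_l` dual twisted by the last `M` ones, the last `M`
bundles are the twists alone -/
def degM (n M : ℕ) (l j : Fin (n + M)) : ℤ :=
  if (j : ℕ) < n then (if l = j then -1 else 0) else 1

theorem curv_prod_ne_zero {n M N : ℕ} (σ : Fin (n + M) × Fin 2 ≃ Fin (N + 1))
    {Λ : Type*} [NormedRing Λ] [NormedAlgebra ℂ Λ] {e : Fin (N + 1) → Λ}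
    (he : ∀ i j, e i * e j = - (e j * e i))
    (hprod : (List.ofFn fun j : Fin (n + M) => e (σ (j, 0)) * e (σ (j, 1))).prod ≠ 0) :
    (List.ofFn fun l => curv (fun j => σ (j, 0)) (fun j => σ (j, 1)) (degM n M l) e).prod ≠ 0 := by
  set a : Fin (n + M) → Λ := fun j => e (σ (j, 0)) * e (σ (j, 1)) with ha
  set c : Λ := algebraMap ℂ Λ (2 * Real.pi * Complex.I) with hc
  have hcc : ∀ x : Λ, c * x = x * c := fun x => Algebra.commutes _ _
  have hee : ∀ i, e i * e i = 0 := by
    intro i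
    have h := he i i
    have h4 : (2 : ℂ) • (e i * e i) = 0 := by
      rw [two_smul]
      nth_rewrite 1 [h]
      simp
    rcases smul_eq_zero.mp h4 with h | h
    · norm_num at h
    · exact h
  have hacomm : ∀ i j, a i * a j = a j * a i := by
    intro i j
    simp only [ha]
    have h1 : ∀ k, (e (σ (j, 0)) * e (σ (j, 1))) * e k = e k * (e (σ (j, 0)) * e (σ (j, 1))) := by
      intro k
      rw [mul_assoc, he _ k, mul_neg, ← mul_assoc, he _ k]
      simp [mul_assoc]
    rw [mul_assoc, ← h1, ← mul_assoc, ← h1, mul_assoc]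
  have hasq : ∀ i, a i * a i = 0 := by
    intro i
    simp only [ha]
    rw [mul_assoc, ← mul_assoc (e (σ (i, 1))), he (σ (i, 1)) (σ (i, 0)), neg_mul, mul_neg,
      mul_assoc, hee]
    simp
  set S : Λ := (List.ofFn fun j : Fin M => a (Fin.natAdd n j)).sum with hS
  have hSsum : S = ∑ j : Fin M, a (Fin.natAdd n j) := by
    rw [hS, List.sum_ofFn]
  have hcurv1 : ∀ i : Fin n, curv (fun j => σ (j, 0)) (fun j => σ (j, 1))
      (degM n M (Fin.castAdd M i)) e = c * (S - a (Fin.castAdd M i)) := by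
    intro i
    unfold curv
    rw [Fin.sum_univ_add]
    have h1 : ∀ k : Fin M, e (σ (Fin.natAdd n k, 0)) * e (σ (Fin.natAdd n k, 1)) *
        algebraMap ℂ Λ (2 * Real.pi * Complex.I * (degM n M (Fin.castAdd M i) (Fin.natAdd n k) : ℤ))
        = c * a (Fin.natAdd n k) := by
      intro k
      have : degM n M (Fin.castAdd M i) (Fin.natAdd n k) = 1 := by
        unfold degM
        rw [if_neg]
        simp
      rw [this, Int.cast_one, mul_one, ← hc, hcc]
    have h2 : ∀ k : Fin n, e (σ (Fin.castAdd M k, 0)) * e (σ (Fin.castAdd M k, 1)) *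
        algebraMap ℂ Λ (2 * Real.pi * Complex.I *
          (degM n M (Fin.castAdd M i) (Fin.castAdd M k) : ℤ))
        = if k = i then - (c * a (Fin.castAdd M i)) else 0 := by
      intro k
      have : degM n M (Fin.castAdd M i) (Fin.castAdd M k) = if k = i then -1 else 0 := by
        unfold degM
        rw [if_pos (by simp)]
        by_cases h : k = i
        · subst h; simp
        · have : Fin.castAdd M i ≠ Fin.castAdd M k := by
            intro hh
            apply h
            have := congrArg Fin.val hh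
            simp at this
            exact (Fin.ext this).symm
          simp [h, this]
      rw [this]
      by_cases h : k = i
      · subst h
        simp only [if_true, Int.cast_neg, Int.cast_one, mul_neg, mul_one, map_neg, ← hc]
        rw [hcc]
      · simp only [Fin.isValue, h, ↓reduceIte, Int.cast_zero, mul_zero, map_zero]
    simp only [h1, h2]
    rw [Finset.sum_ite_eq' Finset.univ i, if_pos (Finset.mem_univ i), ← Finset.mul_sum, ← hSsum,
      mul_sub]
    abel
  have hcurv2 : ∀ i : Fin M, curv (fun j => σ (j, 0)) (fun j => σ (j, 1))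
      (degM n M (Fin.natAdd n i)) e = c * S := by
    intro i
    unfold curv
    rw [Fin.sum_univ_add]
    have h1 : ∀ k : Fin M, e (σ (Fin.natAdd n k, 0)) * e (σ (Fin.natAdd n k, 1)) *
        algebraMap ℂ Λ (2 * Real.pi * Complex.I * (degM n M (Fin.natAdd n i) (Fin.natAdd n k) : ℤ))
        = c * a (Fin.natAdd n k) := by
      intro k
      have : degM n M (Fin.natAdd n i) (Fin.natAdd n k) = 1 := by
        unfold degM
        rw [if_neg]
        simp
      rw [this, Int.cast_one, mul_one, ← hc, hcc]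
    have h2 : ∀ k : Fin n, e (σ (Fin.castAdd M k, 0)) * e (σ (Fin.castAdd M k, 1)) *
        algebraMap ℂ Λ (2 * Real.pi * Complex.I *
          (degM n M (Fin.natAdd n i) (Fin.castAdd M k) : ℤ)) = 0 := by
      intro k
      have : degM n M (Fin.natAdd n i) (Fin.castAdd M k) = 0 := by
        unfold degM
        rw [if_pos (by simp), if_neg]
        intro hh
        have := congrArg Fin.val hh
        simp at this
        omega
      rw [this]
      simp only [Fin.isValue, Int.cast_zero, mul_zero, map_zero]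
    simp only [h1, h2]
    rw [Finset.sum_const_zero, zero_add, ← Finset.mul_sum, ← hSsum]
  have hofn : (List.ofFn fun l => curv (fun j => σ (j, 0)) (fun j => σ (j, 1)) (degM n M l) e) =
      (List.ofFn fun i : Fin n => c * (S - a (Fin.castAdd M i))) ++
      (List.ofFn fun _ : Fin M => c * S) := by
    rw [List.ofFn_add]
    congr 1
    · congr 1
      funext i
      exact hcurv1 i
    · congr 1
      funext i
      exact hcurv2 i
  have hS2 := sum_pow_list (List.ofFn fun j : Fin M => a (Fin.natAdd n j))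
    (by
      intro x hx y hy
      rw [List.mem_ofFn] at hx hy
      obtain ⟨i, rfl⟩ := hx
      obtain ⟨j, rfl⟩ := hy
      exact hacomm _ _)
    (by
      intro x hx
      rw [List.mem_ofFn] at hx
      obtain ⟨i, rfl⟩ := hx
      exact hasq _)
  rw [← hS, List.length_ofFn] at hS2
  rw [hofn, List.prod_append, List.ofFn_const, List.prod_replicate]
  have hcS : (c * S) ^ M = c ^ M * S ^ M := (show Commute c S from hcc S).mul_pow M
  have hST : S * (c * S) ^ M = 0 := by
    rw [hcS, ← mul_assoc]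
    have : S * c ^ M = c ^ M * S := ((show Commute S c from (hcc S).symm).pow_right M).eq
    rw [this, mul_assoc, ← pow_succ', hS2.2, mul_zero]
  have hmap : (List.ofFn fun i : Fin n => c * (S - a (Fin.castAdd M i))) =
      (List.ofFn fun i : Fin n => a (Fin.castAdd M i)).map fun x => c * (S - x) := by
    rw [List.map_ofFn]; rfl
  have hSa : ∀ i, S * a i = a i * S := by
    intro i
    rw [hSsum, Finset.sum_mul, Finset.mul_sum]
    exact Finset.sum_congr rfl fun j _ => hacomm _ _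
  rw [hmap, prod_sub_mul _ c hcc (by
    intro x hx
    rw [List.mem_ofFn] at hx
    obtain ⟨i, rfl⟩ := hx
    exact hSa _) hST, List.length_ofFn, hcS, hS2.1]
  have hfin : (List.ofFn fun j : Fin (n + M) => e (σ (j, 0)) * e (σ (j, 1))).prod =
      (List.ofFn fun i : Fin n => a (Fin.castAdd M i)).prod *
      (List.ofFn fun j : Fin M => a (Fin.natAdd n j)).prod := by
    rw [List.ofFn_add, List.prod_append]
    rfl
  have hc1 : (-c) ^ n * (List.ofFn fun i : Fin n => a (Fin.castAdd M i)).prod *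
      (c ^ M * M.factorial • (List.ofFn fun j : Fin M => a (Fin.natAdd n j)).prod) =
      algebraMap ℂ Λ ((-(2 * Real.pi * Complex.I)) ^ n * (2 * Real.pi * Complex.I) ^ M *
        M.factorial) * ((List.ofFn fun i : Fin n => a (Fin.castAdd M i)).prod *
      (List.ofFn fun j : Fin M => a (Fin.natAdd n j)).prod) := by
    rw [map_mul, map_mul, map_pow, map_pow, map_neg, ← hc, map_natCast, nsmul_eq_mul]
    have h1 : ∀ x : Λ, c ^ M * x = x * c ^ M := fun x => by
      rw [hc, ← map_pow]; exact Algebra.commutes _ _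
    have h2 : ∀ x : Λ, (M.factorial : Λ) * x = x * (M.factorial : Λ) := fun x => by
      exact Nat.cast_commute _ _
    set P := (List.ofFn fun i : Fin n => a (Fin.castAdd M i)).prod
    set Q := (List.ofFn fun j : Fin M => a (Fin.natAdd n j)).prod
    calc (-c) ^ n * P * (c ^ M * ((M.factorial : Λ) * Q))
        = (-c) ^ n * ((P * c ^ M) * ((M.factorial : Λ) * Q)) := by simp only [mul_assoc]
      _ = (-c) ^ n * (c ^ M * (P * (M.factorial : Λ)) * Q) := by
          rw [← h1]; simp only [mul_assoc]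
      _ = (-c) ^ n * (c ^ M * ((M.factorial : Λ) * P) * Q) := by rw [← h2]
      _ = _ := by simp only [mul_assoc]
  rw [hc1, ← hfin]
  intro h0
  apply hprod
  have hsc : ((-(2 * Real.pi * Complex.I)) ^ n * (2 * Real.pi * Complex.I) ^ M *
        M.factorial : ℂ) ≠ 0 := by
    have h2 : (2 * Real.pi * Complex.I : ℂ) ≠ 0 := Complex.two_pi_I_ne_zero
    have h3 : (M.factorial : ℂ) ≠ 0 := by exact_mod_cast Nat.factorial_ne_zero M
    exact mul_ne_zero (mul_ne_zero (pow_ne_zero _ (neg_ne_zero.mpr h2)) (pow_ne_zero _ h2)) h3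
  rw [← Algebra.smul_def] at h0
  exact (smul_eq_zero.mp h0).resolve_left hsc

end

end Vale.Agent.P093
end
end
end

section

section

section

/-!
Topological obstruction: a sum of `n` line bundles of degree one over independent two-tori and a
trivial bundle of rank `M` does not have `M + 1` independent sections.
-/

open scoped ContDiff

namespace Vale.Agent.P093

noncomputable section

section Poly

/-- the polynomial with prescribed linear factors -/
def lpT {M : ℕ} (α β : Fin M → ℂ) (s : Finset (Fin M)) : Polynomial ℂ :=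
  ∏ j ∈ s, (Polynomial.C (α j) + Polynomial.C (β j) * Polynomial.X)

/-- coefficient vector -/
def wv {M : ℕ} (α β : Fin M → ℂ) (i : Fin (M + 1)) : ℂ := (lpT α β Finset.univ).coeff i

theorem lp_ne_zero {M : ℕ} {α β : Fin M → ℂ} (h : ∀ j, α j ≠ 0 ∨ β j ≠ 0)
    (s : Finset (Fin M)) : lpT α β s ≠ 0 := by
  unfold lpT
  rw [Finset.prod_ne_zero_iff]
  intro j _ h0
  have h1 := congrArg (fun p => p.coeff 0) h0
  have h2 := congrArg (fun p => p.coeff 1) h0
  simp [Polynomial.coeff_C] at h1 h2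
  rcases h j with h | h
  · exact h h1
  · exact h h2

theorem wv_ne_zero {M : ℕ} {α β : Fin M → ℂ} (h : ∀ j, α j ≠ 0 ∨ β j ≠ 0) : wv α β ≠ 0 := by
  intro h0
  apply lp_ne_zero h Finset.univ
  ext i
  by_cases hi : i < M + 1
  · exact congrFun h0 ⟨i, hi⟩
  · rw [Polynomial.coeff_zero]
    apply Polynomial.coeff_eq_zero_of_natDegree_lt
    have : (lpT α β Finset.univ).natDegree ≤ M := by
      unfold lpT
      refine (Polynomial.natDegree_prod_le _ _).trans ?_
      have : ∀ j ∈ (Finset.univ : Finset (Fin M)),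
          (Polynomial.C (α j) + Polynomial.C (β j) * Polynomial.X).natDegree ≤ 1 := by
        intro j _
        rw [add_comm]
        exact Polynomial.natDegree_linear_le
      refine (Finset.sum_le_sum this).trans ?_
      simp only [Finset.sum_const, Finset.card_univ, Fintype.card_fin, smul_eq_mul, mul_one, Std.le_refl]
    omega

theorem lp_coeff_contDiff {E : Type*} [NormedAddCommGroup E] [NormedSpace ℝ E] {M : ℕ}
    {n : WithTop ℕ∞}
    {α β : E → Fin M → ℂ} (hα : ∀ j, ContDiff ℝ n fun x => α x j)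
    (hβ : ∀ j, ContDiff ℝ n fun x => β x j) (s : Finset (Fin M)) (i : ℕ) :
    ContDiff ℝ n fun x => (lpT (α x) (β x) s).coeff i := by
  induction s using Finset.induction_on generalizing i with
  | empty =>
    simp only [lpT, Finset.prod_empty]
    exact contDiff_const
  | insert j s hj ih =>
    have h1 : ∀ x, (lpT (α x) (β x) (insert j s)).coeff i =
        α x j * (lpT (α x) (β x) s).coeff i +
        β x j * (if i = 0 then 0 else (lpT (α x) (β x) s).coeff (i - 1)) := by
      intro x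
      unfold lpT
      rw [Finset.prod_insert hj, add_mul, Polynomial.coeff_add, Polynomial.coeff_C_mul, mul_assoc,
        Polynomial.coeff_C_mul]
      congr 2
      rcases i with _ | i
      · simp
      · rw [Polynomial.coeff_X_mul]
        simp only [Nat.add_eq_zero_iff, one_ne_zero, and_false, ↓reduceIte, add_tsub_cancel_right]
    simp only [h1]
    apply ContDiff.add
    · exact (hα j).mul (ih i)
    · apply (hβ j).mul
      by_cases hi : i = 0
      · simp only [hi, if_true]; exact contDiff_const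
      · simp only [hi, if_false]; exact ih _

/-- homogeneity of the coefficient vector in each factor -/
theorem wv_phase {M : ℕ} (α β α' β' : Fin M → ℂ) (k : Fin M) (c : ℂ)
    (hk : α' k = c * α k ∧ β' k = c * β k) (hne : ∀ j, j ≠ k → α' j = α j ∧ β' j = β j)
    (i : Fin (M + 1)) : wv α' β' i = c * wv α β i := by
  unfold wv lpT
  rw [← Finset.mul_prod_erase _ _ (Finset.mem_univ k), ← Finset.mul_prod_erase _ (fun j =>
    (Polynomial.C (α j) + Polynomial.C (β j) * Polynomial.X)) (Finset.mem_univ k)]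
  have h1 : ∏ j ∈ Finset.univ.erase k, (Polynomial.C (α' j) + Polynomial.C (β' j) * Polynomial.X) =
      ∏ j ∈ Finset.univ.erase k, (Polynomial.C (α j) + Polynomial.C (β j) * Polynomial.X) := by
    apply Finset.prod_congr rfl
    intro j hj
    rw [(hne j (Finset.ne_of_mem_erase hj)).1, (hne j (Finset.ne_of_mem_erase hj)).2]
  rw [h1, hk.1, hk.2, ← Polynomial.coeff_C_mul]
  congr 1
  rw [map_mul, map_mul]
  ring

end Poly

section Approx

/-- the covering map from the plane -/
def tq (q : ℝ × ℝ) : Tor := ((q.1 : UnitAddCircle), (q.2 : UnitAddCircle))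

/-- smooth functions on a product of tori -/
def smoothAlg (n : ℕ) : StarSubalgebra ℂ C(Fin n → Tor, ℂ) where
  carrier := {h | ContDiff ℝ 3 fun x : Fin n → ℝ × ℝ => h fun i => tq (x i)}
  mul_mem' := fun {a b} ha hb => by
    have ha' : ContDiff ℝ 3 fun x : Fin n → ℝ × ℝ => a fun i => tq (x i) := ha
    have hb' : ContDiff ℝ 3 fun x : Fin n → ℝ × ℝ => b fun i => tq (x i) := hb
    exact ha'.mul hb'
  one_mem' := (contDiff_const : ContDiff ℝ 3 fun _ : Fin n → ℝ × ℝ => (1 : ℂ))
  add_mem' := fun {a b} ha hb => by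
    have ha' : ContDiff ℝ 3 fun x : Fin n → ℝ × ℝ => a fun i => tq (x i) := ha
    have hb' : ContDiff ℝ 3 fun x : Fin n → ℝ × ℝ => b fun i => tq (x i) := hb
    exact ha'.add hb'
  zero_mem' := (contDiff_const : ContDiff ℝ 3 fun _ : Fin n → ℝ × ℝ => (0 : ℂ))
  algebraMap_mem' := fun r => (contDiff_const : ContDiff ℝ 3 fun _ : Fin n → ℝ × ℝ => r)
  star_mem' := fun {a} ha => by
    have h : ContDiff ℝ 3 ((fun z : ℂ => Complex.conjCLE z) ∘
      (fun x : Fin n → ℝ × ℝ => a fun i => tq (x i))) := Complex.conjCLE.contDiff.comp ha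
    exact h

theorem smoothAlg_sep (n : ℕ) : (smoothAlg n).SeparatesPoints := by
  intro z z' hzz
  rw [Ne, funext_iff, not_forall] at hzz
  obtain ⟨i, hi⟩ := hzz
  have hf : ∀ a b : UnitAddCircle, a ≠ b → fourier 1 a ≠ fourier 1 b := by
    intro a b hab h
    apply hab
    rw [fourier_one, fourier_one] at h
    exact AddCircle.injective_toCircle one_ne_zero (Circle.coe_injective h)
  have hsm : ContDiff ℝ 3 (fun y : ℝ => (fourier 1 : C(UnitAddCircle, ℂ)) (y : UnitAddCircle)) := by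
    have : (fun y : ℝ => (fourier 1 : C(UnitAddCircle, ℂ)) (y : UnitAddCircle)) =
        fun y : ℝ => Complex.exp (2 * Real.pi * Complex.I * y) := by
      funext y
      rw [fourier_coe_apply]
      congr 1
      push_cast
      ring
    rw [this]
    exact (contDiff_const.mul Complex.ofRealCLM.contDiff).cexp
  by_cases h1 : (z i).1 = (z' i).1
  · have h2 : (z i).2 ≠ (z' i).2 := fun h => hi (Prod.ext h1 h)
    refine ⟨_, ⟨⟨fun z => fourier 1 (z i).2,
      (map_continuous (fourier 1)).comp (continuous_snd.comp (continuous_apply i))⟩, ?_, rfl⟩, ?_⟩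
    · change ContDiff ℝ 3 fun x : Fin n → ℝ × ℝ =>
        (fourier 1 : C(UnitAddCircle, ℂ)) ((x i).2 : UnitAddCircle)
      have h3 : ContDiff ℝ 3 fun x : Fin n → ℝ × ℝ => (x i).2 :=
        contDiff_snd.comp (contDiff_apply ℝ (ℝ × ℝ) i)
      exact hsm.comp h3
    · exact hf _ _ h2
  · refine ⟨_, ⟨⟨fun z => fourier 1 (z i).1,
      (map_continuous (fourier 1)).comp (continuous_fst.comp (continuous_apply i))⟩, ?_, rfl⟩, ?_⟩
    · change ContDiff ℝ 3 fun x : Fin n → ℝ × ℝ =>
        (fourier 1 : C(UnitAddCircle, ℂ)) ((x i).1 : UnitAddCircle)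
      have h3 : ContDiff ℝ 3 fun x : Fin n → ℝ × ℝ => (x i).1 :=
        contDiff_fst.comp (contDiff_apply ℝ (ℝ × ℝ) i)
      exact hsm.comp h3
    · exact hf _ _ h1

/-- uniform approximation by smooth functions -/
theorem smooth_approx {n : ℕ} (h : C(Fin n → Tor, ℂ)) {ε : ℝ} (hε : 0 < ε) :
    ∃ h' : C(Fin n → Tor, ℂ), (ContDiff ℝ 3 fun x : Fin n → ℝ × ℝ => h' fun i => tq (x i)) ∧
      ∀ z, ‖h z - h' z‖ < ε := by
  have htop := ContinuousMap.starSubalgebra_topologicalClosure_eq_top_of_separatesPoints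
    (smoothAlg n) (smoothAlg_sep n)
  have hmem : h ∈ (smoothAlg n).topologicalClosure := by rw [htop]; trivial
  have hcl : h ∈ closure ((smoothAlg n : StarSubalgebra ℂ C(Fin n → Tor, ℂ)) :
      Set C(Fin n → Tor, ℂ)) := hmem
  rw [Metric.mem_closure_iff] at hcl
  obtain ⟨h', hh', hd⟩ := hcl ε hε
  refine ⟨h', hh', fun z => ?_⟩
  rw [dist_eq_norm] at hd
  exact lt_of_le_of_lt ((h - h').norm_coe_le_norm z) hd

end Approx

section Coords

variable {n M N : ℕ} (σ : Fin (n + M) × Fin 2 ≃ Fin (N + 1))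

/-- index of the first coordinate -/
def cX (j : Fin (n + M)) : Fin (N + 1) := σ (j, 0)

/-- index of the second coordinate -/
def cY (j : Fin (n + M)) : Fin (N + 1) := σ (j, 1)

theorem cX_inj : Function.Injective (cX σ) := by
  intro a b hab
  have := σ.injective hab
  exact (Prod.ext_iff.mp this).1

theorem cY_inj : Function.Injective (cY σ) := by
  intro a b hab
  have := σ.injective hab
  exact (Prod.ext_iff.mp this).1

theorem cX_ne_cY (j j' : Fin (n + M)) : cX σ j ≠ cY σ j' := by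
  intro hab
  have := σ.injective hab
  have h2 := (Prod.ext_iff.mp this).2
  simp at h2

theorem cXY_surj (i : Fin (N + 1)) : (∃ j, i = cX σ j) ∨ ∃ j, i = cY σ j := by
  obtain ⟨⟨j, c⟩, rfl⟩ := σ.surjective i
  fin_cases c
  · exact Or.inl ⟨j, rfl⟩
  · exact Or.inr ⟨j, rfl⟩

/-- base coordinates -/
def zc (x : Fin (N + 1) → ℝ) (l : Fin n) : ℝ × ℝ :=
  (x (cX σ (Fin.castAdd M l)), x (cY σ (Fin.castAdd M l)))

/-- coefficients of the linear factors -/
def abc (a : Fin 2) (x : Fin (N + 1) → ℝ) (j : Fin M) : ℂ :=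
  frU (x (cX σ (Fin.natAdd n j))) (x (cY σ (Fin.natAdd n j))) a

/-- the parameter vector -/
def wc (x : Fin (N + 1) → ℝ) : Fin (M + 1) → ℂ := wv (abc σ 0 x) (abc σ 1 x)

theorem wc_ne_zero (x : Fin (N + 1) → ℝ) : wc σ x ≠ 0 := by
  apply wv_ne_zero
  intro j
  by_contra hcon
  push Not at hcon
  apply frU_ne_zero (x (cX σ (Fin.natAdd n j))) (x (cY σ (Fin.natAdd n j)))
  funext a
  fin_cases a
  · exact hcon.1
  · exact hcon.2

theorem zc_contDiff : ContDiff ℝ 3 (zc σ : (Fin (N + 1) → ℝ) → Fin n → ℝ × ℝ) := by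
  rw [contDiff_pi]
  intro l
  exact (contDiff_apply ℝ ℝ _).prodMk (contDiff_apply ℝ ℝ _)

theorem frU_coord_contDiff (j j' : Fin (N + 1)) (a : Fin 2) :
    ContDiff ℝ 3 fun x : Fin (N + 1) → ℝ => frU (x j) (x j') a := by
  have h1 : ContDiff ℝ 3 fun x : Fin (N + 1) → ℝ => (x j, x j') :=
    (contDiff_apply ℝ ℝ _).prodMk (contDiff_apply ℝ ℝ _)
  have h2 := (frU_contDiff (n := 3) a).comp h1
  exact h2

theorem wc_contDiff (i : Fin (M + 1)) : ContDiff ℝ 3 fun x => wc σ x i := by
  have h := lp_coeff_contDiff (n := 3) (α := abc σ 0) (β := abc σ 1)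
    (fun j => frU_coord_contDiff _ _ 0) (fun j => frU_coord_contDiff _ _ 1)
    Finset.univ (i : ℕ)
  exact h

theorem zc_X (j : Fin (n + M)) (x : Fin (N + 1) → ℝ) (k : Fin n) :
    tq (zc σ (x + Pi.single (cX σ j) 1) k) = tq (zc σ x k) := by
  simp only [zc, tq, Pi.add_apply]
  rw [Pi.single_eq_of_ne (cX_ne_cY σ _ _).symm, add_zero]
  by_cases h : Fin.castAdd M k = j
  · subst h
    rw [Pi.single_eq_same]
    simp
  · rw [Pi.single_eq_of_ne (fun hh => h (cX_inj σ hh)), add_zero]

theorem zc_Y (j : Fin (n + M)) (x : Fin (N + 1) → ℝ) (k : Fin n) :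
    tq (zc σ (x + Pi.single (cY σ j) 1) k) = tq (zc σ x k) := by
  simp only [zc, tq, Pi.add_apply]
  rw [Pi.single_eq_of_ne (cX_ne_cY σ _ _), add_zero]
  by_cases h : Fin.castAdd M k = j
  · subst h
    rw [Pi.single_eq_same]
    simp
  · rw [Pi.single_eq_of_ne (fun hh => h (cY_inj σ hh)), add_zero]

theorem frU_X (j : Fin (n + M)) (x : Fin (N + 1) → ℝ) (k : Fin (n + M)) :
    frU ((x + Pi.single (cX σ j) 1 : Fin (N + 1) → ℝ) (cX σ k))
      ((x + Pi.single (cX σ j) 1 : Fin (N + 1) → ℝ) (cY σ k)) =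
    frU (x (cX σ k)) (x (cY σ k)) := by
  simp only [Pi.add_apply]
  rw [Pi.single_eq_of_ne (cX_ne_cY σ _ _).symm, add_zero]
  by_cases h : k = j
  · subst h
    rw [Pi.single_eq_same, frU_add_x]
  · rw [Pi.single_eq_of_ne (fun hh => h (cX_inj σ hh)), add_zero]

theorem frU_Y (j : Fin (n + M)) (x : Fin (N + 1) → ℝ) (k : Fin (n + M)) (a : Fin 2) :
    frU ((x + Pi.single (cY σ j) 1 : Fin (N + 1) → ℝ) (cX σ k))
      ((x + Pi.single (cY σ j) 1 : Fin (N + 1) → ℝ) (cY σ k)) a =
    (if k = j then Complex.exp (2 * Real.pi * Complex.I * (x (cX σ j))) else 1) *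
      frU (x (cX σ k)) (x (cY σ k)) a := by
  simp only [Pi.add_apply]
  rw [Pi.single_eq_of_ne (cX_ne_cY σ _ _), add_zero]
  by_cases h : k = j
  · subst h
    rw [Pi.single_eq_same, frU_add_y]
    simp
  · rw [Pi.single_eq_of_ne (fun hh => h (cY_inj σ hh)), add_zero]
    simp [h]

theorem wc_X (j : Fin (n + M)) (x : Fin (N + 1) → ℝ) :
    wc σ (x + Pi.single (cX σ j) 1) = wc σ x := by
  simp only [wc]
  congr 1
  · funext k; simp only [abc]; rw [frU_X]
  · funext k; simp only [abc]; rw [frU_X]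

theorem castAdd_ne_natAdd (k : Fin n) (j : Fin M) : Fin.castAdd M k ≠ Fin.natAdd n j := by
  intro hh
  have := congrArg Fin.val hh
  simp at this
  omega

theorem wc_Y1 (j : Fin n) (x : Fin (N + 1) → ℝ) :
    wc σ (x + Pi.single (cY σ (Fin.castAdd M j)) 1) = wc σ x := by
  simp only [wc]
  congr 1
  · funext k; simp only [abc]; rw [frU_Y, if_neg (castAdd_ne_natAdd _ _).symm, one_mul]
  · funext k; simp only [abc]; rw [frU_Y, if_neg (castAdd_ne_natAdd _ _).symm, one_mul]

theorem wc_Y2 (j : Fin M) (x : Fin (N + 1) → ℝ) (i : Fin (M + 1)) :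
    wc σ (x + Pi.single (cY σ (Fin.natAdd n j)) 1) i =
      Complex.exp (2 * Real.pi * Complex.I * (x (cX σ (Fin.natAdd n j)))) * wc σ x i := by
  unfold wc
  apply wv_phase _ _ _ _ j
  · constructor
    · simp only [abc]
      rw [frU_Y, if_pos rfl]
    · simp only [abc]
      rw [frU_Y, if_pos rfl]
  · intro k hk
    have hne : Fin.natAdd n k ≠ Fin.natAdd n j := by
      intro hh
      apply hk
      have := congrArg Fin.val hh
      simp at this
      exact Fin.ext this
    constructor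
    · simp only [abc]
      rw [frU_Y, if_neg hne, one_mul]
    · simp only [abc]
      rw [frU_Y, if_neg hne, one_mul]

theorem degM_left (l' j' : Fin n) :
    degM n M (Fin.castAdd M l') (Fin.castAdd M j') = if l' = j' then -1 else 0 := by
  unfold degM
  rw [if_pos (by simp)]
  by_cases h : l' = j'
  · subst h; simp
  · have : Fin.castAdd M l' ≠ Fin.castAdd M j' := by
      intro hh
      apply h
      have := congrArg Fin.val hh
      simp at this
      exact Fin.ext this
    simp [h, this]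

theorem degM_right (l' : Fin M) (j' : Fin n) :
    degM n M (Fin.natAdd n l') (Fin.castAdd M j') = 0 := by
  unfold degM
  rw [if_pos (by simp), if_neg]
  exact (castAdd_ne_natAdd _ _).symm

theorem degM_nat (l : Fin (n + M)) (j' : Fin M) : degM n M l (Fin.natAdd n j') = 1 := by
  unfold degM
  rw [if_neg]
  simp

end Coords

section Main

variable {n M N : ℕ}

/-- the section attached to a matrix-valued function and a vector -/
def sec (V : (Fin n → Tor) → Matrix (Fin n × Fin 2 ⊕ Fin M) (Fin (M + 1)) ℂ)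
    (z : Fin n → ℝ × ℝ) (w : Fin (M + 1) → ℂ) : Fin n ⊕ Fin M → ℂ
  | Sum.inl l => ∑ a, (starRingEnd ℂ) (frU (z l).1 (z l).2 a) *
      ∑ i, V (fun k => tq (z k)) (Sum.inl (l, a)) i * w i
  | Sum.inr j => ∑ i, V (fun k => tq (z k)) (Sum.inr j) i * w i

/-- the sections as functions of all coordinates -/
def ff (V : (Fin n → Tor) → Matrix (Fin n × Fin 2 ⊕ Fin M) (Fin (M + 1)) ℂ)
    (σ : Fin (n + M) × Fin 2 ≃ Fin (N + 1)) (l : Fin (n + M)) (x : Fin (N + 1) → ℝ) : ℂ :=
  sec V (zc σ x) (wc σ x) (finSumFinEquiv.symm l)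

theorem conj_contDiff {E : Type*} [NormedAddCommGroup E] [NormedSpace ℝ E] {g : E → ℂ}
    {n : WithTop ℕ∞} (hg : ContDiff ℝ n g) : ContDiff ℝ n fun x => (starRingEnd ℂ) (g x) := by
  have h : ContDiff ℝ n ((fun z : ℂ => Complex.conjCLE z) ∘ g) :=
    Complex.conjCLE.contDiff.comp hg
  exact h

theorem ff_contDiff {V : (Fin n → Tor) → Matrix (Fin n × Fin 2 ⊕ Fin M) (Fin (M + 1)) ℂ}
    (hV : ∀ a i, ContDiff ℝ 3 fun x : Fin n → ℝ × ℝ => V (fun k => tq (x k)) a i)
    (σ : Fin (n + M) × Fin 2 ≃ Fin (N + 1)) (l : Fin (n + M)) : ContDiff ℝ 3 (ff V σ l) := by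
  have hVs : ∀ a i, ContDiff ℝ 3 fun x : Fin (N + 1) → ℝ => V (fun k => tq (zc σ x k)) a i :=
    fun a i => (hV a i).comp (zc_contDiff σ)
  have hVw : ∀ a, ContDiff ℝ 3 fun x : Fin (N + 1) → ℝ =>
      ∑ i, V (fun k => tq (zc σ x k)) a i * wc σ x i := by
    intro a
    apply ContDiff.sum
    intro i _
    exact (hVs a i).mul (wc_contDiff σ i)
  obtain ⟨l', rfl⟩ := finSumFinEquiv.surjective l
  unfold ff
  simp only [Equiv.symm_apply_apply]
  rcases l' with l' | l'
  · simp only [sec]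
    apply ContDiff.sum
    intro a _
    exact (conj_contDiff (frU_coord_contDiff _ _ a)).mul (hVw _)
  · simp only [sec]
    exact hVw _

theorem ff_X (V : (Fin n → Tor) → Matrix (Fin n × Fin 2 ⊕ Fin M) (Fin (M + 1)) ℂ)
    (σ : Fin (n + M) × Fin 2 ≃ Fin (N + 1)) (l j : Fin (n + M)) (x : Fin (N + 1) → ℝ) :
    ff V σ l (x + Pi.single (cX σ j) 1) = ff V σ l x := by
  obtain ⟨l', rfl⟩ := finSumFinEquiv.surjective l
  simp only [ff, Equiv.symm_apply_apply, wc_X]
  rcases l' with l' | l'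
  · simp only [sec, zc_X]
    apply Finset.sum_congr rfl
    intro a _
    congr 2
    simp only [zc]
    rw [frU_X]
  · simp only [sec, zc_X]

theorem ff_Y (V : (Fin n → Tor) → Matrix (Fin n × Fin 2 ⊕ Fin M) (Fin (M + 1)) ℂ)
    (σ : Fin (n + M) × Fin 2 ≃ Fin (N + 1)) (l j : Fin (n + M)) (x : Fin (N + 1) → ℝ) :
    ff V σ l (x + Pi.single (cY σ j) 1) =
      Complex.exp (2 * Real.pi * Complex.I * (degM n M l j : ℤ) * (x (cX σ j))) * ff V σ l x := by
  obtain ⟨j', rfl⟩ := finSumFinEquiv.surjective j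
  obtain ⟨l', rfl⟩ := finSumFinEquiv.surjective l
  rcases j' with j' | j'
  · simp only [finSumFinEquiv_apply_left]
    simp only [ff, Equiv.symm_apply_apply, wc_Y1]
    rcases l' with l' | l'
    · simp only [finSumFinEquiv_apply_left]
      simp only [sec, zc_Y]
      rw [degM_left, Finset.mul_sum]
      apply Finset.sum_congr rfl
      intro a _
      simp only [zc]
      rw [frU_Y]
      by_cases h : l' = j'
      · subst h
        simp only [if_true, map_mul]
        rw [← mul_assoc]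
        congr 2
        rw [← Complex.exp_conj]
        congr 1
        simp only [map_mul, Complex.conj_ofReal, Complex.conj_I]
        push_cast
        have : (starRingEnd ℂ) 2 = 2 := Complex.conj_ofNat 2
        rw [this]
        ring
      · have hne : Fin.castAdd M l' ≠ Fin.castAdd M j' := by
          intro hh
          apply h
          have := congrArg Fin.val hh
          simp at this
          exact Fin.ext this
        simp only [hne, ↓reduceIte, one_mul, h, Int.cast_zero, mul_zero, zero_mul, Complex.exp_zero]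
    · simp only [finSumFinEquiv_apply_right]
      simp only [sec, zc_Y]
      rw [degM_right]
      simp
  · simp only [finSumFinEquiv_apply_right]
    rw [degM_nat]
    simp only [ff, Equiv.symm_apply_apply, Int.cast_one, mul_one]
    rcases l' with l' | l'
    · simp only [sec, zc_Y, wc_Y2]
      rw [Finset.mul_sum]
      apply Finset.sum_congr rfl
      intro a _
      simp only [zc]
      rw [frU_Y, if_neg (castAdd_ne_natAdd _ _), one_mul, mul_left_comm]
      congr 1
      rw [Finset.mul_sum]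
      apply Finset.sum_congr rfl
      intro i _
      ring
    · simp only [sec, zc_Y, wc_Y2]
      rw [Finset.mul_sum]
      apply Finset.sum_congr rfl
      intro i _
      ring

theorem smooth_obstruction
    (V : (Fin n → Tor) → Matrix (Fin n × Fin 2 ⊕ Fin M) (Fin (M + 1)) ℂ)
    (hV : ∀ a i, ContDiff ℝ 3 fun x : Fin n → ℝ × ℝ => V (fun k => tq (x k)) a i) :
    ∃ (z : Fin n → ℝ × ℝ) (w : Fin (M + 1) → ℂ), w ≠ 0 ∧ sec V z w = 0 := by
  rcases Nat.eq_zero_or_pos (n + M) with h0 | hpos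
  · have hn : n = 0 := by omega
    have hM : M = 0 := by omega
    subst hn hM
    refine ⟨fun _ => 0, fun _ => 1, ?_, ?_⟩
    · intro h
      have := congrFun h 0
      simp at this
    · funext l
      rcases l with l | l
      · exact l.elim0
      · exact l.elim0
  · obtain ⟨N, hN⟩ : ∃ N, N + 1 = (n + M) * 2 := ⟨(n + M) * 2 - 1, by omega⟩
    let σ : Fin (n + M) × Fin 2 ≃ Fin (N + 1) := finProdFinEquiv.trans (finCongr hN.symm)
    obtain ⟨Λ, i1, i2, i3, e, he, hprod⟩ := exists_ext σ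
    have hq : ∀ l, Quasi (cX σ) (cY σ) (degM n M l) (ff V σ l) :=
      fun l => ⟨ff_contDiff hV σ l, ff_X V σ l, ff_Y V σ l⟩
    have hcurv := curv_prod_ne_zero σ he hprod
    obtain ⟨x, hx⟩ := exists_common_zero he (cY_inj σ) (cX_ne_cY σ) (cXY_surj σ) (degM n M)
      (ff V σ) hq hcurv
    refine ⟨zc σ x, wc σ x, wc_ne_zero σ x, ?_⟩
    funext l
    have := hx (finSumFinEquiv l)
    unfold ff at this
    rw [Equiv.symm_apply_apply] at this
    exact this

end Main

end

end Vale.Agent.P093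
end
end
end

section

section

section

/-!
The continuous version of the obstruction.
-/

namespace Vale.Agent.P093

noncomputable section

variable {n M : ℕ}

/-- matrix times vector -/
def mv {a : Type*} (A : Matrix a (Fin (M + 1)) ℂ) (w : Fin (M + 1) → ℂ) (i : a) : ℂ :=
  ∑ k, A i k * w k

/-- the bundle map applied to a vector -/
def bm (z : Fin n → Tor) (A : Matrix (Fin n × Fin 2 ⊕ Fin M) (Fin (M + 1)) ℂ)
    (w : Fin (M + 1) → ℂ) : (Fin n → Fin 2 → ℂ) × (Fin M → ℂ) :=
  (fun l => (pb (z l)).mulVec fun a => mv A w (Sum.inl (l, a)), fun j => mv A w (Sum.inr j))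

theorem pb_bound : ∃ C : ℝ, 0 ≤ C ∧ ∀ z a b, ‖pb z a b‖ ≤ C := by
  have h : ∀ a b : Fin 2, ∃ C : ℝ, ∀ z, ‖pb z a b‖ ≤ C := by
    intro a b
    have hc : Continuous fun z => pb z a b := by
      have := pb_continuous
      exact (continuous_apply b).comp ((continuous_apply a).comp this)
    obtain ⟨C, hC⟩ := isCompact_univ.exists_bound_of_continuousOn hc.continuousOn
    exact ⟨C, fun z => hC z (Set.mem_univ z)⟩
  choose C hC using h
  refine ⟨∑ a, ∑ b, |C a b|, by positivity, fun z a b => ?_⟩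
  calc ‖pb z a b‖ ≤ |C a b| := (hC a b z).trans (le_abs_self _)
    _ ≤ ∑ b, |C a b| := Finset.single_le_sum (f := fun b => |C a b|)
        (fun i _ => abs_nonneg _) (Finset.mem_univ b)
    _ ≤ _ := Finset.single_le_sum (f := fun a => ∑ b, |C a b|)
        (fun i _ => Finset.sum_nonneg fun _ _ => abs_nonneg _) (Finset.mem_univ a)

theorem bm_sub_le {C ε : ℝ} (hC0 : 0 ≤ C) (hC : ∀ z a b, ‖pb z a b‖ ≤ C) (hε : 0 ≤ ε)
    (z : Fin n → Tor) (A B : Matrix (Fin n × Fin 2 ⊕ Fin M) (Fin (M + 1)) ℂ)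
    (hAB : ∀ a i, ‖A a i - B a i‖ ≤ ε) (w : Fin (M + 1) → ℂ) (hw : ‖w‖ = 1) :
    ‖bm z A w - bm z B w‖ ≤ (2 * C + 1) * ((M + 1) * ε) := by
  have hdiff : ∀ a, ‖mv A w a - mv B w a‖ ≤ (M + 1) * ε := by
    intro a
    unfold mv
    rw [← Finset.sum_sub_distrib]
    calc ‖∑ k, (A a k * w k - B a k * w k)‖ ≤ ∑ k, ‖A a k * w k - B a k * w k‖ :=
          norm_sum_le _ _
      _ ≤ ∑ _k : Fin (M + 1), ε := by
          apply Finset.sum_le_sum
          intro k _
          rw [← sub_mul, norm_mul]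
          have h1 : ‖w k‖ ≤ 1 := (norm_le_pi_norm w k).trans hw.le
          calc ‖A a k - B a k‖ * ‖w k‖ ≤ ε * 1 :=
                mul_le_mul (hAB a k) h1 (norm_nonneg _) hε
            _ = ε := mul_one _
      _ = (M + 1) * ε := by simp only [Finset.sum_const, Finset.card_univ, Fintype.card_fin, nsmul_eq_mul, Nat.cast_add, Nat.cast_one]
  have hη : (0 : ℝ) ≤ (M + 1) * ε := by (clear * - hε; positivity)
  rw [Prod.norm_def, max_le_iff]
  constructor
  · rw [pi_norm_le_iff_of_nonneg (by (clear * - hC0 hε; positivity))]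
    intro l
    rw [pi_norm_le_iff_of_nonneg (by (clear * - hC0 hε; positivity))]
    intro a
    change ‖(pb (z l)).mulVec (fun a => mv A w (Sum.inl (l, a))) a -
      (pb (z l)).mulVec (fun a => mv B w (Sum.inl (l, a))) a‖ ≤ _
    unfold Matrix.mulVec dotProduct
    rw [← Finset.sum_sub_distrib]
    calc ‖∑ b, (pb (z l) a b * mv A w (Sum.inl (l, b)) -
          pb (z l) a b * mv B w (Sum.inl (l, b)))‖
        ≤ ∑ b, ‖pb (z l) a b * mv A w (Sum.inl (l, b)) -
          pb (z l) a b * mv B w (Sum.inl (l, b))‖ := norm_sum_le _ _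
      _ ≤ ∑ _b : Fin 2, C * ((M + 1) * ε) := by
          apply Finset.sum_le_sum
          intro b _
          rw [← mul_sub, norm_mul]
          exact mul_le_mul (hC _ _ _) (hdiff _) (norm_nonneg _) hC0
      _ = 2 * C * ((M + 1) * ε) := by simp only [Finset.sum_const, Finset.card_univ, Fintype.card_fin, nsmul_eq_mul, Nat.cast_ofNat]; ring
      _ ≤ _ := by
          apply mul_le_mul_of_nonneg_right _ hη
          linarith only []
  · rw [pi_norm_le_iff_of_nonneg (by (clear * - hC0 hε; positivity))]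
    intro j
    change ‖mv A w (Sum.inr j) - mv B w (Sum.inr j)‖ ≤ _
    refine (hdiff _).trans ?_
    have : (1 : ℝ) ≤ 2 * C + 1 := by linarith only [hC0]
    nlinarith only [hC0, hη]

theorem bm_smul (z : Fin n → Tor) (A : Matrix (Fin n × Fin 2 ⊕ Fin M) (Fin (M + 1)) ℂ)
    (w : Fin (M + 1) → ℂ) (c : ℂ) (h : bm z A w = 0) : bm z A (c • w) = 0 := by
  have hmvs : ∀ a, mv A (c • w) a = c * mv A w a := by
    intro a
    unfold mv
    rw [Finset.mul_sum]
    apply Finset.sum_congr rfl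
    intro k _
    simp only [Pi.smul_apply, smul_eq_mul]
    ring
  unfold bm at h ⊢
  rw [Prod.mk_eq_zero] at h ⊢
  constructor
  · funext l
    have h1 := congrFun h.1 l
    have h2 : (fun a => mv A (c • w) (Sum.inl (l, a))) =
        c • fun a => mv A w (Sum.inl (l, a)) := by
      funext a
      rw [hmvs]
      rfl
    change (pb (z l)).mulVec (fun a => mv A (c • w) (Sum.inl (l, a))) = 0
    rw [h2, Matrix.mulVec_smul]
    have h3 : (pb (z l)).mulVec (fun a => mv A w (Sum.inl (l, a))) = 0 := h1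
    rw [h3, smul_zero]
  · funext j
    have h1 : mv A w (Sum.inr j) = 0 := congrFun h.2 j
    change mv A (c • w) (Sum.inr j) = 0
    rw [hmvs, h1, mul_zero]

theorem bm_continuous (V : (Fin n → Tor) → Matrix (Fin n × Fin 2 ⊕ Fin M) (Fin (M + 1)) ℂ)
    (hV : Continuous V) :
    Continuous fun q : (Fin n → Tor) × (Fin (M + 1) → ℂ) => bm q.1 (V q.1) q.2 := by
  have hVe : ∀ a i, Continuous fun z => V z a i := fun a i =>
    (continuous_apply i).comp ((continuous_apply a).comp hV)
  have hmv : ∀ a, Continuous fun q : (Fin n → Tor) × (Fin (M + 1) → ℂ) => mv (V q.1) q.2 a := by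
    intro a
    unfold mv
    apply continuous_finset_sum
    intro k _
    exact ((hVe a k).comp continuous_fst).mul ((continuous_apply k).comp continuous_snd)
  unfold bm
  apply Continuous.prodMk
  · apply continuous_pi
    intro l
    apply continuous_pi
    intro a
    unfold Matrix.mulVec dotProduct
    apply continuous_finset_sum
    intro b _
    apply Continuous.mul
    · have h1 : Continuous fun q : (Fin n → Tor) × (Fin (M + 1) → ℂ) => pb (q.1 l) :=
        pb_continuous.comp ((continuous_apply l).comp continuous_fst)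
      exact (continuous_apply b).comp ((continuous_apply a).comp h1)
    · exact hmv _
  · apply continuous_pi
    intro j
    exact hmv _

theorem smooth_obstruction' (V : (Fin n → Tor) → Matrix (Fin n × Fin 2 ⊕ Fin M) (Fin (M + 1)) ℂ)
    (hV : ∀ a i, ContDiff ℝ 3 fun x : Fin n → ℝ × ℝ => V (fun k => tq (x k)) a i) :
    ∃ (z : Fin n → Tor) (w : Fin (M + 1) → ℂ), ‖w‖ = 1 ∧ bm z (V z) w = 0 := by
  obtain ⟨x, w, hw, hs⟩ := smooth_obstruction V hV
  have hbm : bm (fun k => tq (x k)) (V fun k => tq (x k)) w = 0 := by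
    unfold bm
    rw [Prod.mk_eq_zero]
    constructor
    · funext l
      have h1 := congrFun hs (Sum.inl l)
      exact pb_mulVec_eq_zero _ _ _ h1
    · funext j
      have h1 := congrFun hs (Sum.inr j)
      exact h1
  refine ⟨fun k => tq (x k), ((‖w‖ : ℂ)⁻¹) • w, ?_, bm_smul _ _ _ _ hbm⟩
  rw [norm_smul, norm_inv, Complex.norm_real, norm_norm,
    inv_mul_cancel₀ (norm_pos_iff.mpr hw).ne']

theorem torus_obstruction
    (V : (Fin n → Tor) → Matrix (Fin n × Fin 2 ⊕ Fin M) (Fin (M + 1)) ℂ)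
    (hV : Continuous V) :
    ∃ (z : Fin n → Tor) (w : Fin (M + 1) → ℂ), w ≠ 0 ∧ bm z (V z) w = 0 := by
  by_contra hcon
  push Not at hcon
  have hG := bm_continuous V hV
  have hVe : ∀ a i, Continuous fun z => V z a i := fun a i =>
    (continuous_apply i).comp ((continuous_apply a).comp hV)
  have hK : IsCompact ((Set.univ : Set (Fin n → Tor)) ×ˢ
      Metric.sphere (0 : Fin (M + 1) → ℂ) 1) := isCompact_univ.prod (isCompact_sphere _ _)
  have hne : ((Set.univ : Set (Fin n → Tor)) ×ˢ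
      Metric.sphere (0 : Fin (M + 1) → ℂ) 1).Nonempty := by
    refine ⟨(fun _ => (0, 0), fun _ => 1), Set.mem_univ _, ?_⟩
    rw [mem_sphere_zero_iff_norm]
    simp
  obtain ⟨q0, hq0, hmin⟩ := hK.exists_isMinOn hne hG.norm.continuousOn
  obtain ⟨δ, hδ⟩ : ∃ δ, δ = ‖bm q0.1 (V q0.1) q0.2‖ := ⟨_, rfl⟩
  have hδpos : 0 < δ := by
    rw [hδ, norm_pos_iff]
    apply hcon
    intro h0
    have := hq0.2
    rw [h0] at this
    simp only [mem_sphere_iff_norm, sub_self, norm_zero, zero_ne_one] at this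
  have hmin' : ∀ q : (Fin n → Tor) × (Fin (M + 1) → ℂ), ‖q.2‖ = 1 → δ ≤ ‖bm q.1 (V q.1) q.2‖ := by
    intro q hq
    rw [hδ]
    refine isMinOn_iff.mp hmin q ⟨Set.mem_univ _, ?_⟩
    rw [mem_sphere_zero_iff_norm]
    exact hq
  obtain ⟨C, hC0, hC⟩ := pb_bound
  obtain ⟨ε, hε⟩ : ∃ ε, ε = δ / (2 * (2 * C + 1) * (M + 1)) := ⟨_, rfl⟩
  have hεpos : 0 < ε := by rw [hε]; (clear * - hδpos hC0; positivity)
  have hex : ∀ a i, ∃ h' : C(Fin n → Tor, ℂ),
      (ContDiff ℝ 3 fun x : Fin n → ℝ × ℝ => h' fun i => tq (x i)) ∧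
      ∀ z, ‖V z a i - h' z‖ < ε := fun a i =>
    smooth_approx ⟨fun z => V z a i, hVe a i⟩ hεpos
  choose h' hh1 hh2 using hex
  obtain ⟨z, w, hw, hs⟩ := smooth_obstruction' (fun z a i => h' a i z) (fun a i => hh1 a i)
  have hsmall := bm_sub_le hC0 hC hεpos.le z (V z) (fun a i => h' a i z)
    (fun a i => (hh2 a i z).le) w hw
  rw [hs, sub_zero] at hsmall
  have hge := hmin' (z, w) hw
  have hfin : (2 * C + 1) * ((M + 1) * ε) = δ / 2 := by
    rw [hε]
    (clear * - hC0 hδpos; field_simp)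
  rw [hfin] at hsmall
  simp only at hge
  linarith only [hδpos, hsmall, hge]

end

end Vale.Agent.P093
end
end
end

section

section

section

/-!
Lemma T in the form used later: over a product of `M` two-spheres, the sum of the `M` Hopf line
bundles and a trivial bundle of rank `t` has no `t + 1` independent sections.
-/

namespace Vale.Agent.P093

noncomputable section

/-- the unit sphere in three-space -/
abbrev S2 := Metric.sphere (0 : EuclideanSpace ℝ (Fin 3)) 1

theorem pb_apply (z : Tor) (a b : Fin 2) : pb z a b =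
    frU (rp z.1) (rp z.2) a * (starRingEnd ℂ) (frU (rp z.1) (rp z.2) b) /
      (frN (rp z.1) (rp z.2) : ℂ) := rfl

theorem pb_diag (z : Tor) (a : Fin 2) : pb z a a =
    ((Complex.normSq (frU (rp z.1) (rp z.2) a) / frN (rp z.1) (rp z.2) : ℝ) : ℂ) := by
  rw [pb_apply, Complex.mul_conj]
  push_cast
  rfl

/-- the Bloch vector of the projection over the torus -/
def bloch (z : Tor) : EuclideanSpace ℝ (Fin 3) :=
  !₂[2 * (pb z 0 1).re, - 2 * (pb z 0 1).im, 2 * (pb z 0 0).re - 1]

theorem bloch_norm (z : Tor) : ‖bloch z‖ = 1 := by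
  have htr : (pb z 0 0).re + (pb z 1 1).re = 1 := by
    have h := pb_trace z
    have h2 : pb z 0 0 + pb z 1 1 = 1 := by
      rw [← h]; simp [Matrix.trace, Fin.sum_univ_two]
    have := congrArg Complex.re h2
    simpa using this
  have hdet : (pb z 0 1).re ^ 2 + (pb z 0 1).im ^ 2 = (pb z 0 0).re * (pb z 1 1).re := by
    set N := frN (rp z.1) (rp z.2) with hN
    have hNpos : 0 < N := frN_pos _ _
    have h1 : (pb z 0 1).re ^ 2 + (pb z 0 1).im ^ 2 = Complex.normSq (pb z 0 1) := by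
      rw [Complex.normSq_apply]; ring
    rw [h1, pb_apply, map_div₀, map_mul, Complex.normSq_conj, pb_diag, pb_diag, Complex.ofReal_re,
      Complex.ofReal_re, Complex.normSq_ofReal, ← hN]
    field_simp
  rw [EuclideanSpace.norm_eq]
  rw [Real.sqrt_eq_one]
  simp only [bloch, Fin.sum_univ_three, Real.norm_eq_abs, sq_abs]
  simp only [PiLp.toLp_apply, Matrix.cons_val_zero, Matrix.cons_val_one, Matrix.cons_val]
  have h3 : (pb z 1 1).re = 1 - (pb z 0 0).re := by linarith only [htr]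
  rw [h3] at hdet
  linarith

theorem hopf_bloch (z : Tor) : hopf (bloch z) = pb z := by
  have htr : pb z 0 0 + pb z 1 1 = 1 := by
    rw [← pb_trace z]; simp [Matrix.trace, Fin.sum_univ_two]
  have him : (pb z 0 0).im = 0 := by rw [pb_diag, Complex.ofReal_im]
  have hc : pb z 1 0 = (starRingEnd ℂ) (pb z 0 1) := by
    have := congrFun (congrFun (pb_conjTranspose z) 1) 0
    rw [Matrix.conjTranspose_apply] at this
    exact this.symm
  have h00 : pb z 0 0 = ((pb z 0 0).re : ℂ) := by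
    apply Complex.ext
    · simp
    · simp [him]
  ext a b
  fin_cases a <;> fin_cases b
  · simp only [hopf, bloch, PiLp.toLp_apply, Matrix.cons_val_zero, Matrix.cons_val_one,
      Matrix.cons_val, Matrix.of_apply, Fin.zero_eta, Fin.mk_one]
    rw [h00]
    push_cast
    simp only [Complex.ofReal_re]
    ring
  · simp only [hopf, bloch, PiLp.toLp_apply, Matrix.cons_val_zero, Matrix.cons_val_one,
      Matrix.cons_val, Matrix.of_apply, Fin.zero_eta, Fin.mk_one]
    apply Complex.ext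
    · simp only [Fin.isValue, Complex.ofReal_mul, Complex.ofReal_ofNat, neg_mul, Complex.ofReal_neg, sub_neg_eq_add, Complex.div_ofNat_re, Complex.add_re, Complex.mul_re, Complex.re_ofNat, Complex.ofReal_re, Complex.im_ofNat, Complex.ofReal_im, mul_zero, sub_zero, Complex.I_re, Complex.mul_im, zero_mul, add_zero, Complex.I_im, mul_one, sub_self, ne_eq, OfNat.ofNat_ne_zero, not_false_eq_true, mul_div_cancel_left₀]
    · simp only [Fin.isValue, Complex.ofReal_mul, Complex.ofReal_ofNat, neg_mul, Complex.ofReal_neg, sub_neg_eq_add, Complex.div_ofNat_im, Complex.add_im, Complex.mul_im, Complex.re_ofNat, Complex.ofReal_im, mul_zero, Complex.im_ofNat, Complex.ofReal_re, zero_mul, add_zero, Complex.mul_re, sub_zero, Complex.I_im, mul_one, Complex.I_re, zero_add, ne_eq, OfNat.ofNat_ne_zero, not_false_eq_true, mul_div_cancel_left₀]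
  · simp only [hopf, bloch, PiLp.toLp_apply, Matrix.cons_val_zero, Matrix.cons_val_one,
      Matrix.cons_val, Matrix.of_apply, Fin.zero_eta, Fin.mk_one]
    rw [hc]
    apply Complex.ext
    · simp
    · simp only [Fin.isValue, Complex.ofReal_mul, Complex.ofReal_ofNat, neg_mul, Complex.ofReal_neg, Complex.div_ofNat_im, Complex.add_im, Complex.mul_im, Complex.re_ofNat, Complex.ofReal_im, mul_zero, Complex.im_ofNat, Complex.ofReal_re, zero_mul, add_zero, Complex.neg_im, Complex.mul_re, sub_zero, Complex.I_im, mul_one, Complex.I_re, zero_add, Complex.conj_im]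
      ring
  · simp only [hopf, bloch, PiLp.toLp_apply, Matrix.cons_val_zero, Matrix.cons_val_one,
      Matrix.cons_val, Matrix.of_apply, Fin.zero_eta, Fin.mk_one]
    have : pb z 1 1 = 1 - ((pb z 0 0).re : ℂ) := by rw [← h00]; linear_combination htr
    rw [this]
    push_cast
    ring

theorem bloch_continuous : Continuous bloch := by
  have hc : ∀ a b : Fin 2, Continuous fun z => pb z a b := fun a b =>
    (continuous_apply b).comp ((continuous_apply a).comp pb_continuous)
  unfold bloch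
  apply (PiLp.continuous_toLp 2 _).comp
  apply continuous_pi
  intro i
  fin_cases i
  · exact continuous_const.mul (Complex.continuous_re.comp (hc 0 1))
  · exact continuous_const.mul (Complex.continuous_im.comp (hc 0 1))
  · exact (continuous_const.mul (Complex.continuous_re.comp (hc 0 0))).sub continuous_const

/-- **Lemma T.** -/
theorem lemmaT {M t : ℕ} (A : (Fin M → S2) → Matrix (Fin M × Fin 2 ⊕ Fin t) (Fin (t + 1)) ℂ)
    (hA : Continuous A) :
    ∃ (v : Fin M → S2) (w : Fin (t + 1) → ℂ), w ≠ 0 ∧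
      (∀ i, (hopf (v i)).mulVec (fun a => (A v).mulVec w (Sum.inl (i, a))) = 0) ∧
      ∀ j, (A v).mulVec w (Sum.inr j) = 0 := by
  let κ : (Fin M → Tor) → Fin M → S2 := fun z i =>
    ⟨bloch (z i), by rw [mem_sphere_zero_iff_norm]; exact bloch_norm _⟩
  have hκ : Continuous κ := by
    apply continuous_pi
    intro i
    exact (bloch_continuous.comp (continuous_apply i)).subtype_mk _
  obtain ⟨z, w, hw, h⟩ := torus_obstruction (fun z => A (κ z)) (hA.comp hκ)
  refine ⟨κ z, w, hw, ?_, ?_⟩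
  · intro i
    have h1 := congrFun (congrArg Prod.fst h) i
    have h2 : hopf ((κ z i : S2) : EuclideanSpace ℝ (Fin 3)) = pb (z i) := hopf_bloch (z i)
    rw [h2]
    exact h1
  · intro j
    exact congrFun (congrArg Prod.snd h) j

end

end Vale.Agent.P093
end
end
end

section

section

section
namespace Vale.Agent.P093

noncomputable section

/-- the number of two-spheres whose product embeds in a cube of dimension `q * s` -/
def kk (q s : ℕ) : ℕ := (q * s - 1) / 2

/-- the north pole -/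
def north : EuclideanSpace ℝ (Fin 3) := !₂[0, 0, 1]

theorem kk_mono {q s t : ℕ} (h : s ≤ t) : kk q s ≤ kk q t := by
  unfold kk
  exact Nat.div_le_div_right (Nat.sub_le_sub_right (Nat.mul_le_mul_left q h) 1)

end

end Vale.Agent.P093
end
end
end

section

section

section
open Filter Topology Set Matrix
open scoped ComplexOrder
set_option linter.unusedSectionVars false
namespace Vale.Agent.P093

noncomputable section

theorem north_norm : ‖north‖ = 1 := by
  rw [EuclideanSpace.norm_eq]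
  simp [north, Fin.sum_univ_three]

theorem hopf_north_mulVec (y : Fin 2 → ℂ) (hy : y 0 = 0) : hopf north *ᵥ y = 0 := by
  ext a
  fin_cases a
  · simp only [mulVec, dotProduct, hopf, Fin.isValue, north, cons_val, Complex.ofReal_add, Complex.ofReal_one, add_self_div_two, cons_val_zero, Complex.ofReal_zero, cons_val_one, zero_mul, sub_self, zero_div, add_zero, Fin.zero_eta, of_apply, cons_val', cons_val_fin_one, Fin.sum_univ_two, hy, mul_zero, Pi.zero_apply]
  · simp only [mulVec, dotProduct, hopf, Fin.isValue, north, cons_val, Complex.ofReal_add, Complex.ofReal_one, add_self_div_two, cons_val_zero, Complex.ofReal_zero, cons_val_one, zero_mul, sub_self, zero_div, add_zero, Fin.mk_one, of_apply, cons_val', cons_val_fin_one, Fin.sum_univ_two, hy, mul_zero, Pi.zero_apply]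

section Win

variable {K : Type*} [TopologicalSpace K] {n k : ℕ}

/-- index type of the window matrix -/
abbrev WIdx (k : ℕ) := (Fin k × Fin 2) ⊕ Fin 0

/-- the matrix of a window -/
def winMat (E : (Fin n → K) → Fin k → EuclideanSpace ℝ (Fin 3)) (z : Fin n → K) :
    Matrix (WIdx k) (WIdx k) ℂ := bdiag (fun l => betaM (E z l)) (fun _ => 0)

variable {E : (Fin n → K) → Fin k → EuclideanSpace ℝ (Fin 3)}

theorem winMat_continuous (hE : Continuous E) : Continuous (winMat E) := by
  apply bdiag_continuous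
  · intro l
    exact betaM_continuous.comp ((continuous_apply l).comp hE)
  · intro l
    exact continuous_const

theorem winMat_posSemidef (hE : ∀ z l, ‖E z l‖ ≤ 1) (z : Fin n → K) :
    (winMat E z).PosSemidef :=
  bdiag_posSemidef _ _ (fun l => betaM_posSemidef (hE z l)) fun _ => le_rfl

theorem one_sub_winMat_posSemidef (z : Fin n → K) : (1 - winMat E z).PosSemidef := by
  unfold winMat
  rw [one_sub_bdiag]
  exact bdiag_posSemidef _ _ (fun l => one_sub_betaM_posSemidef _) fun k => k.elim0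

theorem winMat_trace (hE : ∀ z l, ‖E z l‖ ≤ 1) (z : Fin n → K) :
    (k : ℝ) ≤ (winMat E z).trace.re := by
  unfold winMat
  rw [bdiag_trace]
  simp only [betaM_trace, Finset.univ_eq_empty, Finset.sum_empty, add_zero, Complex.re_sum,
    Complex.ofReal_re]
  calc (k : ℝ) = ∑ l : Fin k, (1 : ℝ) := by simp only [Finset.sum_const, Finset.card_univ, Fintype.card_fin, nsmul_eq_mul, mul_one]
    _ ≤ _ := Finset.sum_le_sum fun l _ => by linarith [hE z l]

theorem winMat_mulVec_eq_zero {m : ℕ} {z : Fin n → K} {v : Fin m → S2}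
    (hE : ∀ l : Fin k, E z l = if h : (l : ℕ) < m then (v ⟨l, h⟩ : EuclideanSpace ℝ (Fin 3))
      else north) (y : WIdx k → ℂ)
    (h1 : ∀ (l : Fin k) (h : (l : ℕ) < m), hopf (v ⟨l, h⟩) *ᵥ (fun e => y (Sum.inl (l, e))) = 0)
    (h2 : ∀ l : Fin k, m ≤ (l : ℕ) → y (Sum.inl (l, 0)) = 0) : winMat E z *ᵥ y = 0 := by
  ext i
  rcases i with ⟨l, e⟩ | i
  · unfold winMat
    rw [bdiag_mulVec_inl, Pi.zero_apply]
    have h3 : betaM (E z l) *ᵥ (fun e' => y (Sum.inl (l, e'))) = 0 := by
      rw [hE l]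
      by_cases h : (l : ℕ) < m
      · rw [dif_pos h, betaM_sphere (mem_sphere_zero_iff_norm.1 (v ⟨l, h⟩).2)]
        exact h1 l h
      · rw [dif_neg h, betaM_sphere north_norm]
        exact hopf_north_mulVec _ (h2 l (not_lt.1 h))
    rw [h3]
    rfl
  · exact i.elim0

end Win

end

end Vale.Agent.P093
end
end
end

section

section

section
open Filter Topology Set Matrix
open scoped ComplexOrder
set_option linter.unusedSectionVars false
namespace Vale.Agent.P093

noncomputable section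

section Elt

variable {X K : Type*} [TopologicalSpace X] [TopologicalSpace K] {n k : ℕ}

/-- the window of an observable along an orbit -/
def obsWin (h : X ≃ₜ X) (f : X → K) (n : ℕ) (x : X) : Fin n → K :=
  fun i => f ((h ^ (((i : ℕ) : ℕ) : ℤ)) x)

variable {h : X ≃ₜ X} {f : X → K}

theorem obsWin_continuous (hf : Continuous f) : Continuous (obsWin h f n) :=
  continuous_pi fun i => hf.comp (h ^ (((i : ℕ) : ℕ) : ℤ)).continuous

theorem obsWin_orbit (x : X) (j : ℕ) (i : Fin n) :
    obsWin h f n ((h ^ (j : ℤ)) x) i = f ((h ^ ((j + (i : ℕ) : ℕ) : ℤ)) x) := by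
  unfold obsWin
  have h1 : (h ^ (((i : ℕ) : ℕ) : ℤ)) ((h ^ (j : ℤ)) x) = (h ^ ((j + (i : ℕ) : ℕ) : ℤ)) x := by
    push_cast
    rw [add_comm, _root_.zpow_add]
    rfl
  rw [h1]

/-- the matrix valued function `b` -/
def obsElt (h : X ≃ₜ X) (f : X → K) (E : (Fin n → K) → Fin k → EuclideanSpace ℝ (Fin 3))
    (nn : C(X, ℝ)) (o δ : ℝ) (x : X) : Matrix (WIdx k) (WIdx k) ℂ :=
  ((arc n o 1 δ (nn x) : ℝ) : ℂ) • winMat E (obsWin h f n x)

variable {E : (Fin n → K) → Fin k → EuclideanSpace ℝ (Fin 3)} {nn : C(X, ℝ)} {o δ : ℝ}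

theorem obsElt_continuous (hf : Continuous f) (hE : Continuous E) :
    Continuous (obsElt h f E nn o δ) := by
  unfold obsElt
  have h1 : Continuous fun x : X => ((arc n o 1 δ (nn x) : ℝ) : ℂ) :=
    Complex.continuous_ofReal.comp ((arc_continuous n o 1 δ).comp nn.continuous)
  exact h1.smul ((winMat_continuous hE).comp (obsWin_continuous hf))

theorem obsElt_posSemidef (hE : ∀ z l, ‖E z l‖ ≤ 1) (x : X) :
    (obsElt h f E nn o δ x).PosSemidef := by
  unfold obsElt
  refine (winMat_posSemidef hE _).smul ?_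
  exact_mod_cast arc_nonneg _ _ _ _ _

theorem one_sub_obsElt_posSemidef (x : X) : (1 - obsElt h f E nn o δ x).PosSemidef := by
  unfold obsElt
  set t := arc n o 1 δ (nn x) with ht
  have h0 : 0 ≤ t := arc_nonneg _ _ _ _ _
  have h1 : t ≤ 1 := arc_le_one _ _ _ _ _
  have h2 : (1 : Matrix (WIdx k) (WIdx k) ℂ) - (t : ℂ) • winMat E (obsWin h f n x) =
      ((1 - t : ℝ) : ℂ) • (1 : Matrix (WIdx k) (WIdx k) ℂ) +
        (t : ℂ) • (1 - winMat E (obsWin h f n x)) := by
    rw [smul_sub, Complex.ofReal_sub, sub_smul, Complex.ofReal_one, one_smul]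
    abel
  rw [h2]
  refine (Matrix.PosSemidef.one.smul ?_).add ((one_sub_winMat_posSemidef _).smul ?_)
  · exact_mod_cast sub_nonneg.2 h1
  · exact_mod_cast h0

theorem obsElt_trace (hE : ∀ z l, ‖E z l‖ ≤ 1) (x : X) :
    arc n o 1 δ (nn x) * k ≤ (obsElt h f E nn o δ x).trace.re := by
  unfold obsElt
  rw [Matrix.trace_smul, smul_eq_mul, Complex.re_ofReal_mul]
  exact mul_le_mul_of_nonneg_left (winMat_trace hE _) (arc_nonneg _ _ _ _ _)

theorem obsElt_mulVec_eq_zero_of_arc {x : X} (hx : arc n o 1 δ (nn x) = 0) (y : WIdx k → ℂ) :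
    obsElt h f E nn o δ x *ᵥ y = 0 := by
  unfold obsElt
  rw [hx]
  simp

theorem obsElt_mulVec_eq_zero_of_win {x : X} {y : WIdx k → ℂ}
    (hx : winMat E (obsWin h f n x) *ᵥ y = 0) : obsElt h f E nn o δ x *ᵥ y = 0 := by
  unfold obsElt
  rw [Matrix.smul_mulVec, hx, smul_zero]

end Elt

end

end Vale.Agent.P093
end
end
end

section

section

section
open Filter Topology Set Matrix
set_option linter.unusedSectionVars false
namespace Vale.Agent.P093

noncomputable section

section Test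

variable {X K : Type*} [TopologicalSpace X] [TopologicalSpace K] (h : X ≃ₜ X) {q : ℕ}

/-- active times of the orbit of `x̄` -/
def ActT (nn : C(X, ℝ)) (n : ℕ) (o δ : ℝ) (xb : X) (j : ℕ) : Prop :=
  ∃ k : ℤ, o - 2 * δ < nn ((h ^ (j : ℤ)) xb) - n * k ∧
    nn ((h ^ (j : ℤ)) xb) - n * k < o + 1 + 2 * δ

/-- good times -/
def GoodT (w nn : C(X, ℝ)) (n : ℕ) (o δ : ℝ) (U : Finset ℕ) (N : ℕ) (xb : X) (j : ℕ) : Prop :=
  ActT h nn n o δ xb j ∧ j + n ≤ N ∧
    (∀ i : ℕ, i < j + n → j < i + n → w ((h ^ (i : ℤ)) xb) = 0) ∧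
    (∀ k : ℤ, 2 * δ ≤ |nn ((h ^ (j : ℤ)) xb) - o - k|) ∧
    ∀ i : Fin n, j + (i : ℕ) ∉ U

variable {h} {w nn : C(X, ℝ)} {n N : ℕ} {o δ : ℝ} {J U : Finset ℕ} {xb : X}

theorem nnH_stretch (hinc : ∀ x, |w (h x)| ≤ 1 / 2 → nn (h x) = nn x + 1)
    (x : X) (a i : ℕ) (hA : ∀ j : ℕ, a < j → j ≤ a + i → w ((h ^ (j : ℤ)) x) = 0) :
    nn ((h ^ ((a + i : ℕ) : ℤ)) x) = nn ((h ^ (a : ℤ)) x) + i := by
  classical
  refine regular_stretch (s := fun j : ℕ => nn ((h ^ (j : ℤ)) x))
    (A := fun j : ℕ => w ((h ^ (j : ℤ)) x) ≠ 0) ?_ a i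
    (fun j h1 h2 h3 => h3 (hA j h1 h2))
  intro j hj
  rw [not_not] at hj
  have h1 : (h ^ ((j + 1 : ℕ) : ℤ)) x = h ((h ^ (j : ℤ)) x) := by
    push_cast
    rw [add_comm, _root_.zpow_one_add]
    rfl
  change nn ((h ^ ((j + 1 : ℕ) : ℤ)) x) = nn ((h ^ (j : ℤ)) x) + 1
  rw [h1] at hj ⊢
  exact hinc _ (by rw [hj]; norm_num)

/-- phases of good times are interior -/
theorem phaseH_interior {c : ℝ} {k : ℤ} (hδ : 0 < δ) (h1 : o - 2 * δ < c - n * k)
    (h2 : c - n * k < o + 1 + 2 * δ) (h3 : ∀ k : ℤ, 2 * δ ≤ |c - o - k|) :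
    o < c - n * k ∧ c - n * k < o + 1 := by
  have h4 := h3 (n * k)
  have h5 := h3 (n * k + 1)
  push_cast at h4 h5
  have e1 : c - o - (n : ℝ) * k = c - n * k - o := by ring
  have e2 : c - o - ((n : ℝ) * k + 1) = c - n * k - o - 1 := by ring
  rw [e1, le_abs] at h4
  rw [e2, le_abs] at h5
  rcases h4 with h4 | h4 <;> rcases h5 with h5 | h5
  · exfalso; linarith
  · exact ⟨by linarith only [hδ, h4], by linarith only [hδ, h5]⟩
  · exfalso; linarith only [h1, h4]
  · exfalso; linarith only [h1, h4]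

/-- windows of different good times are disjoint -/
theorem goodH_disjoint (hinc : ∀ x, |w (h x)| ≤ 1 / 2 → nn (h x) = nn x + 1) (hδ : 0 < δ)
    {j j' : ℕ} (hj : GoodT h w nn n o δ U N xb j)
    (hj' : GoodT h w nn n o δ U N xb j') (hlt : j < j') : j + n ≤ j' := by
  by_contra hcon
  rw [not_le] at hcon
  obtain ⟨⟨k, hk1, hk2⟩, -, hv, ht, -⟩ := hj
  obtain ⟨⟨k', hk1', hk2'⟩, -, -, ht', -⟩ := hj'
  obtain ⟨d, rfl⟩ : ∃ d, j' = j + d := ⟨j' - j, by omega⟩
  have hd : 0 < d := by omega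
  have hdn : d < n := by omega
  have hst := nnH_stretch hinc xb j d fun i h1 h2 => hv i (by omega) (by omega)
  obtain ⟨h2, h3⟩ := phaseH_interior hδ hk1 hk2 ht
  obtain ⟨h2', h3'⟩ := phaseH_interior hδ hk1' hk2' ht'
  rw [hst] at h2' h3'
  have h4 : ((d : ℤ) - n * (k' - k) : ℤ) = 0 := by
    have h5 : |(((d : ℤ) - n * (k' - k) : ℤ) : ℝ)| < 1 := by
      push_cast
      rw [abs_lt]
      constructor <;> nlinarith
    have h6 : |((d : ℤ) - n * (k' - k) : ℤ)| < 1 := by exact_mod_cast h5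
    exact Int.abs_lt_one_iff.1 h6
  have h7 : (d : ℤ) % n = 0 := by
    have h8 : (d : ℤ) = n * (k' - k) := by linarith only [h4]
    rw [h8, Int.mul_emod_right]
  rw [Int.emod_eq_of_lt (by positivity) (by exact_mod_cast hdn)] at h7
  omega

/-- free positions of the window starting at `j` -/
def freeS (n : ℕ) (J : Finset ℕ) (j : ℕ) : Finset (Fin n) :=
  Finset.univ.filter fun i => j + (i : ℕ) ∈ J

/-- good times in a window -/
abbrev GTH (h : X ≃ₜ X) (w nn : C(X, ℝ)) (n : ℕ) (o δ : ℝ) (U : Finset ℕ) (N : ℕ)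
    (xb : X) : Type :=
  {j : Fin N // GoodT h w nn n o δ U N xb (j : ℕ)}

/-- the index type of the spheres -/
abbrev SphH (h : X ≃ₜ X) (w nn : C(X, ℝ)) (q n : ℕ) (o δ : ℝ)
    (J U : Finset ℕ) (N : ℕ) (xb : X) : Type :=
  Σ j : GTH h w nn n o δ U N xb, Fin (kk q (freeS n J (j.1 : ℕ)).card)

open scoped Classical in
/-- the coordinates of the test points -/
def testH (ι : (S : Finset (Fin n)) → (Fin (kk q S.card) → S2) → Fin n → (Fin q → unitInterval))
    (p₀ : Fin q → unitInterval) (v : SphH h w nn q n o δ J U N xb → S2) (i : ℕ) :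
    Fin q → unitInterval :=
  if hi : ∃ (j : GTH h w nn n o δ U N xb) (t : Fin n), i = (j.1 : ℕ) + (t : ℕ) then
    ι (freeS n J (hi.choose.1 : ℕ)) (fun l => v ⟨hi.choose, l⟩) hi.choose_spec.choose
  else p₀

/-- active times which are not good -/
abbrev BTH (h : X ≃ₜ X) (w nn : C(X, ℝ)) (n : ℕ) (o δ : ℝ) (U : Finset ℕ) (N : ℕ)
    (xb : X) : Type :=
  {j : Fin N // ActT h nn n o δ xb (j : ℕ) ∧ ¬ GoodT h w nn n o δ U N xb (j : ℕ)}

end Test

end

end Vale.Agent.P093
end
end
end

section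

section

section
open Filter Topology Set Matrix
set_option linter.unusedSectionVars false
namespace Vale.Agent.P093

noncomputable section

/-- flattening of a window -/
def flat {n q : ℕ} (z : Fin n → Fin q → unitInterval) : Fin (n * q) → unitInterval :=
  fun t => z (finProdFinEquiv.symm t).1 (finProdFinEquiv.symm t).2

theorem flat_continuous {n q : ℕ} :
    Continuous (flat : (Fin n → Fin q → unitInterval) → Fin (n * q) → unitInterval) := by
  unfold flat
  fun_prop

section Test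

variable {X : Type*} [TopologicalSpace X] {h : X ≃ₜ X} {q : ℕ}
  {w nn : C(X, ℝ)} {n N : ℕ} {o δ : ℝ} {J : Finset (ℕ × Fin q)} {U : Finset ℕ} {xb : X}

/-- free positions of the window starting at `j` -/
def freeR (n : ℕ) (J : Finset (ℕ × Fin q)) (j : ℕ) : Finset (Fin (n * q)) :=
  Finset.univ.filter fun t =>
    (j + ((finProdFinEquiv.symm t).1 : ℕ), (finProdFinEquiv.symm t).2) ∈ J

theorem mem_freeR (t : Fin (n * q)) (j : ℕ) : t ∈ freeR n J j ↔
    (j + ((finProdFinEquiv.symm t).1 : ℕ), (finProdFinEquiv.symm t).2) ∈ J := by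
  simp only [freeR, finProdFinEquiv_symm_apply, Fin.coe_divNat, Finset.mem_filter, Finset.mem_univ, true_and]

/-- the index type of the spheres -/
abbrev SphR (h : X ≃ₜ X) (w nn : C(X, ℝ)) (q n : ℕ) (o δ : ℝ)
    (J : Finset (ℕ × Fin q)) (U : Finset ℕ) (N : ℕ) (xb : X) : Type :=
  Σ j : GTH h w nn n o δ U N xb, Fin (kk 1 (freeR n J (j.1 : ℕ)).card)

open scoped Classical in
/-- the coordinates of the test points -/
def testR (ι : (S : Finset (Fin (n * q))) → (Fin (kk 1 S.card) → S2) → Fin (n * q) →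
      (Fin 1 → unitInterval))
    (p₀ : unitInterval) (v : SphR h w nn q n o δ J U N xb → S2) (i : ℕ) (s : Fin q) :
    unitInterval :=
  if hi : ∃ (j : GTH h w nn n o δ U N xb) (t : Fin n), i = (j.1 : ℕ) + (t : ℕ) then
    ι (freeR n J (hi.choose.1 : ℕ)) (fun l => v ⟨hi.choose, l⟩)
      (finProdFinEquiv (hi.choose_spec.choose, s)) 0
  else p₀

theorem testR_slot (hinc : ∀ x, |w (h x)| ≤ 1 / 2 → nn (h x) = nn x + 1) (hδ : 0 < δ)
    (ι : (S : Finset (Fin (n * q))) → (Fin (kk 1 S.card) → S2) → Fin (n * q) →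
      (Fin 1 → unitInterval))
    (p₀ : unitInterval) (v : SphR h w nn q n o δ J U N xb → S2)
    (j : GTH h w nn n o δ U N xb) (t : Fin n) (s : Fin q) :
    testR ι p₀ v ((j.1 : ℕ) + (t : ℕ)) s =
      ι (freeR n J (j.1 : ℕ)) (fun l => v ⟨j, l⟩) (finProdFinEquiv (t, s)) 0 := by
  have hi : ∃ (j' : GTH h w nn n o δ U N xb) (t' : Fin n),
    (j.1 : ℕ) + (t : ℕ) = (j'.1 : ℕ) + (t' : ℕ) := ⟨j, t, rfl⟩
  unfold testR
  rw [dif_pos hi]
  have h2 := hi.choose_spec.choose_spec
  have h3 : (j.1 : ℕ) = (hi.choose.1 : ℕ) := by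
    rcases Nat.lt_trichotomy (j.1 : ℕ) (hi.choose.1 : ℕ) with h | h | h
    · have := goodH_disjoint hinc hδ j.2 hi.choose.2 h
      have := t.2
      omega
    · exact h
    · have := goodH_disjoint hinc hδ hi.choose.2 j.2 h
      have := hi.choose_spec.choose.2
      omega
  have h4 : hi.choose_spec.choose = t := Fin.ext (by omega)
  have h5 : hi.choose = j := Subtype.ext (Fin.ext h3.symm)
  rw [h4]
  generalize hi.choose = j' at h5
  subst h5
  rfl

theorem testR_continuous
    {ι : (S : Finset (Fin (n * q))) → (Fin (kk 1 S.card) → S2) → Fin (n * q) →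
      (Fin 1 → unitInterval)}
    (hι : ∀ S, Continuous (ι S)) (p₀ : unitInterval) :
    Continuous fun v : SphR h w nn q n o δ J U N xb → S2 => testR ι p₀ v := by
  refine continuous_pi fun i => continuous_pi fun s => ?_
  unfold testR
  by_cases hi : ∃ (j : GTH h w nn n o δ U N xb) (t : Fin n), i = (j.1 : ℕ) + (t : ℕ)
  · simp only [dif_pos hi]
    exact (continuous_apply _).comp ((continuous_apply _).comp
      ((hι _).comp (continuous_pi fun l => continuous_apply _)))
  · simp only [dif_neg hi]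
    exact continuous_const

theorem testR_mem
    {ι : (S : Finset (Fin (n * q))) → (Fin (kk 1 S.card) → S2) → Fin (n * q) →
      (Fin 1 → unitInterval)}
    {D : Set unitInterval} (hι : ∀ S v i, ι S v i 0 ∈ D) {p₀ : unitInterval}
    (hp₀ : p₀ ∈ D) (v : SphR h w nn q n o δ J U N xb → S2) (i : ℕ) (s : Fin q) :
    testR ι p₀ v i s ∈ D := by
  unfold testR
  split_ifs
  · exact hι _ _ _
  · exact hp₀

/-- the index type of the trivial coordinates -/
abbrev TrivR (h : X ≃ₜ X) (w nn : C(X, ℝ)) (q n : ℕ) (o δ : ℝ)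
    (J : Finset (ℕ × Fin q)) (U : Finset ℕ) (N : ℕ) (xb : X) : Type :=
  (Σ j : GTH h w nn n o δ U N xb, Fin (kk 1 (n * q) - kk 1 (freeR n J (j.1 : ℕ)).card)) ⊕
    (BTH h w nn n o δ U N xb × (Fin (kk 1 (n * q)) × Fin 2))

theorem kk_freeR_le (j : ℕ) : kk 1 (freeR n J j).card ≤ kk 1 (n * q) := by
  refine kk_mono ?_
  simpa only [Fintype.card_fin] using Finset.card_le_univ (freeR n J j)

/-- coordinates of the Hopf blocks -/
def gMapR (l : SphR h w nn q n o δ J U N xb) (e' : Fin 2) : ℕ × WIdx (kk 1 (n * q)) :=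
  ((l.1.1 : ℕ), Sum.inl (⟨(l.2 : ℕ), l.2.2.trans_le (kk_freeR_le _)⟩, e'))

/-- trivial coordinates -/
def dMapR (t : TrivR h w nn q n o δ J U N xb) : ℕ × WIdx (kk 1 (n * q)) :=
  Sum.elim (fun s => ((s.1.1 : ℕ), Sum.inl (⟨kk 1 (freeR n J (s.1.1 : ℕ)).card + (s.2 : ℕ), by
      have := s.2.2
      have := kk_freeR_le (q := q) (n := n) (J := J) (s.1.1 : ℕ)
      omega⟩, 0)))
    (fun s => ((s.1.1 : ℕ), Sum.inl s.2)) t

theorem testR_kernel (hinc : ∀ x, |w (h x)| ≤ 1 / 2 → nn (h x) = nn x + 1) (hδ : 0 < δ)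
    {f : X → Fin q → unitInterval}
    {ι : (S : Finset (Fin (n * q))) → (Fin (kk 1 S.card) → S2) → Fin (n * q) →
      (Fin 1 → unitInterval)}
    {O : Set unitInterval}
    {E : (Fin (n * q) → unitInterval) → Fin (kk 1 (n * q)) → EuclideanSpace ℝ (Fin 3)}
    (hE : ∀ (S : Finset (Fin (n * q))) v (x : Fin (n * q) → unitInterval),
      (∀ i ∈ S, x i = ι S v i 0) →
      (∀ i ∉ S, x i ∉ O) → ∀ l : Fin (kk 1 (n * q)), E x l =
        if h : (l : ℕ) < kk 1 S.card then (v ⟨l, h⟩ : EuclideanSpace ℝ (Fin 3)) else north)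
    {p₀ : unitInterval} (v : SphR h w nn q n o δ J U N xb → S2) (ψv : X)
    (hψ1 : ∀ (i : ℕ) (s : Fin q), i < N → (i, s) ∈ J → f ((h ^ (i : ℤ)) ψv) s = testR ι p₀ v i s)
    (hψ2 : ∀ (i : ℕ) (s : Fin q), i < N → (i, s) ∉ J → i ∉ U → f ((h ^ (i : ℤ)) ψv) s ∉ O)
    (hclose : ∀ j : ℕ, j < N → |nn ((h ^ (j : ℤ)) ψv) - nn ((h ^ (j : ℤ)) xb)| ≤ δ)
    (y : ℕ → WIdx (kk 1 (n * q)) → ℂ)
    (h1 : ∀ l, hopf (v l) *ᵥ (fun e' => y (gMapR l e').1 (gMapR l e').2) = 0)
    (h2 : ∀ t : TrivR h w nn q n o δ J U N xb, y (dMapR t).1 (dMapR t).2 = 0) :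
    ∀ i < N, obsElt h f (fun z => E (flat z)) nn o δ ((h ^ (i : ℤ)) ψv) *ᵥ y i = 0 := by
  intro i hi
  by_cases hact : ActT h nn n o δ xb i
  · by_cases hgood : GoodT h w nn n o δ U N xb i
    · -- good time
      apply obsElt_mulVec_eq_zero_of_win
      let jj : GTH h w nn n o δ U N xb := ⟨⟨i, hi⟩, hgood⟩
      have hiN := hgood.2.1
      have hwin : ∀ l : Fin (kk 1 (n * q)), E (flat (obsWin h f n ((h ^ (i : ℤ)) ψv))) l =
          if h : (l : ℕ) < kk 1 (freeR n J i).card then
            ((fun l => v ⟨jj, l⟩) ⟨l, h⟩ : EuclideanSpace ℝ (Fin 3)) else north := by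
        refine hE (freeR n J i) (fun l => v ⟨jj, l⟩) _ ?_ ?_
        · intro t ht
          rw [mem_freeR] at ht
          have htn := (finProdFinEquiv.symm t).1.2
          unfold flat
          rw [obsWin_orbit, hψ1 _ _ (by omega) ht]
          have h3 := testR_slot hinc hδ ι p₀ v jj (finProdFinEquiv.symm t).1
            (finProdFinEquiv.symm t).2
          rw [Prod.mk.eta, Equiv.apply_symm_apply] at h3
          exact h3
        · intro t ht
          rw [mem_freeR] at ht
          have htn := (finProdFinEquiv.symm t).1.2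
          unfold flat
          rw [obsWin_orbit]
          exact hψ2 _ _ (by omega) ht (hgood.2.2.2.2 _)
      refine winMat_mulVec_eq_zero (m := kk 1 (freeR n J i).card) (v := fun l => v ⟨jj, l⟩)
        hwin (y i) ?_ ?_
      · intro l hl
        exact h1 ⟨jj, ⟨l, hl⟩⟩
      · intro l hl
        have h4 := h2 (Sum.inl ⟨jj, ⟨(l : ℕ) - kk 1 (freeR n J i).card, by
          have := l.2
          change (l : ℕ) - kk 1 (freeR n J i).card < kk 1 (n * q) - kk 1 (freeR n J i).card
          omega⟩⟩)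
        have h5 : (⟨kk 1 (freeR n J i).card + ((l : ℕ) - kk 1 (freeR n J i).card), by
          have := l.2
          omega⟩ : Fin (kk 1 (n * q))) = l := Fin.ext (by simp only; omega)
        change y i (Sum.inl (⟨kk 1 (freeR n J i).card + ((l : ℕ) -
          kk 1 (freeR n J i).card), _⟩, 0)) = 0 at h4
        rw [h5] at h4
        exact h4
    · -- bad time
      have h3 : y i = 0 := by
        funext κ
        rcases κ with κ | κ
        · exact h2 (Sum.inr (⟨⟨i, hi⟩, hact, hgood⟩, κ))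
        · exact κ.elim0
      rw [h3, Matrix.mulVec_zero]
  · -- inactive time
    apply obsElt_mulVec_eq_zero_of_arc
    by_contra hne
    apply hact
    obtain ⟨k, hk1, hk2⟩ := arc_ne_zero hδ hne
    have h3 := abs_le.1 (hclose i hi)
    exact ⟨k, by linarith only [hk1, h3], by linarith only [hk2, h3]⟩

end Test

end

end Vale.Agent.P093
end
end
end

section

section

section
open Filter Topology Set
set_option linter.unusedSectionVars false
namespace Vale.Agent.P093

noncomputable section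

theorem kk_sub_le {q n s : ℕ} (hs : s ≤ n) : 2 * (kk q n - kk q s) ≤ q * (n - s) + 1 := by
  unfold kk
  have h1 : q * (n - s) = q * n - q * s := Nat.mul_sub q n s
  have h2 : q * s ≤ q * n := Nat.mul_le_mul_left q hs
  omega

theorem two_kk_le (q n : ℕ) : 2 * kk q n ≤ q * n := by
  unfold kk
  omega

theorem le_two_kk (q n : ℕ) : q * n ≤ 2 * kk q n + 2 := by
  unfold kk
  omega

theorem window_count {Gd : Finset ℕ} {N n : ℕ} (h1 : ∀ j ∈ Gd, j + n ≤ N)
    (h2 : ∀ j ∈ Gd, ∀ j' ∈ Gd, j < j' → j + n ≤ j') (P : ℕ → Prop) [DecidablePred P] :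
    ∑ j ∈ Gd, ((Finset.Ico j (j + n)).filter P).card ≤ ((Finset.range N).filter P).card := by
  classical
  rw [← Finset.card_biUnion]
  · refine Finset.card_le_card ?_
    intro i hi
    rw [Finset.mem_biUnion] at hi
    obtain ⟨j, hj, hi⟩ := hi
    rw [Finset.mem_filter, Finset.mem_Ico] at hi
    rw [Finset.mem_filter, Finset.mem_range]
    exact ⟨by have := h1 j hj; omega, hi.2⟩
  · intro j hj j' hj' hne
    rw [Function.onFun, Finset.disjoint_left]
    intro i hi hi'
    rw [Finset.mem_filter, Finset.mem_Ico] at hi hi'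
    rcases Nat.lt_or_gt_of_ne hne with h | h
    · have := h2 j hj j' hj' h
      omega
    · have := h2 j' hj' j hj h
      omega

theorem window_count_all {Gd : Finset ℕ} {N n : ℕ} (h1 : ∀ j ∈ Gd, j + n ≤ N)
    (h2 : ∀ j ∈ Gd, ∀ j' ∈ Gd, j < j' → j + n ≤ j') : n * Gd.card ≤ N := by
  classical
  have h := window_count h1 h2 (fun _ => True)
  simp only [Finset.filter_true, Nat.card_Ico, Nat.add_sub_cancel_left, Finset.sum_const,
    smul_eq_mul, Finset.card_range] at h
  rwa [mul_comm] at h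

/-- the number of bad times -/
theorem bad_count {N n : ℕ} (Bd : Finset ℕ) (V U T : Finset ℕ)
    (h : ∀ j ∈ Bd, j < N ∧ (N < j + n ∨ (∃ i ∈ V, i < j + n ∧ j < i + n) ∨ j ∈ T ∨
      ∃ i ∈ U, j ≤ i ∧ i < j + n)) :
    Bd.card ≤ n + 2 * n * V.card + T.card + n * U.card := by
  classical
  have h1 : Bd ⊆ ((Finset.Ico (N - n) N ∪ V.biUnion fun i => Finset.Ico (i + 1 - n) (i + n)) ∪ T) ∪
      U.biUnion fun i => Finset.Ico (i + 1 - n) (i + 1) := by
    intro j hj
    obtain ⟨hN, h2⟩ := h j hj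
    simp only [Finset.mem_union, Finset.mem_biUnion, Finset.mem_Ico]
    rcases h2 with h2 | ⟨i, hi, h3, h4⟩ | h2 | ⟨i, hi, h3, h4⟩
    · exact Or.inl (Or.inl (Or.inl ⟨by omega, hN⟩))
    · exact Or.inl (Or.inl (Or.inr ⟨i, hi, by omega, by omega⟩))
    · exact Or.inl (Or.inr h2)
    · exact Or.inr ⟨i, hi, by omega, by omega⟩
  refine (Finset.card_le_card h1).trans ?_
  refine (Finset.card_union_le _ _).trans ?_
  refine Nat.add_le_add ((Finset.card_union_le _ _).trans
    (Nat.add_le_add_right ((Finset.card_union_le _ _).trans (Nat.add_le_add ?_ ?_)) _)) ?_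
  · rw [Nat.card_Ico]
    omega
  · refine (Finset.card_biUnion_le_card_mul _ _ (2 * n) fun i _ => ?_).trans (le_of_eq (mul_comm _ _))
    rw [Nat.card_Ico]
    omega
  · refine (Finset.card_biUnion_le_card_mul _ _ n fun i _ => ?_).trans (le_of_eq (mul_comm _ _))
    rw [Nat.card_Ico]
    omega

end

end Vale.Agent.P093
end
end
end

section

section

section
open Filter Topology Set Matrix
set_option linter.unusedSectionVars false
namespace Vale.Agent.P093

noncomputable section

theorem sum_fin_subtypeH {N : ℕ} (P : ℕ → Prop) [DecidablePred P] (f : ℕ → ℕ) :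
    ∑ j : {j : Fin N // P j}, f (j.1 : ℕ) = ∑ j ∈ (Finset.range N).filter P, f j := by
  classical
  rw [Finset.sum_filter, ← Fin.sum_univ_eq_sum_range (fun j => if P j then f j else 0) N,
    ← Finset.sum_filter]
  exact (Finset.sum_subtype (Finset.univ.filter fun j : Fin N => P j) (by simp only [Finset.mem_filter, Finset.mem_univ, true_and, implies_true])
    (fun j => f (j : ℕ))).symm

end

end Vale.Agent.P093
end
end
end

section

section

section
open Filter Topology Set
set_option linter.unusedSectionVars false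
namespace Vale.Agent.P093

/-- upper bound of the number of trivial coordinates -/
theorem num_upper {q n L P s N T F V Tr U : ℝ} {ρ ε : ℝ} (hq : 0 < q) (hn : 0 < n) (hL : 1 ≤ L)
    (hP : 0 < P) (hs : 0 < s) (hF : F ≤ (1 - ρ + ε) * N) (hV : L * V ≤ (N + n) + L)
    (hTr : P * Tr ≤ N) (hU : s * U ≤ N)
    (hT : 2 * T * n ≤ q * F * n + N + 2 * (q * n) * (n + 2 * n * V + Tr + n * U) * n) :
    T ≤ q * ((1 - ρ + ε) * N) / 2 + (N / n) / 2 +
      q * n * (n + 2 * n * (N / L + n + 1) + N / P + n * (N / s)) := by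
  have hL' : 0 < L := by linarith only [hL]
  have hVr : V ≤ N / L + n + 1 := by
    have h8 : V ≤ (N + n + L) / L := by
      rw [le_div_iff₀ hL']
      linarith only [hV]
    have h9 : (N + n + L) / L = N / L + n / L + 1 := by field_simp
    rw [h9] at h8
    have h10 : n / L ≤ n := div_le_self hn.le hL
    linarith only [h8, h10]
  have hTrr : Tr ≤ N / P := by
    rw [le_div_iff₀ hP]
    linarith only [hTr]
  have hUr : U ≤ N / s := by
    rw [le_div_iff₀ hs]
    linarith only [hU]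
  have hxN : N / n * n = N := div_mul_cancel₀ _ hn.ne'
  have hT2 : T ≤ q * F / 2 + (N / n) / 2 + q * n * (n + 2 * n * V + Tr + n * U) := by
    have h7 : 2 * T * n ≤
        (2 * (q * F / 2 + (N / n) / 2 + q * n * (n + 2 * n * V + Tr + n * U))) * n := by
      refine hT.trans (le_of_eq ?_)
      conv_lhs => rw [← hxN]
      ring
    have h8 := le_of_mul_le_mul_right h7 hn
    linarith only [h8]
  refine hT2.trans ?_
  gcongr

/-- lower bound of the count -/
theorem num_lower {q n L N c R κ ρ : ℝ} (hq : 0 < q) (hn : 1 ≤ n) (hL : 0 < L) (hN : 0 ≤ N)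
    (hR : 0 ≤ R) (hc : c ≤ n) (hc0 : 0 ≤ c) (h1 : (1 - ρ) / 2 + κ ≤ c / n) :
    q * (((1 - ρ) / 2 + κ) * N) - 2 * q * n * R - 2 * (q * n) - q * (n ^ 2 * (N / L)) ≤
      q * c * ((N - 2 * R) / n - 1 - N / L - 1) := by
  have hn' : 0 < n := by linarith only [hn]
  have ha0 : 0 ≤ N / L := by positivity
  have hcn : ((1 - ρ) / 2 + κ) * N ≤ c * (N / n) := by
    have h7 : ((1 - ρ) / 2 + κ) * N ≤ c / n * N := mul_le_mul_of_nonneg_right h1 hN
    have h8 : c / n * N = c * (N / n) := by ring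
    linarith only [h7, h8]
  have hrhs : q * c * ((N - 2 * R) / n - 1 - N / L - 1) =
      q * (c * (N / n)) - q * (c * (2 * R / n)) - 2 * (q * c) - q * (c * (N / L)) := by
    ring
  rw [hrhs]
  have h8 : c * (2 * R / n) ≤ 2 * (n * R) := by
    have h10 : c * (2 * R / n) ≤ n * (2 * R / n) :=
      mul_le_mul_of_nonneg_right hc (by (clear * - hR hn; positivity))
    have h11 : n * (2 * R / n) = 2 * R := by field_simp
    have h12 : R ≤ n * R := le_mul_of_one_le_left hR hn
    linarith only [h10, h11, h12]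
  have h13 : c * (N / L) ≤ n ^ 2 * (N / L) := by
    have : c ≤ n ^ 2 := hc.trans (by rw [sq]; exact le_mul_of_one_le_left hn'.le hn)
    exact mul_le_mul_of_nonneg_right this ha0
  have k1 := mul_le_mul_of_nonneg_left h8 hq.le
  have k2 := mul_le_mul_of_nonneg_left h13 hq.le
  have k3 : q * c ≤ q * n := mul_le_mul_of_nonneg_left hc hq.le
  have k4 := mul_le_mul_of_nonneg_left hcn hq.le
  have e1 : q * (2 * (n * R)) = 2 * q * n * R := by ring
  rw [e1] at k1
  linarith only [k1, k2, k3, k4]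

theorem num_final {q n L P s N κ ε ρ R : ℝ} (hq : 0 < q) (hn : 1 ≤ n) (hL : 0 < L)
    (hP : 0 < P) (hs : 0 < s) (hN : 0 ≤ N) (h2 : ε ≤ κ / 2) (h3 : 4 ≤ q * κ * n)
    (h4 : 24 * n ≤ κ * P) (h5 : 24 * n ^ 2 ≤ κ * s) (h6 : 72 * n ^ 2 ≤ κ * L)
    (hbig : q * n ^ 2 + 2 * q * n ^ 2 * (n + 1) + 2 * q * n * R + 2 * q * n < N * (q * κ) / 2) :
    q * ((1 - ρ + ε) * N) / 2 + (N / n) / 2 +
      q * n * (n + 2 * n * (N / L + n + 1) + N / P + n * (N / s)) <
    q * (((1 - ρ) / 2 + κ) * N) - 2 * q * n * R - 2 * (q * n) - q * (n ^ 2 * (N / L)) := by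
  have hn' : 0 < n := by linarith only [hn]
  have haN : N / L * L = N := div_mul_cancel₀ _ hL.ne'
  have hbN : N / P * P = N := div_mul_cancel₀ _ hP.ne'
  have hdN : N / s * s = N := div_mul_cancel₀ _ hs.ne'
  have hxN : N / n * n = N := div_mul_cancel₀ _ hn'.ne'
  have ha0 : 0 ≤ N / L := by (clear * - hN hL; positivity)
  have hb0 : 0 ≤ N / P := by (clear * - hN hP; positivity)
  have hd0 : 0 ≤ N / s := by (clear * - hN hs; positivity)
  have hx0 : 0 ≤ N / n := by (clear * - hN hn; positivity)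
  have ha1 : 72 * (n ^ 2 * (N / L)) ≤ κ * N := by
    have h := mul_le_mul_of_nonneg_right h6 ha0
    have e : κ * L * (N / L) = κ * N := by rw [mul_assoc, mul_comm L, haN]
    linarith only [h, e]
  have hb1 : 24 * (n * (N / P)) ≤ κ * N := by
    have h := mul_le_mul_of_nonneg_right h4 hb0
    have e : κ * P * (N / P) = κ * N := by rw [mul_assoc, mul_comm P, hbN]
    linarith only [h, e]
  have hd1 : 24 * (n ^ 2 * (N / s)) ≤ κ * N := by
    have h := mul_le_mul_of_nonneg_right h5 hd0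
    have e : κ * s * (N / s) = κ * N := by rw [mul_assoc, mul_comm s, hdN]
    linarith only [h, e]
  have hx1 : 4 * (N / n) ≤ q * (κ * N) := by
    have h := mul_le_mul_of_nonneg_right h3 hx0
    have e : q * κ * n * (N / n) = q * (κ * N) := by
      rw [mul_assoc (q * κ), mul_comm n, hxN, mul_assoc]
    linarith only [h, e]
  have k1 := mul_le_mul_of_nonneg_left ha1 hq.le
  have k2 := mul_le_mul_of_nonneg_left hb1 hq.le
  have k3 := mul_le_mul_of_nonneg_left hd1 hq.le
  have k4 : q * (ε * N) ≤ q * (κ / 2 * N) :=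
    mul_le_mul_of_nonneg_left (mul_le_mul_of_nonneg_right h2 hN) hq.le
  have e1 : q * ((1 - ρ + ε) * N) / 2 + (N / n) / 2 +
      q * n * (n + 2 * n * (N / L + n + 1) + N / P + n * (N / s)) =
      q * ((1 - ρ) / 2 * N) + q * (ε * N) / 2 + (N / n) / 2 + q * n ^ 2 +
      2 * (q * (n ^ 2 * (N / L))) + 2 * q * n ^ 2 * (n + 1) + q * (n * (N / P)) +
        q * (n ^ 2 * (N / s)) := by ring
  have e2 : q * (((1 - ρ) / 2 + κ) * N) = q * ((1 - ρ) / 2 * N) + q * (κ * N) := by ring
  have e3 : N * (q * κ) = q * (κ * N) := by ring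
  have e4 : q * (κ / 2 * N) = q * (κ * N) / 2 := by ring
  rw [e1, e2]
  rw [e3] at hbig
  rw [e4] at k4
  linarith only [hbig, k1, k2, k3, k4, hx1]

theorem num_hav {q n L c k θ κ ρ r : ℝ} (hq : 0 < q) (hn : 0 < n) (hL : n + 1 ≤ L)
    (hθ : q * ρ / 2 - r = θ) (hκ : q * κ ≤ θ / 4) (hc : c ≤ n * ((1 - ρ) / 2 + κ) + 1)
    (hk : q * n ≤ 2 * k + 2) (h1 : 4 * (1 + 2 * q) ≤ θ * n) (h2 : 8 * q * (n + 1) ≤ θ * L) :
    q * ((c + 1) * L + n * (n + 1)) + (r + θ / 4) * (n * L) ≤ k * (L - n - 1) := by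
  have hL0 : 0 < L := by linarith only [hn, hL]
  have e1 : ((q * n - 2) / 2) * (L - n - 1) ≤ k * (L - n - 1) := by
    refine mul_le_mul_of_nonneg_right ?_ (by linarith only [hL])
    linarith only [hk]
  have e2 : (c + 1) * L ≤ (n * ((1 - ρ) / 2 + κ) + 2) * L := by
    refine mul_le_mul_of_nonneg_right ?_ hL0.le
    linarith only [hc]
  have e3 := mul_le_mul_of_nonneg_left e2 hq.le
  have e4 : q * κ * (n * L) ≤ θ / 4 * (n * L) := mul_le_mul_of_nonneg_right hκ (by positivity)
  have e5 : 4 * (1 + 2 * q) * L ≤ θ * n * L := mul_le_mul_of_nonneg_right h1 hL0.le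
  have e6 : 8 * q * (n + 1) * n ≤ θ * L * n := mul_le_mul_of_nonneg_right h2 hn.le
  have e7 : r = q * ρ / 2 - θ := by linarith only [hθ]
  have e8 : 0 ≤ q * n * (n + 1) := by positivity
  rw [e7]
  have e9 : q * ((c + 1) * L + n * (n + 1)) ≤ q * ((n * ((1 - ρ) / 2 + κ) + 2) * L) +
      q * n * (n + 1) := by
    have : q * ((c + 1) * L + n * (n + 1)) = q * ((c + 1) * L) + q * n * (n + 1) := by ring
    rw [this]
    linarith only [e3]
  refine (add_le_add_left e9 _).trans (le_trans ?_ e1)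
  have e10 : q * ((n * ((1 - ρ) / 2 + κ) + 2) * L) + q * n * (n + 1) +
      (q * ρ / 2 - θ + θ / 4) * (n * L) =
      q / 2 * (n * L) + q * κ * (n * L) + 2 * q * L + q * n * (n + 1) - 3 / 4 * θ * (n * L) := by
    ring
  have e11 : ((q * n - 2) / 2) * (L - n - 1) = q / 2 * (n * L) - L - q * n * (n + 1) / 2 +
      (n + 1) := by ring
  rw [e10, e11]
  have e12 : θ * n * L = θ * (n * L) := by ring
  have e13 : θ * L * n = θ * (n * L) := by ring
  have e14 : 8 * q * (n + 1) * n = 8 * (q * n * (n + 1)) := by ring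
  rw [e12] at e5
  rw [e13, e14] at e6
  linarith only [e4, e5, e6, e8, hn]

theorem exists_params {q : ℕ} {ρ r : ℝ} (hq : 0 < q) (hρ0 : 0 ≤ ρ) (hρ1 : ρ ≤ 1)
    (hr : r < q * ρ / 2) :
    ∃ (κ r' : ℝ) (n c P s L : ℕ), 0 < κ ∧ 0 < n ∧ 0 < L ∧ 0 < P ∧ 0 < s ∧ c ≤ n ∧ r < r' ∧
      (1 - ρ) / 2 + κ ≤ c / n ∧ 4 ≤ q * κ * n ∧ 24 * n ≤ κ * P ∧ 24 * (n : ℝ) ^ 2 ≤ κ * s ∧
      72 * (n : ℝ) ^ 2 ≤ κ * L ∧
      q * ((c + 1) * L + n * (n + 1)) + r' * (n * L) ≤ (kk q n : ℝ) * (L - n - 1) := by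
  have hq' : (0 : ℝ) < q := by exact_mod_cast hq
  set θ := q * ρ / 2 - r with hθ
  have hθ0 : 0 < θ := by rw [hθ]; linarith only [hr]
  set κ := min (1 / 4) (θ / (4 * q)) with hκ
  have hκ0 : 0 < κ := lt_min (by norm_num) (by positivity)
  have hκ1 : κ ≤ 1 / 4 := min_le_left _ _
  have hκ2 : q * κ ≤ θ / 4 := by
    have h1 : κ ≤ θ / (4 * q) := min_le_right _ _
    have h2 := mul_le_mul_of_nonneg_left h1 hq'.le
    have h3 : (q : ℝ) * (θ / (4 * q)) = θ / 4 := by field_simp
    linarith only [h2, h3]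
  obtain ⟨n₁, hn₁⟩ := exists_nat_gt (4 / (q * κ))
  obtain ⟨n₂, hn₂⟩ := exists_nat_gt (4 * (1 + 2 * q) / θ)
  set n := n₁ + n₂ + 1 with hn
  have hn0 : 0 < n := by omega
  have hn0' : (0 : ℝ) < n := by exact_mod_cast hn0
  have hnn₁ : (n₁ : ℝ) ≤ n := by exact_mod_cast (by omega : n₁ ≤ n)
  have hnn₂ : (n₂ : ℝ) ≤ n := by exact_mod_cast (by omega : n₂ ≤ n)
  have h3 : 4 ≤ q * κ * n := by
    rw [div_lt_iff₀ (by positivity)] at hn₁
    have : (n₁ : ℝ) * (q * κ) ≤ n * (q * κ) := mul_le_mul_of_nonneg_right hnn₁ (by positivity)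
    linarith only [hn₁, this]
  have h4 : 4 * (1 + 2 * q) ≤ θ * n := by
    rw [div_lt_iff₀ hθ0] at hn₂
    have : (n₂ : ℝ) * θ ≤ n * θ := mul_le_mul_of_nonneg_right hnn₂ hθ0.le
    linarith only [hn₂, this]
  obtain ⟨P, hP⟩ := exists_nat_gt (24 * n / κ)
  obtain ⟨s, hs⟩ := exists_nat_gt (24 * (n : ℝ) ^ 2 / κ)
  obtain ⟨L₁, hL₁⟩ := exists_nat_gt (72 * (n : ℝ) ^ 2 / κ)
  obtain ⟨L₂, hL₂⟩ := exists_nat_gt (8 * q * (n + 1) / θ)
  set L := L₁ + L₂ + n + 1 with hL
  have hLL₁ : (L₁ : ℝ) ≤ L := by exact_mod_cast (by omega : L₁ ≤ L)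
  have hLL₂ : (L₂ : ℝ) ≤ L := by exact_mod_cast (by omega : L₂ ≤ L)
  have hLn : (n : ℝ) + 1 ≤ L := by exact_mod_cast (by omega : n + 1 ≤ L)
  set c := ⌈(n : ℝ) * ((1 - ρ) / 2 + κ)⌉₊ with hc
  have hc0 : 0 ≤ (n : ℝ) * ((1 - ρ) / 2 + κ) :=
    mul_nonneg hn0'.le (add_nonneg (by linarith only [hρ1]) hκ0.le)
  have hcn : c ≤ n := by
    rw [hc, Nat.ceil_le]
    have : (1 - ρ) / 2 + κ ≤ 1 := by linarith only [hρ0, hκ1]
    calc (n : ℝ) * ((1 - ρ) / 2 + κ) ≤ n * 1 := mul_le_mul_of_nonneg_left this hn0'.le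
      _ = n := mul_one _
  have hc1 : (c : ℝ) ≤ n * ((1 - ρ) / 2 + κ) + 1 := (Nat.ceil_lt_add_one hc0).le
  have hc2 : (1 - ρ) / 2 + κ ≤ c / n := by
    rw [le_div_iff₀ hn0', mul_comm]
    exact Nat.le_ceil _
  refine ⟨κ, r + θ / 4, n, c, P, s, L, hκ0, hn0, by omega, ?_, ?_, hcn, by linarith only [hθ0], hc2, h3,
    ?_, ?_, ?_, ?_⟩
  · have : (0 : ℝ) < P := lt_of_le_of_lt (by (clear * - hr hq; positivity)) hP
    exact_mod_cast this
  · have : (0 : ℝ) < s := lt_of_le_of_lt (by positivity) hs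
    exact_mod_cast this
  · rw [div_lt_iff₀ hκ0] at hP
    linarith only [hP]
  · rw [div_lt_iff₀ hκ0] at hs
    linarith only [hs]
  · rw [div_lt_iff₀ hκ0] at hL₁
    have : (L₁ : ℝ) * κ ≤ L * κ := mul_le_mul_of_nonneg_right hLL₁ hκ0.le
    linarith only [hL₁, this]
  · refine num_hav hq' hn0' hLn hθ.symm hκ2 hc1 ?_ h4 ?_
    · exact_mod_cast le_two_kk q n
    · rw [div_lt_iff₀ hθ0] at hL₂
      have : (L₂ : ℝ) * θ ≤ L * θ := mul_le_mul_of_nonneg_right hLL₂ hθ0.le
      linarith only [hL₂, this]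

end Vale.Agent.P093
end
end
end

section

section

section
open Filter Topology Set Matrix
set_option linter.unusedSectionVars false
namespace Vale.Agent.P093

noncomputable section

open scoped Classical in
/-- pairs which are not free -/
def nonfree {q : ℕ} (N : ℕ) (J : Finset (ℕ × Fin q)) : Finset (ℕ × Fin q) :=
  (Finset.range N ×ˢ Finset.univ).filter fun p => p ∉ J

theorem mem_nonfree {q : ℕ} {N : ℕ} {J : Finset (ℕ × Fin q)} {p : ℕ × Fin q} :
    p ∈ nonfree N J ↔ p.1 < N ∧ p ∉ J := by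
  simp only [nonfree, Finset.mem_filter, Finset.mem_product, Finset.mem_range, Finset.mem_univ, and_true]

theorem window_nonfree {q : ℕ} {Gd : Finset ℕ} {N n : ℕ} (h1 : ∀ j ∈ Gd, j + n ≤ N)
    (h2 : ∀ j ∈ Gd, ∀ j' ∈ Gd, j < j' → j + n ≤ j') (J : Finset (ℕ × Fin q)) :
    ∑ j ∈ Gd, (n * q - (freeR n J j).card) ≤ (nonfree N J).card := by
  classical
  have h3 : ∀ j, n * q - (freeR n J j).card =
      ((Finset.univ.filter fun t : Fin (n * q) => t ∉ freeR n J j).image fun t =>
        (j + ((finProdFinEquiv.symm t).1 : ℕ), (finProdFinEquiv.symm t).2)).card := by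
    intro j
    rw [Finset.card_image_of_injective]
    · have h4 : (Finset.univ.filter fun t : Fin (n * q) => t ∉ freeR n J j) =
          (freeR n J j)ᶜ := by
        ext t
        simp only [Finset.mem_filter, Finset.mem_univ, true_and, Finset.mem_compl]
      rw [h4, Finset.card_compl, Fintype.card_fin]
    · intro t t' htt
      have h5 := congrArg Prod.fst htt
      have h6 := congrArg Prod.snd htt
      simp only at h5 h6
      have h7 : finProdFinEquiv.symm t = finProdFinEquiv.symm t' :=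
        Prod.ext (Fin.ext (by omega)) h6
      exact finProdFinEquiv.symm.injective h7
  rw [Finset.sum_congr rfl fun j _ => h3 j, ← Finset.card_biUnion]
  · refine Finset.card_le_card ?_
    intro p hp
    rw [Finset.mem_biUnion] at hp
    obtain ⟨j, hj, hp⟩ := hp
    obtain ⟨t, ht, rfl⟩ := Finset.mem_image.1 hp
    rw [Finset.mem_filter, mem_freeR] at ht
    rw [mem_nonfree]
    have := h1 j hj
    have := (finProdFinEquiv.symm t).1.2
    exact ⟨by simp only; omega, ht.2⟩
  · intro j hj j' hj' hne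
    rw [Function.onFun, Finset.disjoint_left]
    intro p hp hp'
    obtain ⟨t, -, rfl⟩ := Finset.mem_image.1 hp
    obtain ⟨t', -, h4⟩ := Finset.mem_image.1 hp'
    have h5 := congrArg Prod.fst h4
    simp only at h5
    have := (finProdFinEquiv.symm t).1.2
    have := (finProdFinEquiv.symm t').1.2
    rcases Nat.lt_or_gt_of_ne hne with h | h
    · have := h2 j hj j' hj' h
      omega
    · have := h2 j' hj' j hj h
      omega

section Test

variable {X : Type*} [TopologicalSpace X] {h : X ≃ₜ X} {q : ℕ}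
  {w nn : C(X, ℝ)} {n N : ℕ} {o δ : ℝ} {J : Finset (ℕ × Fin q)} {U : Finset ℕ} {xb : X}

open scoped Classical in
theorem cardR_triv (hinc : ∀ x, |w (h x)| ≤ 1 / 2 → nn (h x) = nn x + 1) (hδ : 0 < δ) :
    2 * Nat.card (TrivR h w nn q n o δ J U N xb) * n ≤
      (nonfree N J).card * n + N +
      2 * (q * n) * (n + 2 * n * ((Finset.range (N + n)).filter fun i : ℕ =>
          w ((h ^ (i : ℤ)) xb) ≠ 0).card +
        ((Finset.range N).filter fun j : ℕ => ∃ k : ℤ,
          |nn ((h ^ (j : ℤ)) xb) - o - k| < 2 * δ).card +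
        n * U.card) * n := by
  set Gd := (Finset.range N).filter fun j => GoodT h w nn n o δ U N xb j with hGd
  set Bd := (Finset.range N).filter fun j => ActT h nn n o δ xb j ∧
    ¬ GoodT h w nn n o δ U N xb j with hBd
  have hG1 : ∀ j ∈ Gd, j + n ≤ N := fun j hj => (Finset.mem_filter.1 hj).2.2.1
  have hG2 : ∀ j ∈ Gd, ∀ j' ∈ Gd, j < j' → j + n ≤ j' := fun j hj j' hj' hlt =>
    goodH_disjoint hinc hδ (Finset.mem_filter.1 hj).2 (Finset.mem_filter.1 hj').2 hlt
  have hcard : Nat.card (TrivR h w nn q n o δ J U N xb) =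
      ∑ j ∈ Gd, (kk 1 (n * q) - kk 1 (freeR n J j).card) +
        Bd.card * (kk 1 (n * q) * 2) := by
    rw [Nat.card_eq_fintype_card, Fintype.card_sum, Fintype.card_sigma, Fintype.card_prod,
      Fintype.card_prod]
    simp only [Fintype.card_fin]
    congr 1
    · rw [sum_fin_subtypeH (fun j => GoodT h w nn n o δ U N xb j)
        (fun j => kk 1 (n * q) - kk 1 (freeR n J j).card)]
    · congr 1
      have := sum_fin_subtypeH (N := N) (fun j => ActT h nn n o δ xb j ∧
        ¬ GoodT h w nn n o δ U N xb j) (fun _ => 1)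
      simp only [Finset.sum_const, Finset.card_univ, smul_eq_mul, mul_one] at this
      exact this
  have h1 : 2 * ∑ j ∈ Gd, (kk 1 (n * q) - kk 1 (freeR n J j).card) ≤
      (nonfree N J).card + Gd.card := by
    calc 2 * ∑ j ∈ Gd, (kk 1 (n * q) - kk 1 (freeR n J j).card)
        = ∑ j ∈ Gd, 2 * (kk 1 (n * q) - kk 1 (freeR n J j).card) := Finset.mul_sum _ _ _
      _ ≤ ∑ j ∈ Gd, ((n * q - (freeR n J j).card) + 1) := by
          refine Finset.sum_le_sum fun j _ => ?_
          have h4 : (freeR n J j).card ≤ n * q := by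
            simpa only [Fintype.card_fin] using Finset.card_le_univ (freeR n J j)
          have := kk_sub_le (q := 1) h4
          omega
      _ = ∑ j ∈ Gd, (n * q - (freeR n J j).card) + Gd.card := by
          rw [Finset.sum_add_distrib]
          simp only [Finset.sum_const, smul_eq_mul, mul_one, Nat.add_left_cancel_iff]
      _ ≤ _ := by
          have := window_nonfree hG1 hG2 J
          omega
  have h2 := window_count_all hG1 hG2
  have h3 : Bd.card ≤ n + 2 * n * ((Finset.range (N + n)).filter fun i : ℕ =>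
          w ((h ^ (i : ℤ)) xb) ≠ 0).card +
        ((Finset.range N).filter fun j : ℕ => ∃ k : ℤ,
          |nn ((h ^ (j : ℤ)) xb) - o - k| < 2 * δ).card +
        n * U.card := by
    refine bad_count (N := N) Bd _ _ _ fun j hj => ?_
    rw [hBd, Finset.mem_filter, Finset.mem_range] at hj
    obtain ⟨hjN, hact, hng⟩ := hj
    refine ⟨hjN, ?_⟩
    by_contra hcon
    push Not at hcon
    obtain ⟨c1, c2, c3, c4⟩ := hcon
    apply hng
    refine ⟨hact, c1, ?_, ?_, ?_⟩
    · intro i hi1 hi2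
      by_contra hne
      have := c2 i (Finset.mem_filter.2 ⟨Finset.mem_range.2 (by omega), hne⟩) hi1
      omega
    · intro k
      by_contra hlt
      rw [not_le] at hlt
      exact c3 (Finset.mem_filter.2 ⟨Finset.mem_range.2 hjN, k, hlt⟩)
    · intro i hiU
      have hin := i.2
      have := c4 (j + (i : ℕ)) hiU (by omega)
      omega
  have h4 : 2 * kk 1 (n * q) ≤ q * n := by
    have := two_kk_le 1 (n * q)
    rw [one_mul] at this
    rwa [mul_comm q n]
  rw [hcard]
  set S := ∑ j ∈ Gd, (kk 1 (n * q) - kk 1 (freeR n J j).card)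
  set F := (nonfree N J).card
  set B := n + 2 * n * ((Finset.range (N + n)).filter fun i : ℕ =>
          w ((h ^ (i : ℤ)) xb) ≠ 0).card +
        ((Finset.range N).filter fun j : ℕ => ∃ k : ℤ,
          |nn ((h ^ (j : ℤ)) xb) - o - k| < 2 * δ).card +
        n * U.card
  have h5 : 2 * (S + Bd.card * (kk 1 (n * q) * 2)) ≤ F + Gd.card + 2 * (q * n) * B := by
    have h6 : Bd.card * (kk 1 (n * q) * 2) ≤ B * (q * n) :=
      Nat.mul_le_mul h3 (by rw [mul_comm]; exact h4)
    calc 2 * (S + Bd.card * (kk 1 (n * q) * 2)) = 2 * S + 2 * (Bd.card * (kk 1 (n * q) * 2)) := by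
          ring
      _ ≤ (F + Gd.card) + 2 * (B * (q * n)) := by omega
      _ = _ := by ring
  calc 2 * (S + Bd.card * (kk 1 (n * q) * 2)) * n ≤ (F + Gd.card + 2 * (q * n) * B) * n :=
        Nat.mul_le_mul_right _ h5
    _ = F * n + n * Gd.card + 2 * (q * n) * B * n := by ring
    _ ≤ _ := by omega

end Test

/-- numerical comparison -/
theorem famR_numeric {q n c L P s : ℕ} {ρ ε κ : ℝ} (hq : 0 < q) (hn : 0 < n) (hL : 0 < L)
    (hP : 0 < P) (hs : 0 < s) (hc : c ≤ n) (hκ : 0 < κ) (h1 : (1 - ρ) / 2 + κ ≤ c / n)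
    (h2 : ε ≤ κ / 2) (h3 : 4 ≤ q * κ * n) (h4 : 24 * n ≤ κ * P) (h5 : 24 * n ^ 2 ≤ κ * s)
    (h6 : 72 * n ^ 2 ≤ κ * L) (R : ℕ) :
    ∃ N₀ : ℕ, ∀ N, N₀ ≤ N → 2 * R ≤ N ∧ ∀ T F V Tr U : ℕ, (F : ℝ) ≤ q * ((1 - ρ + ε) * N) →
      L * V ≤ (N + n) + L → P * Tr ≤ N → s * U ≤ N →
      2 * T * n ≤ F * n + N + 2 * (q * n) * (n + 2 * n * V + Tr + n * U) * n →
      (T : ℝ) < q * c * (((N : ℝ) - 2 * R) / n - 1 - N / L - 1) := by
  have hq' : (0 : ℝ) < q := by exact_mod_cast hq
  have hn' : (0 : ℝ) < n := by exact_mod_cast hn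
  have hn1 : (1 : ℝ) ≤ n := by exact_mod_cast hn
  have hL' : (0 : ℝ) < L := by exact_mod_cast hL
  have hL1 : (1 : ℝ) ≤ L := by exact_mod_cast hL
  have hP' : (0 : ℝ) < P := by exact_mod_cast hP
  have hs' : (0 : ℝ) < s := by exact_mod_cast hs
  have hc' : (c : ℝ) ≤ n := by exact_mod_cast hc
  have hc0 : (0 : ℝ) ≤ c := Nat.cast_nonneg _
  obtain ⟨M, hM⟩ := exists_nat_gt
    (2 * (q * n ^ 2 + 2 * q * n ^ 2 * (n + 1) + 2 * q * n * R + 2 * q * n : ℝ) / (q * κ))
  refine ⟨max (2 * R) M, fun N hN => ⟨(le_max_left _ _).trans hN, ?_⟩⟩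
  intro T F V Tr U hF hV hTr hU hT
  have hNM : (M : ℝ) ≤ N := by exact_mod_cast (le_max_right _ _).trans hN
  have hN0 : (0 : ℝ) ≤ N := Nat.cast_nonneg _
  have hR0 : (0 : ℝ) ≤ R := Nat.cast_nonneg _
  have hbig : (q * n ^ 2 + 2 * q * n ^ 2 * (n + 1) + 2 * q * n * R + 2 * q * n : ℝ) <
      N * (q * κ) / 2 := by
    have h7 := hM.trans_le hNM
    rw [div_lt_iff₀ (by positivity)] at h7
    linarith only [h7]
  have hT' : (2 * T * n : ℝ) ≤ F * n + N + 2 * (q * n) * (n + 2 * n * V + Tr + n * U) * n := by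
    exact_mod_cast hT
  have t1 := num_upper (q := q) (n := n) (L := L) (P := P) (s := s) (N := N) (T := T)
    (F := (F : ℝ) / q) (ρ := ρ) (ε := ε)
    (V := V) (Tr := Tr) (U := U) hq' hn' hL1 hP' hs' (by
      rw [div_le_iff₀ hq']
      linarith only [hF]) (by exact_mod_cast hV)
    (by exact_mod_cast hTr) (by exact_mod_cast hU) (by
      rw [mul_div_cancel₀ _ hq'.ne']
      exact hT')
  have t2 := num_final (ρ := ρ) hq' hn1 hL' hP' hs' hN0 h2 h3 h4 h5 h6 hbig
  have t3 := num_lower (R := R) hq' hn1 hL' hN0 hR0 hc' hc0 h1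
  linarith only [t1, t2, t3]

end

end Vale.Agent.P093
end
end
end

section

section

section
open Filter Topology Set Matrix
set_option linter.unusedSectionVars false
namespace Vale.Agent.P093

noncomputable section

section Test

variable {X K : Type*} [TopologicalSpace X] [TopologicalSpace K] {h : X ≃ₜ X} {f : X → K} {q : ℕ}
  {w nn : C(X, ℝ)} {n L c k : ℕ} {o δ : ℝ}

open scoped Classical in
theorem visitsH_le (hL : 0 < L) (hsep : ∀ x (i j : ℤ), i < j →
      w ((h ^ i) x) ≠ 0 → w ((h ^ j) x) ≠ 0 → (L : ℤ) ≤ j - i)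
    (x : X) (a b : ℕ) :
    L * ((Finset.Ico a b).filter fun i : ℕ => w ((h ^ (i : ℤ)) x) ≠ 0).card ≤
      (b - a) + L := by
  refine sparse_count hL a b _ fun i j hij hi hj => ?_
  have := hsep x (i : ℤ) (j : ℤ) (by exact_mod_cast hij) hi hj
  omega

theorem nnH_step (hinc : ∀ x, |w (h x)| ≤ 1 / 2 →
      nn (h x) = nn x + 1) (x : X) (j : ℕ)
    (hj : ¬ w ((h ^ ((j + 1 : ℕ) : ℤ)) x) ≠ 0) :
    nn ((h ^ ((j + 1 : ℕ) : ℤ)) x) = nn ((h ^ (j : ℤ)) x) + 1 := by
  rw [not_not] at hj
  have h1 : (h ^ ((j + 1 : ℕ) : ℤ)) x =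
      h ((h ^ (j : ℤ)) x) := by
    push_cast
    rw [add_comm, _root_.zpow_one_add]
    rfl
  rw [h1] at hj ⊢
  exact hinc _ (by rw [hj]; norm_num)

theorem havH_lemma (hinc : ∀ x, |w (h x)| ≤ 1 / 2 →
      nn (h x) = nn x + 1) (hL : 0 < L) (hsep : ∀ x (i j : ℤ), i < j →
      w ((h ^ i) x) ≠ 0 → w ((h ^ j) x) ≠ 0 → (L : ℤ) ≤ j - i)
    (hδ : 0 < δ) (hδ1 : 4 * δ ≤ 1) (hn : 0 < n)
    {E : (Fin n → K) → Fin k → EuclideanSpace ℝ (Fin 3)} (hE : ∀ z l, ‖E z l‖ ≤ 1) {r' : ℝ}
    (hnum : q * ((c + 1) * L + n * (n + 1)) + r' * (n * L) ≤ (k : ℝ) * (L - n - 1)) (x : X) :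
    ∑ j ∈ Finset.range (n * L), ∑ _l : Fin q,
        arc n (0 - δ) (c + 2 * δ) δ (nn ((h ^ (j : ℤ)) x)) +
        r' * ((n * L : ℕ) : ℝ) ≤
      ∑ j ∈ Finset.range (n * L),
        (obsElt h f E nn o δ ((h ^ (j : ℤ)) x)).trace.re := by
  classical
  set A : ℕ → Prop := fun i => w ((h ^ (i : ℤ)) x) ≠ 0 with hA
  set s : ℕ → ℝ := fun j => nn ((h ^ (j : ℤ)) x) with hs
  have hstep : ∀ j, ¬ A (j + 1) → s (j + 1) = s j + 1 := fun j hj => nnH_step hinc x j hj
  have hV0 := visitsH_le hL hsep x 0 (n * L)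
  set V := ((Finset.Ico 0 (n * L)).filter A).card with hV
  have hV1 : V ≤ n + 1 := by
    have h1 : L * V ≤ (n * L - 0) + L := hV0
    have h2 : L * V ≤ L * (n + 1) := by
      rw [Nat.sub_zero] at h1
      calc L * V ≤ n * L + L := h1
        _ = L * (n + 1) := by ring
    exact Nat.le_of_mul_le_mul_left h2 hL
  have hV1' : (V : ℝ) ≤ n + 1 := by exact_mod_cast hV1
  -- upper bound
  have hup := block_upper hstep (n := n) (c := c) (0 - δ - δ) (c + 4 * δ) (by linarith only [hδ1])
    (fun j => arc n (0 - δ) (c + 2 * δ) δ (s j) ≠ 0) (fun j hj => by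
      obtain ⟨m, h1, h2⟩ := arc_ne_zero hδ hj
      exact ⟨m, h1, by linarith only [h2]⟩) 0 L
  rw [zero_add] at hup
  have hup1 : ∑ j ∈ Finset.range (n * L), arc n (0 - δ) (c + 2 * δ) δ (s j) ≤
      (c + 1) * L + n * (n + 1) := by
    calc ∑ j ∈ Finset.range (n * L), arc n (0 - δ) (c + 2 * δ) δ (s j)
        ≤ ∑ j ∈ Finset.range (n * L), (if arc n (0 - δ) (c + 2 * δ) δ (s j) ≠ 0 then (1 : ℝ)
            else 0) := by
          refine Finset.sum_le_sum fun j _ => ?_
          split_ifs with h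
          · exact arc_le_one _ _ _ _ _
          · rw [not_not] at h
            exact h.le
      _ = (((Finset.Ico 0 (n * L)).filter
            (fun j => arc n (0 - δ) (c + 2 * δ) δ (s j) ≠ 0)).card : ℝ) := by
          rw [Finset.sum_boole, Finset.range_eq_Ico]
      _ ≤ (((c + 1) * L + n * V : ℕ) : ℝ) := by exact_mod_cast hup
      _ ≤ (c + 1) * L + n * (n + 1) := by
          push_cast
          have : (n : ℝ) * V ≤ n * (n + 1) := by gcongr
          linarith only [this]
  -- lower bound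
  have hlo := block_lower hstep (n := n) (c := 1) hn hn o
    (fun j => arc n o 1 δ (s j) = 1) (fun j hj => by
      obtain ⟨m, h1, h2⟩ := hj
      exact arc_eq_one hδ m h1 (by push_cast at h2; exact h2)) 0 L
  rw [zero_add, one_mul, one_mul] at hlo
  have hlo1 : (k : ℝ) * (L - n - 1) ≤ ∑ j ∈ Finset.range (n * L),
      (obsElt h f E nn o δ ((h ^ (j : ℤ)) x)).trace.re := by
    calc (k : ℝ) * (L - n - 1) ≤ k * (((Finset.Ico 0 (n * L)).filter
            (fun j => arc n o 1 δ (s j) = 1)).card : ℝ) := by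
          have h1 : (L : ℝ) ≤ ((Finset.Ico 0 (n * L)).filter
            (fun j => arc n o 1 δ (s j) = 1)).card + V := by exact_mod_cast hlo
          gcongr
          linarith only [hV1', h1]
      _ = ∑ j ∈ Finset.range (n * L), (if arc n o 1 δ (s j) = 1 then (k : ℝ) else 0) := by
          rw [← Finset.sum_filter, Finset.sum_const, Finset.range_eq_Ico, nsmul_eq_mul, mul_comm]
      _ ≤ _ := by
          refine Finset.sum_le_sum fun j _ => ?_
          refine le_trans ?_ (obsElt_trace hE _)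
          split_ifs with hif
          · have h' : arc n o 1 δ (nn ((h ^ (j : ℤ)) x)) = 1 := hif
            rw [h', one_mul]
          · exact mul_nonneg (arc_nonneg _ _ _ _ _) (Nat.cast_nonneg _)
  have h1 : ∑ j ∈ Finset.range (n * L), ∑ _l : Fin q,
        arc n (0 - δ) (c + 2 * δ) δ (nn ((h ^ (j : ℤ)) x)) =
      q * ∑ j ∈ Finset.range (n * L), arc n (0 - δ) (c + 2 * δ) δ (s j) := by
    rw [Finset.mul_sum]
    refine Finset.sum_congr rfl fun j _ => ?_
    rw [Finset.sum_const, Finset.card_univ, Fintype.card_fin, nsmul_eq_mul]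
  rw [h1]
  push_cast
  have hq : (0 : ℝ) ≤ q := Nat.cast_nonneg _
  have h2 := mul_le_mul_of_nonneg_left hup1 hq
  linarith only [hnum, hlo1, h2]

/-- lower count for the scalar element along an orbit -/
theorem gH_count (hinc : ∀ x, |w (h x)| ≤ 1 / 2 →
      nn (h x) = nn x + 1) (hL : 0 < L) (hsep : ∀ x (i j : ℤ), i < j →
      w ((h ^ i) x) ≠ 0 → w ((h ^ j) x) ≠ 0 → (L : ℤ) ≤ j - i)
    (hδ : 0 < δ) (hn : 0 < n) (hc : c ≤ n) (x : X) (N R : ℕ) (hN : 2 * R ≤ N) :
    q * c * (((N : ℝ) - 2 * R) / n - 1 - N / L - 1) ≤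
      ((Finset.univ.filter (fun p : Fin N × Fin q => R ≤ (p.1 : ℕ) ∧
        (p.1 : ℕ) + R < N ∧
          arc n 0 c δ (nn ((h ^ ((p.1 : ℕ) : ℤ)) x)) = 1)).card : ℝ) := by
  classical
  set A : ℕ → Prop := fun i => w ((h ^ (i : ℤ)) x) ≠ 0 with hA
  set s : ℕ → ℝ := fun j => nn ((h ^ (j : ℤ)) x) with hs
  have hstep : ∀ j, ¬ A (j + 1) → s (j + 1) = s j + 1 := fun j hj => nnH_step hinc x j hj
  set B := (N - 2 * R) / n with hB
  have hBn : n * B ≤ N - 2 * R := Nat.mul_div_le _ _
  have hlo := block_lower hstep (n := n) (c := c) hc hn 0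
    (fun j => arc n 0 c δ (s j) = 1) (fun j hj => by
      obtain ⟨m, h1, h2⟩ := hj
      exact arc_eq_one hδ m h1 h2) R B
  have hV0 := visitsH_le hL hsep x R (R + n * B)
  set V := ((Finset.Ico R (R + n * B)).filter A).card with hV
  have hV1 : L * V ≤ N + L := by
    have h1 : L * V ≤ (R + n * B - R) + L := hV0
    omega
  have hcard : q * ((Finset.Ico R (R + n * B)).filter (fun j => arc n 0 c δ (s j) = 1)).card ≤
      (Finset.univ.filter (fun p : Fin N × Fin q => R ≤ (p.1 : ℕ) ∧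
        (p.1 : ℕ) + R < N ∧
          arc n 0 c δ (nn ((h ^ ((p.1 : ℕ) : ℤ)) x)) = 1)).card := by
    have h1 : (((Finset.Ico R (R + n * B)).filter (fun j => arc n 0 c δ (s j) = 1)) ×ˢ
        (Finset.univ : Finset (Fin q))).card =
        q * ((Finset.Ico R (R + n * B)).filter (fun j => arc n 0 c δ (s j) = 1)).card := by
      rw [Finset.card_product, Finset.card_univ, Fintype.card_fin, mul_comm]
    rw [← h1]
    refine Finset.card_le_card_of_surjOn (fun p : Fin N × Fin q => ((p.1 : ℕ), p.2)) ?_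
    rintro ⟨j, l⟩ hj
    rw [Finset.mem_coe, Finset.mem_product, Finset.mem_filter, Finset.mem_Ico] at hj
    obtain ⟨⟨⟨hj1, hj2⟩, hj3⟩, -⟩ := hj
    have hjN : j < N := by omega
    refine ⟨(⟨j, hjN⟩, l), ?_, rfl⟩
    rw [Finset.mem_coe, Finset.mem_filter]
    exact ⟨Finset.mem_univ _, hj1, by simp only; omega, hj3⟩
  have hcard' : (q : ℝ) * (((Finset.Ico R (R + n * B)).filter
      (fun j => arc n 0 c δ (s j) = 1)).card : ℝ) ≤
      ((Finset.univ.filter (fun p : Fin N × Fin q => R ≤ (p.1 : ℕ) ∧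
        (p.1 : ℕ) + R < N ∧
          arc n 0 c δ (nn ((h ^ ((p.1 : ℕ) : ℤ)) x)) = 1)).card : ℝ) := by
    exact_mod_cast hcard
  refine le_trans ?_ hcard'
  rw [mul_assoc]
  refine mul_le_mul_of_nonneg_left ?_ (Nat.cast_nonneg _)
  have hlo' : (c : ℝ) * B ≤ (((Finset.Ico R (R + n * B)).filter
      (fun j => arc n 0 c δ (s j) = 1)).card : ℝ) + c * V := by exact_mod_cast hlo
  have hn' : (0 : ℝ) < n := by exact_mod_cast hn
  have hL' : (0 : ℝ) < L := by exact_mod_cast hL
  have hBr : ((N : ℝ) - 2 * R) / n - 1 ≤ B := by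
    have h1 : N - 2 * R < n * (B + 1) := Nat.lt_mul_div_succ _ hn
    have h2 : ((N - 2 * R : ℕ) : ℝ) < n * (B + 1) := by exact_mod_cast h1
    rw [Nat.cast_sub hN] at h2
    push_cast at h2
    rw [sub_le_iff_le_add, div_le_iff₀ hn']
    linarith only [h2]
  have hVr : (V : ℝ) ≤ N / L + 1 := by
    have h1 : (L : ℝ) * V ≤ N + L := by exact_mod_cast hV1
    have h2 : (N : ℝ) / L + 1 = (N + L) / L := by (clear * - hL; field_simp)
    rw [h2, le_div_iff₀ hL']
    linarith only [h1]
  have hc0 : (0 : ℝ) ≤ c := Nat.cast_nonneg _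
  have h3 : (c : ℝ) * (((N : ℝ) - 2 * R) / n - 1) ≤ c * B := mul_le_mul_of_nonneg_left hBr hc0
  have h4 : (c : ℝ) * V ≤ c * (N / L + 1) := mul_le_mul_of_nonneg_left hVr hc0
  linarith only [hlo', h3, h4]

end Test

end

end Vale.Agent.P093
end
end
end

section

section

section

/-!
The product of `d` two-spheres embeds into the cube of dimension `2 d + 1`, hence into powers of
any compact Hausdorff space that contains a cube; extension of the coordinates by Tietze.
-/

open Set

namespace Vale.Agent.P093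

noncomputable section

/-- recursively defined positive radius -/
def rad (v : ℕ → EuclideanSpace ℝ (Fin 3)) : ℕ → ℝ
  | 0 => 1
  | n + 1 => 1 + rad v n * v n 0 / 3

theorem coord_abs_le (v : EuclideanSpace ℝ (Fin 3)) (hv : ‖v‖ ≤ 1) (i : Fin 3) : |v i| ≤ 1 :=
  (PiLp.norm_apply_le v i).trans hv

theorem rad_mem (v : ℕ → EuclideanSpace ℝ (Fin 3)) (hv : ∀ n, ‖v n‖ ≤ 1) (n : ℕ) :
    1 / 2 ≤ rad v n ∧ rad v n ≤ 3 / 2 := by
  induction n with
  | zero => simp only [rad]; norm_num
  | succ n ih =>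
    have h := abs_le.mp (coord_abs_le (v n) (hv n) 0)
    simp only [rad]
    constructor <;> nlinarith

/-- extension by zero of a finite family -/
def extv {d : ℕ} (v : Fin d → S2) (n : ℕ) : EuclideanSpace ℝ (Fin 3) :=
  if h : n < d then (v ⟨n, h⟩ : EuclideanSpace ℝ (Fin 3)) else 0

theorem extv_norm_le {d : ℕ} (v : Fin d → S2) (n : ℕ) : ‖extv v n‖ ≤ 1 := by
  unfold extv
  split_ifs with h
  · exact (mem_sphere_zero_iff_norm.mp (v ⟨n, h⟩).2).le
  · simp only [norm_zero, zero_le_one]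

theorem extv_continuous {d : ℕ} (n : ℕ) : Continuous fun v : Fin d → S2 => extv v n := by
  unfold extv
  by_cases h : n < d
  · simp only [h, dif_pos]
    exact continuous_subtype_val.comp (continuous_apply _)
  · simp only [h, dif_neg, not_false_eq_true]
    exact continuous_const

theorem coord_continuous (i : Fin 3) : Continuous fun v : EuclideanSpace ℝ (Fin 3) => v i := by
  fun_prop

theorem rad_continuous {d : ℕ} (n : ℕ) : Continuous fun v : Fin d → S2 => rad (extv v) n := by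
  induction n with
  | zero => simp only [rad]; exact continuous_const
  | succ n ih =>
    simp only [rad]
    exact continuous_const.add ((ih.mul ((coord_continuous 0).comp (extv_continuous n))).div_const 3)

/-- raw coordinates -/
def rawc {d : ℕ} (v : Fin d → S2) : Option (Fin d × Fin 2) → ℝ
  | none => (rad (extv v) d + 2) / 4
  | some (i, e) => (rad (extv v) i * extv v i (if e = 0 then 1 else 2) + 2) / 4

theorem rawc_mem {d : ℕ} (v : Fin d → S2) (o : Option (Fin d × Fin 2)) :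
    rawc v o ∈ unitInterval := by
  have hr := fun n => rad_mem (extv v) (extv_norm_le v) n
  rcases o with _ | ⟨i, e⟩
  · have h := hr d
    simp only [rawc]
    constructor <;> linarith
  · have h := hr i
    have hc := abs_le.mp (coord_abs_le (extv v i) (extv_norm_le v i) (if e = 0 then 1 else 2))
    simp only [rawc]
    constructor
    · nlinarith only [h, hc]
    · nlinarith

theorem rawc_continuous {d : ℕ} (o : Option (Fin d × Fin 2)) :
    Continuous fun v : Fin d → S2 => rawc v o := by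
  rcases o with _ | ⟨i, e⟩
  · simp only [rawc]
    exact ((rad_continuous d).add continuous_const).div_const 4
  · simp only [rawc]
    exact (((rad_continuous _).mul ((coord_continuous _).comp (extv_continuous _))).add
      continuous_const).div_const 4

theorem vec_eq_of_smul {a b : ℝ} (ha : 0 < a) (hb : 0 < b) {u v : EuclideanSpace ℝ (Fin 3)}
    (hu : ‖u‖ = 1) (hv : ‖v‖ = 1) (h : ∀ i, a * u i = b * v i) : a = b ∧ u = v := by
  have h1 : a • u = b • v := by
    ext i
    simpa only [PiLp.smul_apply, smul_eq_mul] using h i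
  have h2 : a = b := by
    have := congrArg norm h1
    rw [norm_smul, norm_smul, hu, hv, mul_one, mul_one, Real.norm_of_nonneg ha.le,
      Real.norm_of_nonneg hb.le] at this
    exact this
  refine ⟨h2, ?_⟩
  rw [h2] at h1
  exact smul_right_injective _ hb.ne' h1

theorem rawc_injective {d : ℕ} {v w : Fin d → S2} (h : ∀ o, rawc v o = rawc w o) : v = w := by
  have hr := fun n => rad_mem (extv v) (extv_norm_le v) n
  have hr' := fun n => rad_mem (extv w) (extv_norm_le w) n
  have key : ∀ k, k ≤ d → rad (extv v) (d - k) = rad (extv w) (d - k) ∧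
      ∀ n, d - k ≤ n → n < d → extv v n = extv w n := by
    intro k
    induction k with
    | zero =>
      intro _
      refine ⟨?_, fun n h1 h2 => absurd h2 (by omega)⟩
      have := h none
      simp only [rawc] at this
      simp only [Nat.sub_zero]
      linarith only [this]
    | succ k ih =>
      intro hk
      obtain ⟨h1, h2⟩ := ih (by omega)
      set m := d - (k + 1) with hm
      have hm1 : d - k = m + 1 := by omega
      have hmd : m < d := by omega
      rw [hm1] at h1 h2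
      simp only [rad] at h1
      have e0 : rad (extv v) m * extv v m 0 = rad (extv w) m * extv w m 0 := by linarith only [h1]
      have e1 : rad (extv v) m * extv v m 1 = rad (extv w) m * extv w m 1 := by
        have := h (some (⟨m, hmd⟩, 0))
        simp only [rawc, if_true] at this
        linarith only [this]
      have e2 : rad (extv v) m * extv v m 2 = rad (extv w) m * extv w m 2 := by
        have := h (some (⟨m, hmd⟩, 1))
        simp only [rawc, one_ne_zero, if_false] at this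
        linarith only [this]
      have hn : ∀ u : Fin d → S2, ‖extv u m‖ = 1 := by
        intro u
        unfold extv
        rw [dif_pos hmd]
        exact mem_sphere_zero_iff_norm.mp (u ⟨m, hmd⟩).2
      have hp : 0 < rad (extv v) m := by linarith only [(hr m).1]
      have hp' : 0 < rad (extv w) m := by linarith only [(hr' m).1]
      obtain ⟨h3, h4⟩ := vec_eq_of_smul hp hp'
        (hn v) (hn w) (fun i => by fin_cases i <;> assumption)
      refine ⟨h3, fun n hn1 hn2 => ?_⟩
      by_cases hnm : n = m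
      · rw [hnm]; exact h4
      · exact h2 n (by omega) hn2
  obtain ⟨_, h2⟩ := key d le_rfl
  funext i
  have := h2 i (by omega) i.2
  unfold extv at this
  rw [dif_pos i.2, dif_pos i.2] at this
  exact Subtype.ext this

/-- the embedding of a product of spheres in a cube -/
def sphereCube {d : ℕ} (v : Fin d → S2) : Option (Fin d × Fin 2) → unitInterval :=
  fun o => ⟨rawc v o, rawc_mem v o⟩

theorem sphereCube_continuous {d : ℕ} : Continuous (sphereCube (d := d)) :=
  continuous_pi fun o => (rawc_continuous o).subtype_mk _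

theorem sphereCube_injective {d : ℕ} : Function.Injective (sphereCube (d := d)) := by
  intro v w h
  apply rawc_injective
  intro o
  exact congrArg Subtype.val (congrFun h o)

/-- **Embedding of products of spheres in powers of `K`, with extended coordinates.** -/
theorem exists_sphere_coordinates {K : Type*} [TopologicalSpace K] [CompactSpace K] [T2Space K]
    {q G d : ℕ} {j : (Fin q → unitInterval) → K} (hj : Continuous j)
    (hji : Function.Injective j) (hd : 2 * d + 1 ≤ G * q) :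
    ∃ (ι : (Fin d → S2) → Fin G → K) (E : (Fin G → K) → Fin d → EuclideanSpace ℝ (Fin 3)),
      Continuous ι ∧ Continuous E ∧ (∀ v i, E (ι v) i = v i) ∧ ∀ y i, ‖E y i‖ ≤ 1 := by
  classical
  have hcard : Fintype.card (Option (Fin d × Fin 2)) ≤ Fintype.card (Fin G × Fin q) := by
    simp only [Fintype.card_option, Fintype.card_prod, Fintype.card_fin]
    omega
  obtain ⟨e⟩ := Function.Embedding.nonempty_of_card_le hcard
  let π : Fin G × Fin q → Option (Fin d × Fin 2) := Function.invFun e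
  have hπ : Function.Surjective π := Function.invFun_surjective e.injective
  let ι : (Fin d → S2) → Fin G → K := fun v a => j fun b => sphereCube v (π (a, b))
  have hι : Continuous ι := by
    apply continuous_pi
    intro a
    apply hj.comp
    apply continuous_pi
    intro b
    exact (continuous_apply _).comp sphereCube_continuous
  have hιi : Function.Injective ι := by
    intro v w h
    apply sphereCube_injective
    funext o
    obtain ⟨⟨a, b⟩, hab⟩ := hπ o
    have h1 := congrFun (hji (congrFun h a)) b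
    rw [hab] at h1
    exact h1
  have hιe : Topology.IsClosedEmbedding ι := hι.isClosedEmbedding hιi
  have : TietzeExtension (Metric.closedBall (0 : EuclideanSpace ℝ (Fin 3)) 1) :=
    Set.instTietzeExtensionUnitClosedBall (𝕜 := ℝ)
  let f : C(Fin d → S2, Fin d → Metric.closedBall (0 : EuclideanSpace ℝ (Fin 3)) 1) :=
    ⟨fun v i => ⟨v i, Metric.sphere_subset_closedBall (v i).2⟩, by
      apply continuous_pi
      intro i
      exact (continuous_subtype_val.comp (continuous_apply i)).subtype_mk _⟩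
  obtain ⟨F, hF⟩ := ContinuousMap.exists_extension' hιe f
  refine ⟨ι, fun y i => F y i, hι, ?_, ?_, ?_⟩
  · apply continuous_pi
    intro i
    exact continuous_subtype_val.comp ((continuous_apply i).comp F.continuous)
  · intro v i
    have := congrFun hF v
    exact congrArg Subtype.val (congrFun this i)
  · intro y i
    exact mem_closedBall_zero_iff.mp (F y i).2

end

end Vale.Agent.P093
end
end
end

section

section

section

/-!
Sphere coordinates adapted to visit patterns.
-/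

open Set Topology

namespace Vale.Agent.P093

noncomputable section

/-- scaled copies of the cube around a point -/
def scaleCube {q : ℕ} (ε : unitInterval) (p y : Fin q → unitInterval) : Fin q → unitInterval :=
  fun i => ⟨(1 - (ε : ℝ)) * p i + ε * y i, by
    have h1 := ε.2
    have h2 := (p i).2
    have h3 := (y i).2
    have e1 : 0 ≤ (1 - (ε : ℝ)) := by linarith [h1.2]
    constructor
    · have := mul_nonneg e1 h2.1
      have := mul_nonneg h1.1 h3.1
      linarith
    · have := mul_le_mul_of_nonneg_left h2.2 e1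
      have := mul_le_mul_of_nonneg_left h3.2 h1.1
      linarith⟩

theorem scaleCube_continuous {q : ℕ} (ε : unitInterval) (p : Fin q → unitInterval) :
    Continuous (scaleCube ε p) := by
  unfold scaleCube
  fun_prop

theorem scaleCube_injective {q : ℕ} {ε : unitInterval} (hε : 0 < (ε : ℝ))
    (p : Fin q → unitInterval) : Function.Injective (scaleCube ε p) := by
  intro y z hyz
  funext i
  have h1 := congrArg Subtype.val (congrFun hyz i)
  simp only [scaleCube] at h1
  apply Subtype.ext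
  have h2 : (ε : ℝ) * y i = ε * z i := by linarith only [h1]
  exact mul_left_cancel₀ hε.ne' h2

theorem scaleCube_dist {q : ℕ} (ε : unitInterval) (p y : Fin q → unitInterval) :
    dist (scaleCube ε p y) p ≤ ε := by
  rw [dist_pi_le_iff ε.2.1]
  intro i
  rw [Subtype.dist_eq, Real.dist_eq]
  have h1 : (1 - (ε : ℝ)) * p i + ε * y i - p i = ε * (y i - p i) := by ring
  change |(1 - (ε : ℝ)) * p i + ε * y i - p i| ≤ ε
  rw [h1, abs_mul, abs_of_nonneg ε.2.1]
  have h2 : |(y i : ℝ) - p i| ≤ 1 := by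
    rw [abs_le]
    have h2 := (p i).2
    have h3 := (y i).2
    constructor
    · linarith [h2.2, h3.1]
    · linarith [h2.1, h3.2]
  calc (ε : ℝ) * |(y i : ℝ) - p i| ≤ ε * 1 := mul_le_mul_of_nonneg_left h2 ε.2.1
    _ = ε := mul_one _

/-- small cubes inside neighbourhoods -/
theorem exists_small_cube {q : ℕ} (p : Fin q → unitInterval) {D : Set (Fin q → unitInterval)}
    (hD : D ∈ 𝓝 p) : ∃ s : (Fin q → unitInterval) → (Fin q → unitInterval),
      Continuous s ∧ Function.Injective s ∧ ∀ y, s y ∈ D := by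
  obtain ⟨r, hr, hrD⟩ := Metric.mem_nhds_iff.1 hD
  let ε : unitInterval := ⟨min (r / 2) 1, by
    constructor
    · exact le_min (by positivity) zero_le_one
    · exact min_le_right _ _⟩
  have hε : 0 < (ε : ℝ) := lt_min (by positivity) one_pos
  refine ⟨scaleCube ε p, scaleCube_continuous ε p, scaleCube_injective hε p, fun y => hrD ?_⟩
  rw [Metric.mem_ball]
  refine (scaleCube_dist ε p y).trans_lt ?_
  have : (ε : ℝ) ≤ r / 2 := min_le_left _ _
  linarith only [hε, this]

/-- spheres inside a power of the cube, indexed by a finite set -/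
theorem exists_sphere_power (q n : ℕ) (S : Finset (Fin n)) :
    ∃ κ : (Fin (kk q S.card) → S2) → Fin n → (Fin q → unitInterval), Continuous κ ∧
      ∀ v w, (∀ i ∈ S, κ v i = κ w i) → v = w := by
  classical
  by_cases h0 : q * S.card = 0
  · refine ⟨fun _ _ _ => 0, continuous_const, fun v w _ => ?_⟩
    have : kk q S.card = 0 := by simp only [kk, h0, zero_tsub, Nat.zero_div]
    funext i
    exact absurd i.2 (by omega)
  · have hcard : Fintype.card (Option (Fin (kk q S.card) × Fin 2)) ≤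
        Fintype.card (S × Fin q) := by
      simp only [Fintype.card_option, Fintype.card_prod, Fintype.card_fin, Fintype.card_coe]
      unfold kk
      have : 1 ≤ q * S.card := Nat.one_le_iff_ne_zero.2 h0
      rw [mul_comm S.card q]
      omega
    obtain ⟨e⟩ := Function.Embedding.nonempty_of_card_le hcard
    let π : S × Fin q → Option (Fin (kk q S.card) × Fin 2) := Function.invFun e
    have hπ : Function.Surjective π := Function.invFun_surjective e.injective
    refine ⟨fun v i b => if h : i ∈ S then sphereCube v (π (⟨i, h⟩, b)) else 0, ?_, ?_⟩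
    · apply continuous_pi
      intro i
      apply continuous_pi
      intro b
      by_cases h : i ∈ S
      · simp only [h, dif_pos]
        exact (continuous_apply _).comp sphereCube_continuous
      · simp only [h, dif_neg, not_false_eq_true]
        exact continuous_const
    · intro v w hvw
      apply sphereCube_injective
      funext o
      obtain ⟨⟨⟨i, hi⟩, b⟩, hab⟩ := hπ o
      have h1 := congrFun (hvw i hi) b
      simp only [hi, dif_pos] at h1
      rw [hab] at h1
      exact h1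

theorem exists_pattern_coordinates {K : Type*} [TopologicalSpace K] [CompactSpace K] [T2Space K]
    {q : ℕ} {e : (Fin q → unitInterval) → K} (he : Continuous e) (hei : Function.Injective e)
    (p : Fin q → unitInterval) {O : Set K} (hO : IsOpen O) (hp : e p ∈ O)
    {D : Set (Fin q → unitInterval)} (hD : D ∈ nhds p) (n : ℕ) :
    ∃ (ι : (S : Finset (Fin n)) → (Fin (kk q S.card) → S2) → Fin n → (Fin q → unitInterval))
      (E : (Fin n → K) → Fin (kk q n) → EuclideanSpace ℝ (Fin 3)),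
      (∀ S, Continuous (ι S)) ∧ (∀ S v i, ι S v i ∈ D) ∧ Continuous E ∧ (∀ y l, ‖E y l‖ ≤ 1) ∧
      ∀ (S : Finset (Fin n)) (v : Fin (kk q S.card) → S2) (x : Fin n → K),
        (∀ i ∈ S, x i = e (ι S v i)) → (∀ i ∉ S, x i ∉ O) → ∀ l : Fin (kk q n),
          E x l = if h : (l : ℕ) < kk q S.card then
            (v ⟨l, h⟩ : EuclideanSpace ℝ (Fin 3)) else north := by
  classical
  have hD' : D ∩ e ⁻¹' O ∈ 𝓝 p := Filter.inter_mem hD (he.continuousAt.preimage_mem_nhds
    (hO.mem_nhds hp))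
  obtain ⟨s, hs, hsi, hsD⟩ := exists_small_cube p hD'
  choose κ hκ hκi using fun S : Finset (Fin n) => exists_sphere_power q n S
  let ι : (S : Finset (Fin n)) → (Fin (kk q S.card) → S2) → Fin n → (Fin q → unitInterval) :=
    fun S v i => s (κ S v i)
  have hι : ∀ S, Continuous (ι S) := fun S =>
    continuous_pi fun i => hs.comp ((continuous_apply i).comp (hκ S))
  have hιD : ∀ S v i, ι S v i ∈ D ∩ e ⁻¹' O := fun S v i => hsD _
  let T : Type _ := Σ S : Finset (Fin n),
    (Fin (kk q S.card) → S2) × ({i : Fin n // i ∉ S} → {x : K // x ∉ O})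
  have hcO : CompactSpace {x : K // x ∉ O} :=
    isCompact_iff_compactSpace.1 (hO.isClosed_compl.isCompact (X := K))
  let F : T → Fin n → K := fun t i =>
    if h : i ∈ t.1 then e (ι t.1 t.2.1 i) else (t.2.2 ⟨i, h⟩ : K)
  have hF : Continuous F := by
    refine continuous_sigma fun S => ?_
    apply continuous_pi
    intro i
    by_cases h : i ∈ S
    · simp only [F, h, dif_pos]
      exact he.comp ((continuous_apply i).comp ((hι S).comp continuous_fst))
    · simp only [F, h, dif_neg, not_false_eq_true]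
      exact continuous_subtype_val.comp ((continuous_apply
        (⟨i, h⟩ : {i : Fin n // i ∉ S})).comp continuous_snd)
  have hFi : Function.Injective F := by
    rintro ⟨S, v, x⟩ ⟨S', v', x'⟩ h
    have hmem : ∀ (t : T) (i : Fin n), i ∈ t.1 ↔ F t i ∈ O := by
      intro t i
      by_cases hi : i ∈ t.1
      · simp only [F, hi, dif_pos, true_iff]
        exact (hιD t.1 t.2.1 i).2
      · simp only [F, hi, dif_neg, not_false_eq_true, false_iff]
        exact (t.2.2 ⟨i, hi⟩).2
    have hSS : S = S' := by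
      ext i
      rw [hmem ⟨S, v, x⟩ i, hmem ⟨S', v', x'⟩ i, h]
    subst hSS
    have hv : v = v' := by
      apply hκi S
      intro i hi
      have h1 := congrFun h i
      simp only [F, hi, dif_pos] at h1
      exact hsi (hei h1)
    subst hv
    have hx : x = x' := by
      funext i
      have h1 := congrFun h i
      simp only [F, i.2, dif_neg, not_false_eq_true] at h1
      exact Subtype.ext h1
    subst hx
    rfl
  have hFe : Topology.IsClosedEmbedding F := hF.isClosedEmbedding hFi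
  have hnorth : ‖north‖ = 1 := by
    rw [EuclideanSpace.norm_eq]
    simp only [north, Real.norm_eq_abs, sq_abs, Fin.sum_univ_three, Fin.isValue, Matrix.cons_val_zero, ne_eq, OfNat.ofNat_ne_zero, not_false_eq_true, zero_pow, Matrix.cons_val_one, add_zero, Matrix.cons_val, one_pow, zero_add, Real.sqrt_one]
  have : TietzeExtension (Metric.closedBall (0 : EuclideanSpace ℝ (Fin 3)) 1) :=
    Set.instTietzeExtensionUnitClosedBall (𝕜 := ℝ)
  let f₀ : T → Fin (kk q n) → Metric.closedBall (0 : EuclideanSpace ℝ (Fin 3)) 1 := fun t l =>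
    if h : (l : ℕ) < kk q t.1.card then
      ⟨t.2.1 ⟨l, h⟩, Metric.sphere_subset_closedBall (t.2.1 ⟨l, h⟩).2⟩
    else ⟨north, by rw [mem_closedBall_zero_iff, hnorth]⟩
  have hf₀ : Continuous f₀ := by
    refine continuous_sigma fun S => ?_
    apply continuous_pi
    intro l
    by_cases h : (l : ℕ) < kk q S.card
    · simp only [f₀, h, dif_pos]
      exact (continuous_subtype_val.comp ((continuous_apply _).comp continuous_fst)).subtype_mk _
    · simp only [f₀, h, dif_neg, not_false_eq_true]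
      exact continuous_const
  obtain ⟨Φ, hΦ⟩ := ContinuousMap.exists_extension' hFe ⟨f₀, hf₀⟩
  refine ⟨ι, fun y l => Φ y l, hι, fun S v i => (hιD S v i).1, ?_, ?_, ?_⟩
  · apply continuous_pi
    intro l
    exact continuous_subtype_val.comp ((continuous_apply l).comp Φ.continuous)
  · intro y l
    exact mem_closedBall_zero_iff.mp (Φ y l).2
  · intro S v x hxS hxO l
    let t : T := ⟨S, v, fun i => ⟨x i, hxO i i.2⟩⟩
    have hFt : F t = x := by
      funext i
      by_cases hi : i ∈ S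
      · simp only [F, t, hi, dif_pos]
        exact (hxS i hi).symm
      · simp only [F, t, hi, dif_neg, not_false_eq_true]
    have h1 : (Φ (F t)) l = f₀ t l := congrFun (congrFun hΦ t) l
    rw [hFt] at h1
    change ((Φ x l : Metric.closedBall (0 : EuclideanSpace ℝ (Fin 3)) 1) :
      EuclideanSpace ℝ (Fin 3)) = _
    rw [h1]
    by_cases h : (l : ℕ) < kk q S.card
    · simp only [f₀, t, h, dif_pos]
    · simp only [f₀, t, h, dif_neg, not_false_eq_true]

end

end Vale.Agent.P093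
end
end
end

section

section

section
open Filter Topology Set
open scoped ComplexOrder
namespace Vale.Agent.P093

/-- The data on a dynamical system which exclude the comparison bound `r`. -/
def CritData {X : Type*} [TopologicalSpace X] (h : X ≃ₜ X) (r : ℝ) : Prop :=
  ∃ (I : Type) (_ : Fintype I) (_ : DecidableEq I) (n : ℕ) (g G : Fin n → C(X, ℝ))
    (b : X → Matrix I I ℂ) (r' : ℝ) (N₀ : ℕ), Continuous b ∧ 0 < N₀ ∧ r < r' ∧
    (∀ l x, 0 ≤ g l x) ∧ (∀ l x, g l x ≤ 1) ∧ (∀ l x, 0 ≤ G l x) ∧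
    (∀ l x, g l x ≠ 0 → 1 ≤ G l x) ∧
    (∀ x, (b x).PosSemidef) ∧ (∀ x, (1 - b x).PosSemidef) ∧
    (∀ x, ∑ j ∈ Finset.range N₀, ∑ l, G l ((h ^ (j : ℤ)) x) + r' * N₀ ≤
      ∑ j ∈ Finset.range N₀, (b ((h ^ (j : ℤ)) x)).trace.re) ∧
    ∀ R : ℕ, ∃ (N : ℕ) (𝓜 𝓣 : Type) (_ : Fintype 𝓜) (_ : Fintype 𝓣)
      (ψ : (𝓜 → S2) → X) (γ : 𝓜 → Fin 2 → ℕ × I) (δ : 𝓣 → ℕ × I), Continuous ψ ∧
      (∀ l e, (γ l e).1 < N) ∧ (∀ j, (δ j).1 < N) ∧
      (∀ (v : 𝓜 → S2) (y : ℕ → I → ℂ),
        (∀ l, (hopf (v l)).mulVec (fun e => y (γ l e).1 (γ l e).2) = 0) →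
        (∀ j, y (δ j).1 (δ j).2 = 0) → ∀ i < N, (b ((h ^ (i : ℤ)) (ψ v))).mulVec (y i) = 0) ∧
      ∀ v, Fintype.card 𝓣 < (Finset.univ.filter (fun p : Fin N × Fin n => R ≤ (p.1 : ℕ) ∧
        (p.1 : ℕ) + R < N ∧ g p.2 ((h ^ ((p.1 : ℕ) : ℤ)) (ψ v)) = 1)).card

end Vale.Agent.P093
end
end
end

section

section

section
open Filter Topology Set Matrix
set_option linter.unusedSectionVars false
namespace Vale.Agent.P093

noncomputable section

/-- points of a cube with disjoint neighbourhoods of their images, inside a given open set -/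
theorem exists_points_in {K : Type*} [TopologicalSpace K] [T2Space K] {q : ℕ} (hq : 0 < q)
    {e : (Fin q → unitInterval) → K} (he : Continuous e) (hei : Function.Injective e)
    {O₀ : Set K} (hO₀ : IsOpen O₀) {y₀ : Fin q → unitInterval} (hy₀ : e y₀ ∈ O₀) (s : ℕ) :
    ∃ (p : Fin s → Fin q → unitInterval) (O : Fin s → Set K), (∀ a, IsOpen (O a)) ∧
      (∀ a, O a ⊆ O₀) ∧ (∀ a, e (p a) ∈ O a) ∧ ∀ a b, a ≠ b → Disjoint (O a) (O b) := by
  classical
  have : Nonempty (Fin q) := ⟨⟨0, hq⟩⟩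
  have hU : e ⁻¹' O₀ ∈ 𝓝 y₀ := (hO₀.preimage he).mem_nhds hy₀
  have hinf : (e ⁻¹' O₀).Infinite := infinite_of_mem_nhds y₀ hU
  let p : Fin s → Fin q → unitInterval := fun a => (hinf.natEmbedding (e ⁻¹' O₀) a : _)
  have hp : Function.Injective p := by
    intro a b hab
    have h1 := (hinf.natEmbedding (e ⁻¹' O₀)).injective (Subtype.ext hab)
    exact Fin.ext h1
  obtain ⟨U, hU, hdis⟩ := (Set.finite_range fun a => e (p a)).t2_separation
  refine ⟨p, fun a => U (e (p a)) ∩ O₀, fun a => (hU _).2.inter hO₀, fun a => inter_subset_right,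
    fun a => ⟨(hU _).1, (hinf.natEmbedding (e ⁻¹' O₀) a).2⟩, fun a b hab => ?_⟩
  exact (hdis (Set.mem_range_self a) (Set.mem_range_self b) fun h => hab (hp (hei h))).mono
    inter_subset_left inter_subset_left

end

end Vale.Agent.P093
end
end
end

section

section

section
open Filter Topology Set Matrix
set_option linter.unusedSectionVars false
namespace Vale.Agent.P093

noncomputable section

theorem pigeon' {ι α : Type*} [Fintype ι] [Nonempty ι] (T : Finset α) (f : ι → Finset α)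
    (hf : ∀ a, f a ⊆ T) (hd : ∀ a b, a ≠ b → Disjoint (f a) (f b)) :
    ∃ a, Fintype.card ι * (f a).card ≤ T.card := by
  classical
  have h1 : ∑ a, (f a).card ≤ T.card := by
    rw [← Finset.card_biUnion fun a _ b _ hab => hd a b hab]
    exact Finset.card_le_card (Finset.biUnion_subset.2 fun a _ => hf a)
  obtain ⟨a, -, ha⟩ := Finset.exists_le_of_sum_le (s := (Finset.univ : Finset ι))
    (f := fun a => Fintype.card ι * (f a).card) (g := fun _ => T.card)
    Finset.univ_nonempty (by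
      rw [← Finset.mul_sum, Finset.sum_const, Finset.card_univ, smul_eq_mul]
      exact Nat.mul_le_mul_left _ h1)
  exact ⟨a, ha⟩

section Fam

variable {X : Type*} [TopologicalSpace X] (h : X ≃ₜ X) {q : ℕ}

open scoped Classical in
/-- pairs at which a non-free coordinate may be active -/
def dirtyP (f : X → Fin q → unitInterval) (J : Finset (ℕ × Fin q))
    (Ψ : (ℕ → Fin q → unitInterval) → X) (O : Set unitInterval) (N : ℕ) :
    Finset (ℕ × Fin q) :=
  (Finset.range N ×ˢ Finset.univ).filter fun p => p ∉ J ∧ ∃ y, f ((h ^ (p.1 : ℤ)) (Ψ y)) p.2 ∈ O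

open scoped Classical in
/-- times at which a non-free coordinate may be active -/
def dirtyT (f : X → Fin q → unitInterval) (J : Finset (ℕ × Fin q))
    (Ψ : (ℕ → Fin q → unitInterval) → X) (O : Set unitInterval) (N : ℕ) : Finset ℕ :=
  (dirtyP h f J Ψ O N).image Prod.fst

open scoped Classical in
/-- test data on a window of length `N` -/
def WinR (f : X → Fin q → unitInterval) (nn : C(X, ℝ)) (ρ ε : ℝ) (s P : ℕ) (o δ : ℝ)
    (p₀ : unitInterval) (O : Set unitInterval) (N : ℕ) (J : Finset (ℕ × Fin q))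
    (Ψ : (ℕ → Fin q → unitInterval) → X) : Prop :=
  ((nonfree N J).card : ℝ) ≤ q * ((1 - ρ + ε) * N) ∧
  s * (dirtyT h f J Ψ O N).card ≤ N ∧
  P * ((Finset.range N).filter fun j : ℕ => ∃ k : ℤ,
      |nn ((h ^ (j : ℤ)) (Ψ fun _ _ => p₀)) - o - k| < 2 * δ).card ≤ N

variable {h} {f : X → Fin q → unitInterval} {w nn : C(X, ℝ)} {ρ ε κ : ℝ}
  {n c P s L : ℕ} {o δ : ℝ} {p₀ : unitInterval} {O : Set unitInterval}

theorem famR_lemma (hinc : ∀ x, |w (h x)| ≤ 1 / 2 → nn (h x) = nn x + 1)
    (hsep : ∀ x (i j : ℤ), i < j → w ((h ^ i) x) ≠ 0 → w ((h ^ j) x) ≠ 0 → (L : ℤ) ≤ j - i)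
    (hq : 0 < q) (hn : 0 < n) (hL : 0 < L)
    (hP : 0 < P) (hs : 0 < s) (hc : c ≤ n) (hκ : 0 < κ) (h1 : (1 - ρ) / 2 + κ ≤ c / n)
    (h2 : ε ≤ κ / 2) (h3 : 4 ≤ q * κ * n) (h4 : 24 * n ≤ κ * P) (h5 : 24 * (n : ℝ) ^ 2 ≤ κ * s)
    (h6 : 72 * (n : ℝ) ^ 2 ≤ κ * L) (hδ : 0 < δ)
    {D : Set unitInterval} (hp₀ : p₀ ∈ D)
    {ι : (S : Finset (Fin (n * q))) → (Fin (kk 1 S.card) → S2) → Fin (n * q) →
      (Fin 1 → unitInterval)}
    {E : (Fin (n * q) → unitInterval) → Fin (kk 1 (n * q)) → EuclideanSpace ℝ (Fin 3)}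
    (hι : ∀ S, Continuous (ι S)) (hιD : ∀ S v i, ι S v i 0 ∈ D)
    (hE : ∀ (S : Finset (Fin (n * q))) v (x : Fin (n * q) → unitInterval),
      (∀ i ∈ S, x i = ι S v i 0) →
      (∀ i ∉ S, x i ∉ O) → ∀ l : Fin (kk 1 (n * q)), E x l =
        if h : (l : ℕ) < kk 1 S.card then (v ⟨l, h⟩ : EuclideanSpace ℝ (Fin 3)) else north)
    {Λ : Type*} {NN : Λ → ℕ} {J : Λ → Finset (ℕ × Fin q)}
    {Ψ : Λ → (ℕ → Fin q → unitInterval) → X}
    (hΨ : ∀ k, Continuous (Ψ k))
    (hΨJ : ∀ k, ∀ p ∈ J k, ∀ y, f ((h ^ (p.1 : ℤ)) (Ψ k y)) p.2 = y p.1 p.2)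
    (hclose : ∀ k, ∀ i < NN k, ∀ y, (∀ j s, y j s ∈ D) →
      |nn ((h ^ (i : ℤ)) (Ψ k y)) - nn ((h ^ (i : ℤ)) (Ψ k fun _ _ => p₀))| ≤ δ)
    (hwin : ∀ N₀, ∃ k, N₀ ≤ NN k ∧ WinR h f nn ρ ε s P o δ p₀ O (NN k) (J k) (Ψ k)) (R : ℕ) :
    ∃ (N : ℕ) (𝓜 𝓣 : Type) (_ : Fintype 𝓜) (_ : Fintype 𝓣)
      (ψ : (𝓜 → S2) → X) (γ : 𝓜 → Fin 2 → ℕ × WIdx (kk 1 (n * q)))
      (δ' : 𝓣 → ℕ × WIdx (kk 1 (n * q))),
      Continuous ψ ∧ (∀ l e, (γ l e).1 < N) ∧ (∀ j, (δ' j).1 < N) ∧
      (∀ (v : 𝓜 → S2) (y : ℕ → WIdx (kk 1 (n * q)) → ℂ),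
        (∀ l, (hopf (v l)).mulVec (fun e => y (γ l e).1 (γ l e).2) = 0) →
        (∀ j, y (δ' j).1 (δ' j).2 = 0) → ∀ i < N,
          (obsElt h f (fun z => E (flat z)) nn o δ ((h ^ (i : ℤ)) (ψ v))).mulVec (y i) = 0) ∧
      ∀ v, Fintype.card 𝓣 < (Finset.univ.filter (fun p : Fin N × Fin q => R ≤ (p.1 : ℕ) ∧
        (p.1 : ℕ) + R < N ∧
          arc n 0 c δ (nn ((h ^ ((p.1 : ℕ) : ℤ)) (ψ v))) = 1)).card := by
  classical
  obtain ⟨N₀, hN₀⟩ := famR_numeric hq hn hL hP hs hc hκ h1 h2 h3 h4 h5 h6 R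
  obtain ⟨k, hN, hF, hU, hTr⟩ := hwin N₀
  set N := NN k with hNdef
  obtain ⟨hRN, hnum⟩ := hN₀ N hN
  set xb : X := Ψ k fun _ _ => p₀ with hxb
  set U := dirtyT h f (J k) (Ψ k) O N with hUdef
  let ψ : (SphR h w nn q n o δ (J k) U N xb → S2) → X := fun v => Ψ k (testR ι p₀ v)
  have hψc : Continuous ψ := (hΨ k).comp (testR_continuous hι p₀)
  refine ⟨N, SphR h w nn q n o δ (J k) U N xb, TrivR h w nn q n o δ (J k) U N xb,
    inferInstance, inferInstance, ψ, gMapR, dMapR, hψc, ?_, ?_, ?_, ?_⟩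
  · intro l e'
    exact l.1.1.2
  · rintro (t | t)
    · exact t.1.1.2
    · exact t.1.1.2
  · intro v y hy1 hy2
    refine testR_kernel (p₀ := p₀) hinc hδ hE v (ψ v) ?_ ?_ ?_ y hy1 hy2
    · intro i s hi hiJ
      exact hΨJ k (i, s) hiJ _
    · intro i s hi hiJ hiU hO
      apply hiU
      rw [hUdef, dirtyT, Finset.mem_image]
      refine ⟨(i, s), ?_, rfl⟩
      rw [dirtyP, Finset.mem_filter, Finset.mem_product]
      exact ⟨⟨Finset.mem_range.2 hi, Finset.mem_univ _⟩, hiJ, _, hO⟩
    · intro j hj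
      exact hclose k j hj _ fun i s => testR_mem hιD hp₀ v i s
  · intro v
    have hcount := gH_count (q := q) hinc hL hsep hδ hn hc (ψ v) N R hRN
    have hV := visitsH_le hL hsep xb 0 (N + n)
    rw [Nat.sub_zero, ← Finset.range_eq_Ico] at hV
    have hcard := cardR_triv (q := q) (w := w) (nn := nn) (n := n) (N := N) (o := o)
      (J := J k) (U := U) (xb := xb) hinc hδ
    rw [Nat.card_eq_fintype_card] at hcard
    have hlt := hnum _ _ _ _ _ hF hV hTr hU hcard
    have h7 := hlt.trans_le hcount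
    exact_mod_cast h7

theorem card_nonfree {J : Finset (ℕ × Fin q)} {N : ℕ} (hJ : ∀ p ∈ J, p.1 < N) :
    (nonfree N J).card + J.card = q * N := by
  classical
  have h1 : nonfree N J = (Finset.range N ×ˢ Finset.univ) \ J := by
    ext p
    rw [mem_nonfree, Finset.mem_sdiff, Finset.mem_product]
    simp only [Finset.mem_range, Finset.mem_univ, and_true]
  have h2 : J ⊆ Finset.range N ×ˢ Finset.univ := by
    intro p hp
    rw [Finset.mem_product]
    exact ⟨Finset.mem_range.2 (hJ p hp), Finset.mem_univ _⟩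
  have h3 := Finset.card_le_card h2
  rw [h1, Finset.card_sdiff_of_subset h2]
  rw [Finset.card_product, Finset.card_range, Finset.card_univ, Fintype.card_fin] at h3 ⊢
  rw [mul_comm q N]
  omega

theorem winR_choice {s P : ℕ} (hq : 0 < q) (hs : 0 < s) (hP : 0 < P) (hδ : 2 * δ ≤ 1 / (2 * P))
    (hε : 0 < ε)
    {Λ : Type*} {NN : Λ → ℕ} {J : Λ → Finset (ℕ × Fin q)}
    {Ψ : Λ → (ℕ → Fin q → unitInterval) → X}
    (hJ : ∀ k, ∀ p ∈ J k, p.1 < NN k)
    (hfree : ∀ ε > 0, ∀ N₀ : ℕ, ∃ k, N₀ ≤ NN k ∧ (q * ρ - ε) * NN k ≤ (J k).card)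
    {O₀ : Set unitInterval} (hΨO : ∀ k, ∀ p : ℕ × Fin q, p.1 < NN k → p ∉ J k →
      (∀ y, f ((h ^ (p.1 : ℤ)) (Ψ k y)) p.2 ∉ O₀) ∨
      ∃ c, ∀ y, f ((h ^ (p.1 : ℤ)) (Ψ k y)) p.2 = c)
    (pt : Fin (q * s) → unitInterval) (O : Fin (q * s) → Set unitInterval)
    (hOO : ∀ a, O a ⊆ O₀)
    (hO : ∀ a b, a ≠ b → Disjoint (O a) (O b)) :
    ∃ (a : Fin (q * s)) (b : Fin P), ∀ N₀, ∃ k, N₀ ≤ NN k ∧
      WinR h f nn ρ ε s P ((b : ℕ) / (P : ℝ)) δ (pt a) (O a) (NN k) (J k) (Ψ k) := by
  classical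
  have : Nonempty (Fin (q * s)) := ⟨⟨0, Nat.mul_pos hq hs⟩⟩
  have : Nonempty (Fin P) := ⟨⟨0, hP⟩⟩
  have hq' : (0 : ℝ) < q := by exact_mod_cast hq
  obtain ⟨⟨a, b⟩, hab⟩ := uniform_choice (ι := Fin (q * s) × Fin P)
    (fun ab N => ∃ k, NN k = N ∧ WinR h f nn ρ ε s P ((ab.2 : ℕ) / (P : ℝ)) δ (pt ab.1) (O ab.1)
      (NN k) (J k) (Ψ k)) (by
      intro N₀
      obtain ⟨k, hN, hJc⟩ := hfree (q * ε) (by positivity) N₀
      obtain ⟨a, ha⟩ := pigeon' (Finset.range (NN k) ×ˢ (Finset.univ : Finset (Fin q)))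
        (fun a : Fin (q * s) => dirtyP h f (J k) (Ψ k) (O a) (NN k))
        (fun a => Finset.filter_subset _ _) (by
          intro a b hab
          rw [Finset.disjoint_left]
          intro p hi hi'
          obtain ⟨hi1, hi2, y, hy⟩ := Finset.mem_filter.1 hi
          obtain ⟨-, -, y', hy'⟩ := Finset.mem_filter.1 hi'
          rw [Finset.mem_product] at hi1
          rcases hΨO k p (Finset.mem_range.1 hi1.1) hi2 with h7 | ⟨c, h7⟩
          · exact h7 y (hOO a hy)
          · rw [h7] at hy hy'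
            exact Set.disjoint_left.1 (hO a b hab) hy hy')
      obtain ⟨b, hb⟩ := pigeon (Finset.range (NN k))
        (fun b : Fin P => (Finset.range (NN k)).filter fun j : ℕ => ∃ m : ℤ,
          |nn ((h ^ (j : ℤ)) (Ψ k fun _ _ => pt a)) - (b : ℕ) / (P : ℝ) - m| < 2 * δ)
        (fun b => Finset.filter_subset _ _) (by
          intro b b' hbb
          rw [Finset.disjoint_left]
          intro i hi hi'
          obtain ⟨m, hm⟩ := (Finset.mem_filter.1 hi).2
          obtain ⟨m', hm'⟩ := (Finset.mem_filter.1 hi').2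
          exact offsets_disjoint hP hbb ⟨m, hm.trans_le hδ⟩ ⟨m', hm'.trans_le hδ⟩)
      rw [Fintype.card_fin, Finset.card_product, Finset.card_range, Finset.card_univ,
        Fintype.card_fin] at ha
      rw [Fintype.card_fin, Finset.card_range] at hb
      refine ⟨NN k, hN, (a, b), k, rfl, ?_, ?_, hb⟩
      · have h1 := card_nonfree (hJ k)
        have h2 : ((nonfree (NN k) (J k)).card : ℝ) + (J k).card = q * NN k := by
          exact_mod_cast h1
        have h3 : (q : ℝ) * ((1 - ρ + ε) * NN k) = q * NN k - (q * ρ - q * ε) * NN k := by ring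
        rw [h3]
        linarith only [hJc, h2]
      · have h1 : (dirtyT h f (J k) (Ψ k) (O a) (NN k)).card ≤
            (dirtyP h f (J k) (Ψ k) (O a) (NN k)).card := Finset.card_image_le
        have h2 : q * (s * (dirtyT h f (J k) (Ψ k) (O a) (NN k)).card) ≤ q * NN k := by
          calc q * (s * (dirtyT h f (J k) (Ψ k) (O a) (NN k)).card)
              = q * s * (dirtyT h f (J k) (Ψ k) (O a) (NN k)).card := by ring
            _ ≤ q * s * (dirtyP h f (J k) (Ψ k) (O a) (NN k)).card :=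
              Nat.mul_le_mul_left _ h1
            _ ≤ NN k * q := ha
            _ = q * NN k := mul_comm _ _
        exact Nat.le_of_mul_le_mul_left h2 hq)
  refine ⟨a, b, fun N₀ => ?_⟩
  obtain ⟨N, hN, k, rfl, hk⟩ := hab N₀
  exact ⟨k, hN, hk⟩

end Fam

/-- **Theorem R, data form.** -/
theorem r_critData {X : Type*} [MetricSpace X] [CompactSpace X] [Infinite X]
    {h : X ≃ₜ X} (hmin : IsMinimalHomeo h) {q : ℕ}
    {f : X → Fin q → unitInterval} (hf : Continuous f)
    {O₀ : Set unitInterval} (hO₀ : IsOpen O₀) (hne : O₀.Nonempty) {μ : ℝ}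
    {Λ : Type*} {NN : Λ → ℕ} {J : Λ → Finset (ℕ × Fin q)}
    {Ψ : Λ → (ℕ → Fin q → unitInterval) → X}
    (hJ : ∀ k, ∀ p ∈ J k, p.1 < NN k) (hΨ : ∀ k, Continuous (Ψ k))
    (hfree : ∀ ε > 0, ∀ N₀ : ℕ, ∃ k, N₀ ≤ NN k ∧ (μ - ε) * NN k ≤ (J k).card)
    (hΨJ : ∀ k, ∀ p ∈ J k, ∀ y, f ((h ^ (p.1 : ℤ)) (Ψ k y)) p.2 = y p.1 p.2)
    (hΨO : ∀ k, ∀ p : ℕ × Fin q, p.1 < NN k → p ∉ J k →
      (∀ y, f ((h ^ (p.1 : ℤ)) (Ψ k y)) p.2 ∉ O₀) ∨
      ∃ c, ∀ y, f ((h ^ (p.1 : ℤ)) (Ψ k y)) p.2 = c)
    (hequi : ∀ δ > 0, ∃ η > 0, ∀ k, ∀ i < NN k, ∀ y y' : ℕ → Fin q → unitInterval,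
      (∀ j s, dist (y j s) (y' j s) < η) →
        dist ((h ^ (i : ℤ)) (Ψ k y)) ((h ^ (i : ℤ)) (Ψ k y')) < δ)
    {r : ℝ} (hr0 : 0 ≤ r) (hr : r < μ / 2) : CritData h r := by
  classical
  -- elementary consequences
  have hq : 0 < q := by
    rcases Nat.eq_zero_or_pos q with h0 | h0
    · exfalso
      subst h0
      have hμ : 0 < μ := by linarith only [hr0, hr]
      obtain ⟨k, hN, hJc⟩ := hfree (μ / 2) (by positivity) 1
      have h1 : (J k) = ∅ := by
        rw [Finset.eq_empty_iff_forall_notMem]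
        intro p
        exact p.2.elim0
      rw [h1, Finset.card_empty, Nat.cast_zero] at hJc
      have h2 : (1 : ℝ) ≤ NN k := by exact_mod_cast hN
      nlinarith only [hr, hJc, hr0, h2]
    · exact h0
  have hq' : (0 : ℝ) < q := by exact_mod_cast hq
  set ρ : ℝ := μ / q with hρ
  have hμρ : (q : ℝ) * ρ = μ := by
    rw [hρ]
    field_simp
  have hρ0 : 0 ≤ ρ := by
    rw [hρ]
    have : 0 ≤ μ := by linarith only [hr0, hr]
    (clear * - this hq; positivity)
  have hρ1 : ρ ≤ 1 := by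
    rw [hρ, div_le_one hq']
    refine le_of_forall_pos_le_add fun ε hε => ?_
    obtain ⟨k, hN, hJc⟩ := hfree ε hε 1
    have h1 := card_nonfree (hJ k)
    have h2 : ((J k).card : ℝ) ≤ q * NN k := by
      have : (J k).card ≤ q * NN k := by omega
      exact_mod_cast this
    have h3 : (0 : ℝ) < NN k := by exact_mod_cast hN
    have h4 : (μ - ε) * NN k ≤ q * NN k := by linarith only [hJc, h2]
    have h5 := le_of_mul_le_mul_right h4 h3
    linarith only [h5]
  have hr' : r < q * ρ / 2 := by rwa [hμρ]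
  obtain ⟨κ, r', n, c, P, s, L, hκ, hn, hL, hP, hs, hc, hr', h1, h3, h4, h5, h6, hnum⟩ :=
    exists_params hq hρ0 hρ1 hr'
  obtain ⟨w, nn, hsep, hinc⟩ := exists_lind h hmin L
  obtain ⟨o₀, ho₀⟩ := hne
  set e : (Fin 1 → unitInterval) → unitInterval := fun y => y 0 with he
  have hec : Continuous e := continuous_apply 0
  have hei : Function.Injective e := by
    intro y y' hyy
    funext i
    rw [Fin.eq_zero i]
    exact hyy
  obtain ⟨pt, O, hO, hOO, hpt, hOd⟩ := exists_points_in one_pos hec hei hO₀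
    (y₀ := fun _ => o₀) ho₀ (q * s)
  set δ : ℝ := 1 / (8 * P) with hδdef
  have hP' : (0 : ℝ) < P := by exact_mod_cast hP
  have hP1 : (1 : ℝ) ≤ P := by exact_mod_cast hP
  have hδ : 0 < δ := by positivity
  have hδ1 : 4 * δ ≤ 1 := by
    rw [hδdef, mul_one_div, div_le_one (by positivity)]
    linarith only [hP1]
  have hδ2 : 2 * δ ≤ 1 / (2 * P) := by
    rw [hδdef, mul_one_div, div_le_div_iff₀ (by positivity) (by positivity)]
    linarith only []
  have hnu : UniformContinuous nn := CompactSpace.uniformContinuous_of_continuous nn.continuous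
  obtain ⟨δ', hδ', hnuδ⟩ := Metric.uniformContinuous_iff.1 hnu δ hδ
  obtain ⟨η, hη, hclose⟩ := hequi δ' hδ'
  obtain ⟨a, b, hab⟩ := winR_choice (h := h) (nn := nn) (ρ := ρ) (ε := κ / 2) hq hs hP hδ2
    (by positivity) hJ (by rwa [hμρ]) hΨO (fun a => pt a 0) O hOO hOd
  set D : Set (Fin 1 → unitInterval) := Metric.ball (pt a) η with hD
  have hDn : D ∈ 𝓝 (pt a) := Metric.ball_mem_nhds _ hη
  obtain ⟨ι, E, hι, hιD, hEc, hE1, hE⟩ := exists_pattern_coordinates hec hei (pt a) (hO a) (hpt a)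
    hDn (n * q)
  have hnc : ∀ o c δ : ℝ, Continuous fun x : X => arc n o c δ (nn x) := fun o c δ =>
    (arc_continuous n o c δ).comp nn.continuous
  have hkk : kk q n = kk 1 (n * q) := by
    unfold kk
    rw [one_mul, mul_comm]
  rw [hkk] at hnum
  refine ⟨WIdx (kk 1 (n * q)), inferInstance, inferInstance, q, fun _ => ⟨_, hnc 0 c δ⟩,
    fun _ => ⟨_, hnc (0 - δ) (c + 2 * δ) δ⟩,
    obsElt h f (fun z => E (flat z)) nn ((b : ℕ) / (P : ℝ)) δ, r', n * L,
    obsElt_continuous hf (hEc.comp flat_continuous), Nat.mul_pos hn hL, hr',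
    fun _ x => arc_nonneg _ _ _ _ _,
    fun _ x => arc_le_one _ _ _ _ _, fun _ x => arc_nonneg _ _ _ _ _, fun _ x hx => ?_,
    obsElt_posSemidef fun z l => hE1 _ l, one_sub_obsElt_posSemidef, ?_, ?_⟩
  · exact (arc_dominated hδ hx).ge
  · intro x
    exact havH_lemma hinc hL hsep hδ hδ1 hn (fun z l => hE1 _ l) hnum x
  · intro R
    refine famR_lemma (ρ := ρ) (D := Metric.ball (pt a 0) η) hinc hsep hq hn hL hP hs hc hκ h1
      le_rfl h3 h4 h5 h6 hδ (Metric.mem_ball_self hη) hι (fun S v i => ?_) hE hΨ hΨJ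
      (fun k i hi y hy => ?_) hab R
    · have h7 := hιD S v i
      rw [hD, Metric.mem_ball, dist_pi_lt_iff hη] at h7
      exact h7 0
    · have h7 := hnuδ (hclose k i hi y (fun _ _ => pt a 0) fun j s => hy j s)
      rw [Real.dist_eq] at h7
      exact h7.le

end

end Vale.Agent.P093
end
end
end

section

section

section
open Filter Topology Set
open scoped ENNReal ComplexOrder
set_option linter.unusedSectionVars false
set_option linter.unusedSimpArgs false
namespace Vale.Agent.P093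

/-- a polynomial with coefficient vector `w` vanishing at `t + 1` distinct points is zero -/
theorem vandermonde_zero {P : Type*} (S : Finset P) (ζ : P → ℂ) (hζ : Function.Injective ζ)
    {t : ℕ} (ht : t < S.card) (w : Fin (t + 1) → ℂ)
    (hw : ∀ p ∈ S, ∑ a : Fin (t + 1), w a * ζ p ^ (a : ℕ) = 0) : w = 0 := by
  classical
  set Q : Polynomial ℂ := ∑ a : Fin (t + 1), Polynomial.C (w a) * Polynomial.X ^ (a : ℕ) with hQ
  have hdeg : Q.natDegree ≤ t := by
    refine Polynomial.natDegree_sum_le_of_forall_le _ _ fun a _ => ?_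
    refine (Polynomial.natDegree_C_mul_X_pow_le _ _).trans ?_
    omega
  have hQ0 : Q = 0 := by
    by_contra hne
    have h1 : S.image ζ ⊆ Q.roots.toFinset := by
      intro x hx
      rw [Finset.mem_image] at hx
      obtain ⟨p, hp, rfl⟩ := hx
      rw [Multiset.mem_toFinset, Polynomial.mem_roots hne, Polynomial.IsRoot.def, hQ,
        Polynomial.eval_finsetSum]
      simpa only [Polynomial.eval_mul, Polynomial.eval_C, Polynomial.eval_pow, Polynomial.eval_X] using hw p hp
    have h2 := (Finset.card_le_card h1).trans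
      ((Multiset.toFinset_card_le _).trans (Polynomial.card_roots' _))
    rw [Finset.card_image_of_injective _ hζ] at h2
    omega
  funext a
  have h3 : Q.coeff a = w a := by
    rw [hQ, Polynomial.finsetSum_coeff]
    simp only [Polynomial.coeff_C_mul, Polynomial.coeff_X_pow]
    rw [Finset.sum_eq_single a]
    · simp
    · intro b _ hb
      have : (a : ℕ) ≠ b := fun h => hb (Fin.ext h.symm)
      simp [this]
    · simp
  rw [← h3, hQ0]
  simp

variable {X : Type*} [TopologicalSpace X] [CompactSpace X]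

theorem nc (h : X ≃ₜ X) {m n : ℕ} (β : Fin m → Fin m → C(X, ℂ)) (g : Fin n → C(X, ℝ))
    (hle : CuntzLE (diagMat h (fun l => ⟨fun x => (g l x : ℂ), by fun_prop⟩)) (fullMat h β)) :
    ∃ R : ℕ, ∀ (N M t : ℕ) (ψ : (Fin M → S2) → X), Continuous ψ →
      ∀ (B₁ : (Fin N × Fin m → ℂ) →ₗ[ℂ] (Fin M × Fin 2 → ℂ))
        (B₂ : (Fin N × Fin m → ℂ) →ₗ[ℂ] (Fin t → ℂ)),
      (∀ v u, (∀ i, (hopf (v i)).mulVec (fun e => B₁ u (i, e)) = 0) → B₂ u = 0 →
        ∀ (j : Fin N) k, ∑ k', β k k' ((h ^ ((j : ℕ) : ℤ)) (ψ v)) * u (j, k') = 0) →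
      ∃ v, (Finset.univ.filter (fun p : Fin N × Fin n => R ≤ (p.1 : ℕ) ∧ (p.1 : ℕ) + R < N ∧
        g p.2 ((h ^ ((p.1 : ℕ) : ℤ)) (ψ v)) = 1)).card ≤ t := by
  classical
  obtain ⟨R, K, hcore⟩ := core h β g hle
  refine ⟨R, fun N M t ψ hψ B₁ B₂ hB => ?_⟩
  set I : Finset ℤ := Finset.Ico (R : ℤ) (N - R) with hI
  let φ : ℝ → ℝ := fun s => max 0 (s - 3 / 4)
  have hφ : Continuous φ := by fun_prop
  let node : ℤ → Fin n → ℂ := fun j l => (j : ℂ) * n + (l : ℕ)
  -- the column number `a` of the vector `z`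
  let zc : X → Fin (t + 1) → ℤ → Fin n → ℂ := fun x a j l =>
    (φ (g l ((h ^ j) x)) : ℂ) * node j l ^ (a : ℕ)
  have hcont_h : ∀ j : ℤ, Continuous fun x : X => (h ^ j) x := fun j => (h ^ j).continuous
  have hzc : ∀ a j l, Continuous fun x => zc x a j l := by
    intro a j l
    have := (g l).continuous.comp (hcont_h j)
    (clear * - hφ hcont_h; fun_prop)
  let U : X → Matrix (Fin N × Fin m) (Fin (t + 1)) ℂ := fun x => Matrix.of fun p a =>
    ∑ l, ∑ j ∈ I, if ((p.1 : ℕ) : ℤ) ∈ Finset.Icc (j - (R:ℤ)) (j + R) then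
      K p.2 l ((p.1 : ℕ) : ℤ) j x * zc x a j l else 0
  have hU : Continuous U := by
    refine continuous_matrix fun p a => ?_
    change Continuous fun x => ∑ l, ∑ j ∈ I, if ((p.1 : ℕ) : ℤ) ∈ Finset.Icc (j - (R:ℤ)) (j + R)
      then K p.2 l ((p.1 : ℕ) : ℤ) j x * zc x a j l else 0
    refine continuous_finsetSum _ fun l _ => continuous_finsetSum _ fun j _ => ?_
    by_cases hc : ((p.1 : ℕ) : ℤ) ∈ Finset.Icc (j - (R:ℤ)) (j + R)
    · simp only [if_pos hc]
      exact ((K p.2 l ((p.1 : ℕ) : ℤ) j).continuous).mul (hzc a j l)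
    · simp only [if_neg hc]
      exact continuous_const
  let A : (Fin M → S2) → Matrix (Fin M × Fin 2 ⊕ Fin t) (Fin (t + 1)) ℂ := fun v =>
    Matrix.of fun r a => Sum.elim (B₁ (fun p => U (ψ v) p a)) (B₂ (fun p => U (ψ v) p a)) r
  have hcol : ∀ a, Continuous fun v : Fin M → S2 => (fun p => U (ψ v) p a) := by
    intro a
    refine continuous_pi fun p => ?_
    exact ((continuous_apply_apply p a).comp hU).comp hψ
  have hA : Continuous A := by
    refine continuous_matrix fun r a => ?_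
    rcases r with r | r
    · exact (continuous_apply r).comp ((LinearMap.continuous_of_finiteDimensional B₁).comp (hcol a))
    · exact (continuous_apply r).comp ((LinearMap.continuous_of_finiteDimensional B₂).comp (hcol a))
  obtain ⟨v, w, hw, h1, h2⟩ := lemmaT A hA
  refine ⟨v, ?_⟩
  by_contra hcard
  rw [not_le] at hcard
  apply hw
  -- the vector u
  set u : Fin N × Fin m → ℂ := (U (ψ v)).mulVec w with hu
  have husum : u = ∑ a, w a • (fun p => U (ψ v) p a) := by
    funext p
    rw [hu, Matrix.mulVec, Finset.sum_apply]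
    simp only [dotProduct, Pi.smul_apply, smul_eq_mul]
    exact Finset.sum_congr rfl fun a _ => mul_comm _ _
  have hB₁ : ∀ i e, (A v).mulVec w (Sum.inl (i, e)) = B₁ u (i, e) := by
    intro i e
    rw [husum, map_sum, Finset.sum_apply]
    simp only [map_smul, Pi.smul_apply, smul_eq_mul]
    simp only [Matrix.mulVec, dotProduct, A, Matrix.of_apply, Sum.elim_inl]
    exact Finset.sum_congr rfl fun a _ => mul_comm _ _
  have hB₂ : ∀ i, (A v).mulVec w (Sum.inr i) = B₂ u i := by
    intro i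
    rw [husum, map_sum, Finset.sum_apply]
    simp only [map_smul, Pi.smul_apply, smul_eq_mul]
    simp only [Matrix.mulVec, dotProduct, A, Matrix.of_apply, Sum.elim_inr]
    exact Finset.sum_congr rfl fun a _ => mul_comm _ _
  have hzero := hB v u (fun i => by
      have := h1 i
      simp_rw [hB₁] at this
      exact this) (by
      funext i
      rw [← hB₂]
      exact h2 i)
  let z : ℤ → Fin n → ℂ := fun j l => ∑ a, zc (ψ v) a j l * w a
  have hz := hcore (ψ v) I z (by
    intro j _ l hne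
    by_contra hlt
    rw [not_le] at hlt
    apply hne
    have : φ (g l ((h ^ j) (ψ v))) = 0 := by
      simp only [φ]
      exact max_eq_left (by linarith only [hlt])
    simp only [z, zc, this]
    simp) (by
    intro i κ
    by_cases hi : 0 ≤ i ∧ i < N
    · obtain ⟨i', hi'⟩ : ∃ i' : Fin N, ((i' : ℕ) : ℤ) = i :=
        ⟨⟨i.toNat, by omega⟩, by simp only [Int.ofNat_toNat, sup_eq_left]; omega⟩
      have h3 := hzero i' κ
      rw [← hi']
      refine Eq.trans ?_ h3
      refine Finset.sum_congr rfl fun κ' _ => ?_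
      congr 1
      have h5 : u (i', κ') = ∑ a, U (ψ v) (i', κ') a * w a := rfl
      rw [h5]
      simp only [U, Matrix.of_apply, Finset.sum_mul]
      conv_rhs => rw [Finset.sum_comm]
      refine Finset.sum_congr rfl fun l _ => ?_
      conv_rhs => rw [Finset.sum_comm]
      refine Finset.sum_congr rfl fun j _ => ?_
      split_ifs with h4
      · simp only [z, Finset.mul_sum]
        refine Finset.sum_congr rfl fun a _ => ?_
        ring
      · simp
    · refine Finset.sum_eq_zero fun κ' _ => ?_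
      have : ∀ l : Fin n, ∀ j ∈ I, (if i ∈ Finset.Icc (j - (R:ℤ)) (j + R) then
          K κ' l i j (ψ v) * z j l else 0) = 0 := by
        intro l j hj
        rw [if_neg]
        rw [Finset.mem_Icc]
        rw [hI, Finset.mem_Ico] at hj
        intro hc
        apply hi
        constructor <;> omega
      rw [Finset.sum_eq_zero fun l _ => Finset.sum_eq_zero fun j hj => this l j hj, mul_zero])
  refine vandermonde_zero _ (fun p : Fin N × Fin n => node (p.1 : ℕ) p.2) ?_ hcard w ?_
  · rintro ⟨j, l⟩ ⟨j', l'⟩ hjl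
    simp only [node] at hjl
    have h6 : (j : ℕ) * n + l = (j' : ℕ) * n + l' := by exact_mod_cast hjl
    have hn : 0 < n := l.pos
    have h7 : (j : ℕ) = j' := by
      have e1 : ((j : ℕ) * n + l) / n = j := by
        rw [mul_comm, Nat.mul_add_div hn, Nat.div_eq_of_lt l.2, add_zero]
      have e2 : ((j' : ℕ) * n + l') / n = j' := by
        rw [mul_comm, Nat.mul_add_div hn, Nat.div_eq_of_lt l'.2, add_zero]
      rw [← e1, ← e2, h6]
    rw [h7] at h6
    have h8 : (l : ℕ) = l' := by omega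
    exact Prod.ext (Fin.ext h7) (Fin.ext h8)
  · rintro ⟨j, l⟩ hp
    rw [Finset.mem_filter] at hp
    obtain ⟨-, hj1, hj2, hg⟩ := hp
    simp only at hj1 hj2
    have h9 := hz ((j : ℕ) : ℤ) (by rw [hI, Finset.mem_Ico]; omega) l
    have h10 : φ (g l ((h ^ ((j : ℕ) : ℤ)) (ψ v))) = 1 / 4 := by
      simp only at hg
      simp only [φ, hg]
      norm_num
    simp only [z, zc, h10] at h9
    have h11 : ∑ a : Fin (t + 1), ((1 / 4 : ℝ) : ℂ) * node ((j : ℕ) : ℤ) l ^ (a : ℕ) * w a =
        ((1 / 4 : ℝ) : ℂ) * ∑ a : Fin (t + 1), w a * node ((j : ℕ) : ℤ) l ^ (a : ℕ) := by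
      rw [Finset.mul_sum]
      refine Finset.sum_congr rfl fun a _ => ?_
      ring
    rw [h11] at h9
    rcases mul_eq_zero.1 h9 with h12 | h12
    · exfalso
      rw [Complex.ofReal_eq_zero] at h12
      norm_num at h12
    · exact h12

end Vale.Agent.P093
end
end
end

section

section

section
open Filter Topology Set
open scoped ENNReal ComplexOrder
set_option linter.unusedSectionVars false
namespace Vale.Agent.P093

variable {X : Type*} [TopologicalSpace X] [CompactSpace X]

/-- lower bound for the radius of comparison -/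
theorem le_radius (A : Type*) [CStarAlgebra A] [PartialOrder A] [StarOrderedRing A] (c : ℝ)
    (hc : ∀ r, 0 ≤ r → r < c → ¬ IsComparisonBound A r) :
    ENNReal.ofReal c ≤ radiusOfComparison A := by
  unfold radiusOfComparison
  refine le_iInf fun r => ENNReal.ofReal_le_ofReal ?_
  by_contra hlt
  exact hc r.1 r.2.1 (not_le.1 hlt) r.2

end Vale.Agent.P093
end
end
end

section

section

section

/-!
The matrix valued functions `a` and `b` on a frozen skew shift used for the lower bound of the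
radius of comparison.
-/

open Set Filter Matrix
open scoped ComplexOrder

namespace Vale.Agent.P093

noncomputable section

variable {K Ω : Type*} [TopologicalSpace K] [TopologicalSpace Ω]

/-- number of complete groups in the block -/
def ngr (g : Ω ≃ₜ Ω) (B U : Set Ω) (G : ℕ) (ω : Ω) : ℕ := cnt g B U ω / G

/-- integer part of the difference of dimensions -/
def gap (g : Ω ≃ₜ Ω) (B U : Set Ω) (G d : ℕ) (r : ℝ) (ω : Ω) : ℤ :=
  ⌊((d * ngr g B U G ω : ℕ) : ℝ) - r * (ret g B ω : ℝ)⌋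

/-- index type -/
abbrev Idx (Γ d V : ℕ) := ((Fin Γ × Fin d) × Fin 2) ⊕ Fin V

section Defs

variable {g : Ω ≃ₜ Ω} {O : Set Ω} {c : Ω → K} (B U : Set Ω) (G d Γ V : ℕ) (r : ℝ)
  (E : (Fin G → K) → Fin d → EuclideanSpace ℝ (Fin 3))

/-- the trivial projection `a` -/
def aFn (x : frozenSet g O c) : Matrix (Idx Γ d V) (Idx Γ d V) ℂ :=
  open scoped Classical in
  if x.1.2 ∈ B then
    bdiag (fun _ => 0) (fun k => if (k : ℕ) < (gap g B U G d r x.1.2).toNat then 1 else 0)
  else 0

/-- the coordinates of the group number `γ` -/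
def grp (x : frozenSet g O c) (γ : ℕ) : Fin G → K :=
  fun i => x.1.1 ((pos g U x.1.2 (γ * G + i) : ℕ) : ℤ)

/-- the positive contraction `b` -/
def bFn (x : frozenSet g O c) : Matrix (Idx Γ d V) (Idx Γ d V) ℂ :=
  open scoped Classical in
  if x.1.2 ∈ B then
    bdiag (fun o => if (o.1 : ℕ) < ngr g B U G x.1.2 then betaM (E (grp U G x o.1) o.2) else 0)
      (fun k => if (k : ℕ) < (-gap g B U G d r x.1.2).toNat then 1 else 0)
  else 0

end Defs

section Lemmas

variable {g : Ω ≃ₜ Ω} {O : Set Ω} {c : Ω → K} {B U : Set Ω} {G d Γ V H H' : ℕ} {r : ℝ}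
  {E : (Fin G → K) → Fin d → EuclideanSpace ℝ (Fin 3)}

theorem mul_add_lt_cnt {ω : Ω} {γ i : ℕ} (hγ : γ < ngr g B U G ω) (hi : i < G) :
    γ * G + i < cnt g B U ω := by
  have h1 : (γ + 1) * G ≤ cnt g B U ω := by
    calc (γ + 1) * G ≤ (cnt g B U ω / G) * G := Nat.mul_le_mul_right _ hγ
      _ ≤ cnt g B U ω := Nat.div_mul_le_self _ _
  rw [Nat.add_mul, Nat.one_mul] at h1
  omega

theorem SamePat.gap_eq {ω ω' : Ω} (hB : GoodBase g B H H') (h : SamePat g B U H' ω ω') :
    gap g B U G d r ω' = gap g B U G d r ω := by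
  unfold gap ngr
  rw [h.ret_eq hB, h.cnt_eq hB]

theorem base_continuous : Continuous fun x : frozenSet g O c => x.1.2 :=
  continuous_snd.comp continuous_subtype_val

theorem coordinate_continuous (i : ℤ) : Continuous fun x : frozenSet g O c => x.1.1 i :=
  (continuous_apply i).comp (continuous_fst.comp continuous_subtype_val)

theorem aFn_continuous (hB : GoodBase g B H H') (hU : IsClopen U) :
    Continuous (aFn (g := g) (O := O) (c := c) B U G d Γ V r) := by
  rw [continuous_iff_continuousAt]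
  intro x
  have hev : ∀ᶠ y : frozenSet g O c in nhds x, SamePat g B U H' x.1.2 y.1.2 :=
    base_continuous.continuousAt.eventually (eventually_samePat hB.clopen hU H' x.1.2)
  apply ContinuousAt.congr (f := fun _ => aFn B U G d Γ V r x) continuousAt_const
  filter_upwards [hev] with y hy
  unfold aFn
  rw [hy.gap_eq hB]
  by_cases h : x.1.2 ∈ B
  · rw [if_pos h, if_pos (hy.mem_iff.mp h)]
  · rw [if_neg h, if_neg (fun h' => h (hy.mem_iff.mpr h'))]

theorem bFn_continuous (hB : GoodBase g B H H') (hU : IsClopen U) (hE : Continuous E) :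
    Continuous (bFn (g := g) (O := O) (c := c) B U G d Γ V r E) := by
  classical
  rw [continuous_iff_continuousAt]
  intro x
  have hev : ∀ᶠ y : frozenSet g O c in nhds x, SamePat g B U H' x.1.2 y.1.2 :=
    base_continuous.continuousAt.eventually (eventually_samePat hB.clopen hU H' x.1.2)
  by_cases h : x.1.2 ∈ B
  · let F : frozenSet g O c → Matrix (Idx Γ d V) (Idx Γ d V) ℂ := fun y =>
      bdiag (fun o => if (o.1 : ℕ) < ngr g B U G x.1.2 then
        betaM (E (fun i => y.1.1 ((pos g U x.1.2 (o.1 * G + i) : ℕ) : ℤ)) o.2) else 0)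
      (fun k => if (k : ℕ) < (-gap g B U G d r x.1.2).toNat then 1 else 0)
    have hF : Continuous F := by
      apply bdiag_continuous
      · intro o
        by_cases h2 : (o.1 : ℕ) < ngr g B U G x.1.2
        · simp only [h2, if_true]
          apply betaM_continuous.comp
          apply (continuous_apply o.2).comp
          apply hE.comp
          apply continuous_pi
          intro i
          exact coordinate_continuous _
        · simp only [h2, if_false]
          exact continuous_const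
      · intro k
        exact continuous_const
    apply ContinuousAt.congr (f := F) hF.continuousAt
    filter_upwards [hev] with y hy
    unfold bFn
    rw [if_pos (hy.mem_iff.mp h), hy.gap_eq hB]
    have h3 : ngr g B U G y.1.2 = ngr g B U G x.1.2 := by
      unfold ngr; rw [hy.cnt_eq hB]
    rw [h3]
    have hN : (fun o : Fin Γ × Fin d => if (o.1 : ℕ) < ngr g B U G x.1.2 then
        betaM (E (fun i => y.1.1 ((pos g U x.1.2 (o.1 * G + i) : ℕ) : ℤ)) o.2) else 0) =
        fun o => if (o.1 : ℕ) < ngr g B U G x.1.2 then betaM (E (grp U G y o.1) o.2) else 0 := by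
      funext o
      by_cases h2 : (o.1 : ℕ) < ngr g B U G x.1.2
      · rw [if_pos h2, if_pos h2]
        have h4 : (fun i : Fin G => y.1.1 ((pos g U x.1.2 (o.1 * G + i) : ℕ) : ℤ)) =
            grp U G y o.1 := by
          funext i
          unfold grp
          rw [hy.pos_eq hB (mul_add_lt_cnt h2 i.2)]
        rw [h4]
      · rw [if_neg h2, if_neg h2]
    exact congrArg₂ bdiag hN rfl
  · apply ContinuousAt.congr (f := fun _ => 0) continuousAt_const
    filter_upwards [hev] with y hy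
    unfold bFn
    rw [if_neg (fun h' => h (hy.mem_iff.mpr h'))]

theorem bFn_posSemidef (hE : ∀ y i, ‖E y i‖ ≤ 1) (x : frozenSet g O c) :
    (bFn B U G d Γ V r E x).PosSemidef := by
  classical
  unfold bFn
  split_ifs with h
  · apply bdiag_posSemidef
    · intro o
      split_ifs
      · exact betaM_posSemidef (hE _ _)
      · exact Matrix.PosSemidef.zero
    · intro k
      split_ifs
      · exact zero_le_one
      · exact le_rfl
  · exact Matrix.PosSemidef.zero

theorem one_sub_bFn_posSemidef (x : frozenSet g O c) :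
    (1 - bFn B U G d Γ V r E x).PosSemidef := by
  classical
  unfold bFn
  split_ifs with h
  · rw [one_sub_bdiag]
    apply bdiag_posSemidef
    · intro o
      split_ifs
      · exact one_sub_betaM_posSemidef _
      · rw [sub_zero]; exact Matrix.PosSemidef.one
    · intro k
      split_ifs
      · rw [sub_self]
      · rw [sub_zero]; exact zero_le_one
  · rw [sub_zero]; exact Matrix.PosSemidef.one

theorem aFn_offdiag (x : frozenSet g O c) {i j : Idx Γ d V} (h : i ≠ j) :
    aFn B U G d Γ V r x i j = 0 := by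
  classical
  unfold aFn
  split_ifs with hB
  · rcases i with ⟨o, e⟩ | k <;> rcases j with ⟨o', e'⟩ | k'
    · rw [bdiag_ll]; simp
    · rw [bdiag_lr]
    · rw [bdiag_rl]
    · rw [bdiag_rr, if_neg]
      rintro rfl
      exact h rfl
  · rfl

theorem aFn_diag (x : frozenSet g O c) (i : Idx Γ d V) :
    aFn B U G d Γ V r x i i = 0 ∨ aFn B U G d Γ V r x i i = 1 := by
  classical
  unfold aFn
  split_ifs with hB
  · rcases i with ⟨o, e⟩ | k
    · left; rw [bdiag_ll]; simp
    · rw [bdiag_rr, if_pos rfl]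
      split_ifs
      · exact Or.inr rfl
      · exact Or.inl rfl
  · left; rfl

theorem card_filter_lt (V s : ℕ) : (Finset.univ.filter fun k : Fin V => (k : ℕ) < s).card = min s V := by
  rw [Fin.card_filter_val_lt]
  exact min_comm _ _

theorem sum_ite_fin (V s : ℕ) :
    ∑ k : Fin V, (if (k : ℕ) < s then (1 : ℂ) else 0) = ((min s V : ℕ) : ℂ) := by
  rw [Finset.sum_boole, card_filter_lt]

/-- the trace inequality -/
theorem trace_ineq (hE : ∀ y i, ‖E y i‖ ≤ 1) (hΓ : H' ≤ Γ) (hB : GoodBase g B H H')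
    (hV : ∀ ω, (-gap g B U G d r ω).toNat ≤ V) (x : frozenSet g O c) :
    (aFn B U G d Γ V r x).trace.re + r * (open scoped Classical in if x.1.2 ∈ B then (ret g B x.1.2 : ℝ) else 0) ≤
      (bFn B U G d Γ V r E x).trace.re := by
  classical
  unfold aFn bFn
  split_ifs with h
  · rw [bdiag_trace, bdiag_trace, sum_ite_fin, sum_ite_fin]
    simp only [Matrix.trace_zero, Finset.sum_const_zero, zero_add, Complex.natCast_re,
      Complex.add_re, Complex.re_sum]
    have h1 : ((d * ngr g B U G x.1.2 : ℕ) : ℝ) ≤ ∑ o : Fin Γ × Fin d,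
        (if (o.1 : ℕ) < ngr g B U G x.1.2 then betaM (E (grp U G x o.1) o.2) else 0).trace.re := by
      have h2 : ∀ o : Fin Γ × Fin d, (if (o.1 : ℕ) < ngr g B U G x.1.2 then (1 : ℝ) else 0) ≤
          (if (o.1 : ℕ) < ngr g B U G x.1.2 then betaM (E (grp U G x o.1) o.2) else 0).trace.re := by
        intro o
        split_ifs
        · rw [betaM_trace, Complex.ofReal_re]
          linarith only [hE (grp U G x o.1) o.2]
        · simp
      refine le_trans (le_of_eq ?_) (Finset.sum_le_sum fun o _ => h2 o)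
      have h3 : ngr g B U G x.1.2 ≤ Γ := by
        unfold ngr
        exact ((Nat.div_le_self _ _).trans (cnt_le_ret _)).trans ((hB.ret_le _).trans hΓ)
      have h7 : ∀ γ : Fin Γ, ∑ l : Fin d, (if ((γ, l).1 : ℕ) < ngr g B U G x.1.2 then (1 : ℝ) else 0) =
          (if (γ : ℕ) < ngr g B U G x.1.2 then (1 : ℝ) else 0) * d := by
        intro γ
        by_cases h8 : (γ : ℕ) < ngr g B U G x.1.2
        · simp only [h8, ↓reduceIte, Finset.sum_const, Finset.card_univ, Fintype.card_fin, nsmul_eq_mul, mul_one, one_mul]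
        · simp only [h8, ↓reduceIte, Finset.sum_const_zero, zero_mul]
      rw [Fintype.sum_prod_type, Finset.sum_congr rfl fun γ _ => h7 γ, ← Finset.sum_mul,
        Finset.sum_boole, card_filter_lt, min_eq_left h3]
      push_cast
      ring
    have h4 : ((min (gap g B U G d r x.1.2).toNat V : ℕ) : ℝ) -
        ((min (-gap g B U G d r x.1.2).toNat V : ℕ) : ℝ) ≤ (gap g B U G d r x.1.2 : ℝ) := by
      rw [min_eq_left (hV x.1.2)]
      have h5 : ((min (gap g B U G d r x.1.2).toNat V : ℕ) : ℤ) -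
          (((-gap g B U G d r x.1.2).toNat : ℕ) : ℤ) ≤ gap g B U G d r x.1.2 := by omega
      exact_mod_cast h5
    have h6 : (gap g B U G d r x.1.2 : ℝ) ≤
        ((d * ngr g B U G x.1.2 : ℕ) : ℝ) - r * (ret g B x.1.2 : ℝ) := Int.floor_le _
    linarith only [h1, h4, h6]
  · simp only [trace_zero, Complex.zero_re, mul_zero, add_zero, Std.le_refl]

end Lemmas

end

end Vale.Agent.P093
end
end
end

section

section

section

/-!
Test maps from products of two-spheres into a frozen skew shift.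
-/

open Set Filter Matrix

namespace Vale.Agent.P093

noncomputable section

/-- For every margin `R` there is a window `[0, N)` and a test map from a product of `M` spheres
along which the window of `b` is a sum of `M` Hopf projections and at most `t` further coordinates,
while the window of `a`, cut down to `[R, N - R)`, contains `t + 1` constant coordinates. -/
def HasTestMaps {X I : Type*} [TopologicalSpace X] [Fintype I] [DecidableEq I] (h : X ≃ₜ X)
    (a b : X → Matrix I I ℂ) : Prop :=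
  ∀ R : ℕ, ∃ (N M t : ℕ) (ψ : (Fin M → S2) → X) (α : Fin (t + 1) → ℕ × I)
    (γ : Fin M → Fin 2 → ℕ × I) (δ : Fin t → ℕ × I),
    Continuous ψ ∧ Function.Injective α ∧ (∀ j, R ≤ (α j).1 ∧ (α j).1 + R < N) ∧
    (∀ v j, a ((⇑h)^[(α j).1] (ψ v)) *ᵥ Pi.single (α j).2 1 = Pi.single (α j).2 1) ∧
    (∀ l e, (γ l e).1 < N) ∧ (∀ j, (δ j).1 < N) ∧
    ∀ (v : Fin M → S2) (y : ℕ → I → ℂ),
      (∀ l, hopf (v l) *ᵥ (fun e => y (γ l e).1 (γ l e).2) = 0) →
      (∀ j, y (δ j).1 (δ j).2 = 0) → ∀ i < N, b ((⇑h)^[i] (ψ v)) *ᵥ y i = 0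

variable {K Ω : Type*} [TopologicalSpace K] [TopologicalSpace Ω]

theorem frozen_iter (g : Ω ≃ₜ Ω) {O : Set Ω} {c : Ω → K} (p : frozenSet g O c) (j : ℕ) :
    (∀ i, ((frozenShift g O c)^[j] p).1.1 i = p.1.1 (i + j)) ∧
      ((frozenShift g O c)^[j] p).1.2 = (g ^ (j : ℤ)) p.1.2 := by
  induction j with
  | zero => simp only [Function.iterate_zero, id_eq, CharP.cast_eq_zero, add_zero, implies_true, zpow_ofNat, pow_zero, Homeomorph.one_apply, and_self]
  | succ j ih =>
    rw [Function.iterate_succ_apply']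
    constructor
    · intro i
      change ((frozenShift g O c)^[j] p).1.1 (i + 1) = _
      rw [ih.1]
      have : i + 1 + (j : ℤ) = i + ((j + 1 : ℕ) : ℤ) := by push_cast; ring
      rw [this]
    · change g ((frozenShift g O c)^[j] p).1.2 = _
      rw [ih.2]
      push_cast
      rw [add_comm, _root_.zpow_one_add]
      rfl

section Test

variable (g : Ω ≃ₜ Ω) (O B U : Set Ω) (G d Γ V : ℕ) (r : ℝ) (ω : Ω) (N R : ℕ)

/-- a slot: a group of a block starting in the window -/
def IsSlot (p : Fin N × Fin Γ) : Prop :=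
  (g ^ ((p.1 : ℕ) : ℤ)) ω ∈ B ∧ (p.2 : ℕ) < ngr g B U G ((g ^ ((p.1 : ℕ) : ℤ)) ω)

/-- the position of an element of a slot -/
def addr (p : Fin N × Fin Γ) (i : Fin G) : ℕ :=
  p.1 + pos g U ((g ^ ((p.1 : ℕ) : ℤ)) ω) (p.2 * G + i)

/-- all positions of the slot are free -/
def IsGood (p : Fin N × Fin Γ) : Prop := ∀ i : Fin G, (g ^ (addr g U G Γ ω N p i : ℤ)) ω ∉ O

/-- good slots -/
abbrev GS := {p : Fin N × Fin Γ // IsSlot g B U G Γ ω N p ∧ IsGood g O U G Γ ω N p}

/-- bad slots -/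
abbrev BS := {p : Fin N × Fin Γ // IsSlot g B U G Γ ω N p ∧ ¬ IsGood g O U G Γ ω N p}

/-- trivial coordinates of `b` in the window -/
abbrev TS := {q : Fin N × Fin V // (g ^ ((q.1 : ℕ) : ℤ)) ω ∈ B ∧
  (q.2 : ℕ) < (-gap g B U G d r ((g ^ ((q.1 : ℕ) : ℤ)) ω)).toNat}

/-- coordinates of `a` in the smaller window -/
abbrev AS := {q : Fin N × Fin V // (R ≤ (q.1 : ℕ) ∧ (q.1 : ℕ) + R < N) ∧
  (g ^ ((q.1 : ℕ) : ℤ)) ω ∈ B ∧ (q.2 : ℕ) < (gap g B U G d r ((g ^ ((q.1 : ℕ) : ℤ)) ω)).toNat}

end Test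

section Main

variable {g : Ω ≃ₜ Ω} {O B U : Set Ω} {G d Γ V H H' : ℕ} {r : ℝ} {ω : Ω} {N R : ℕ}

theorem addr_inj (p p' : Fin N × Fin Γ) (hp : IsSlot g B U G Γ ω N p)
    (hp' : IsSlot g B U G Γ ω N p') (i i' : Fin G)
    (h : addr g U G Γ ω N p i = addr g U G Γ ω N p' i') : p = p' ∧ i = i' := by
  unfold addr at h
  have h1 := mul_add_lt_cnt hp.2 i.2
  have h1' := mul_add_lt_cnt hp'.2 i'.2
  obtain ⟨h2, h3⟩ := block_disjoint hp.1 hp'.1 (pos_lt h1) (pos_lt h1') h
  have h4 : p.1 = p'.1 := Fin.ext h2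
  rw [h4] at h3 h1
  have h5 := pos_inj h1 h1' h3
  have hG : 0 < G := i.pos
  have h6 : (p.2 : ℕ) = p'.2 := by
    have e1 : ((p.2 : ℕ) * G + i) / G = p.2 := by
      rw [mul_comm, Nat.mul_add_div hG, Nat.div_eq_of_lt i.2, add_zero]
    have e2 : ((p'.2 : ℕ) * G + i') / G = p'.2 := by
      rw [mul_comm, Nat.mul_add_div hG, Nat.div_eq_of_lt i'.2, add_zero]
    rw [← e1, ← e2, h5]
  refine ⟨Prod.ext h4 (Fin.ext h6), Fin.ext ?_⟩
  rw [h6] at h5
  omega

open scoped Classical in
/-- the coordinates of the test point -/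
def testCoord (c : Ω → K) (k₀ : K) (ι : (Fin d → S2) → Fin G → K)
    (u : GS g O B U G Γ ω N → Fin d → S2) (p : ℤ) : K :=
  if h : ∃ (s : GS g O B U G Γ ω N) (i : Fin G), p = ((addr g U G Γ ω N s.1 i : ℕ) : ℤ) then
    ι (u h.choose) h.choose_spec.choose
  else if (g ^ p) ω ∈ O then c ((g ^ p) ω) else k₀

theorem testCoord_addr (c : Ω → K) (k₀ : K) (ι : (Fin d → S2) → Fin G → K)
    (u : GS g O B U G Γ ω N → Fin d → S2) (s : GS g O B U G Γ ω N) (i : Fin G) :
    testCoord c k₀ ι u ((addr g U G Γ ω N s.1 i : ℕ) : ℤ) = ι (u s) i := by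
  have h : ∃ (s' : GS g O B U G Γ ω N) (i' : Fin G),
      ((addr g U G Γ ω N s.1 i : ℕ) : ℤ) = ((addr g U G Γ ω N s'.1 i' : ℕ) : ℤ) := ⟨s, i, rfl⟩
  unfold testCoord
  rw [dif_pos h]
  have h1 := h.choose_spec.choose_spec
  obtain ⟨h2, h3⟩ := addr_inj s.1 h.choose.1 s.2.1 h.choose.2.1 i h.choose_spec.choose
    (by exact_mod_cast h1)
  have h4 : h.choose = s := (Subtype.ext h2).symm
  rw [← h3, h4]

theorem testCoord_continuous {Y : Type*} [TopologicalSpace Y] (c : Ω → K) (k₀ : K)
    {ι : (Fin d → S2) → Fin G → K} (hι : Continuous ι)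
    {u : Y → GS g O B U G Γ ω N → Fin d → S2} (hu : Continuous u) (p : ℤ) :
    Continuous fun y => testCoord c k₀ ι (u y) p := by
  unfold testCoord
  by_cases h : ∃ (s : GS g O B U G Γ ω N) (i : Fin G), p = ((addr g U G Γ ω N s.1 i : ℕ) : ℤ)
  · simp only [dif_pos h]
    exact (continuous_apply _).comp (hι.comp ((continuous_apply _).comp hu))
  · simp only [dif_neg h]
    exact continuous_const

/-- the test point -/
def testPoint (c : Ω → K) (k₀ : K) (ι : (Fin d → S2) → Fin G → K)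
    (u : GS g O B U G Γ ω N → Fin d → S2) : frozenSet g O c :=
  ⟨(testCoord c k₀ ι u, ω), by
    intro p hp
    change (g ^ p) ω ∈ O at hp
    change testCoord c k₀ ι u p = c ((g ^ p) ω)
    unfold testCoord
    rw [dif_neg, if_pos hp]
    rintro ⟨s, i, hsi⟩
    rw [hsi] at hp
    exact s.2.2 i hp⟩

theorem testPoint_continuous {Y : Type*} [TopologicalSpace Y] (c : Ω → K) (k₀ : K)
    {ι : (Fin d → S2) → Fin G → K} (hι : Continuous ι)
    {u : Y → GS g O B U G Γ ω N → Fin d → S2} (hu : Continuous u) :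
    Continuous fun y => testPoint c k₀ ι (u y) := by
  apply Continuous.subtype_mk
  apply Continuous.prodMk
  · apply continuous_pi
    intro p
    exact testCoord_continuous c k₀ hι hu p
  · exact continuous_const

theorem grp_testPoint (c : Ω → K) (k₀ : K) (ι : (Fin d → S2) → Fin G → K)
    (u : GS g O B U G Γ ω N → Fin d → S2) (s : GS g O B U G Γ ω N) :
    grp U G ((frozenShift g O c)^[(s.1.1 : ℕ)] (testPoint c k₀ ι u)) (s.1.2 : ℕ) = ι (u s) := by
  funext i
  unfold grp
  rw [(frozen_iter g _ _).1, (frozen_iter g _ _).2]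
  change testCoord c k₀ ι u _ = _
  rw [← testCoord_addr c k₀ ι u s i]
  congr 1
  unfold addr
  push_cast
  rw [add_comm]
  rfl

open scoped Classical in
theorem frozen_test {c : Ω → K} (k₀ : K) {ι : (Fin d → S2) → Fin G → K} (hι : Continuous ι)
    {E : (Fin G → K) → Fin d → EuclideanSpace ℝ (Fin 3)}
    (hE : ∀ v i, E (ι v) i = v i)
    (hcard : Nat.card ((BS g O B U G Γ ω N × Fin d × Fin 2) ⊕ TS g B U G d V r ω N) + 1 ≤
      Nat.card (AS g B U G d V r ω N R)) :
    ∃ (M t : ℕ) (ψ : (Fin M → S2) → frozenSet g O c) (α : Fin (t + 1) → ℕ × Idx Γ d V)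
    (γ : Fin M → Fin 2 → ℕ × Idx Γ d V) (δ : Fin t → ℕ × Idx Γ d V),
    Continuous ψ ∧ Function.Injective α ∧ (∀ j, R ≤ (α j).1 ∧ (α j).1 + R < N) ∧
    (∀ v j, aFn B U G d Γ V r ((frozenShift g O c)^[(α j).1] (ψ v)) *ᵥ Pi.single (α j).2 1 =
      Pi.single (α j).2 1) ∧
    (∀ l e, (γ l e).1 < N) ∧ (∀ j, (δ j).1 < N) ∧
    ∀ (v : Fin M → S2) (y : ℕ → Idx Γ d V → ℂ),
      (∀ l, hopf (v l) *ᵥ (fun e => y (γ l e).1 (γ l e).2) = 0) →
      (∀ j, y (δ j).1 (δ j).2 = 0) →
      ∀ i < N, bFn B U G d Γ V r E ((frozenShift g O c)^[i] (ψ v)) *ᵥ y i = 0 := by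
  rw [Nat.card_eq_fintype_card, Nat.card_eq_fintype_card] at hcard
  set t := Fintype.card ((BS g O B U G Γ ω N × Fin d × Fin 2) ⊕ TS g B U G d V r ω N) with ht
  let eM := Fintype.equivFin (GS g O B U G Γ ω N × Fin d)
  let eT := Fintype.equivFin ((BS g O B U G Γ ω N × Fin d × Fin 2) ⊕ TS g B U G d V r ω N)
  obtain ⟨eA⟩ : Nonempty (Fin (t + 1) ↪ AS g B U G d V r ω N R) := by
    apply Function.Embedding.nonempty_of_card_le
    rw [Fintype.card_fin]
    exact hcard
  let u : (Fin (Fintype.card (GS g O B U G Γ ω N × Fin d)) → S2) →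
      GS g O B U G Γ ω N → Fin d → S2 := fun v s l => v (eM (s, l))
  have hu : Continuous u := by
    apply continuous_pi
    intro s
    apply continuous_pi
    intro l
    exact continuous_apply _
  let δ₀ : (BS g O B U G Γ ω N × Fin d × Fin 2) ⊕ TS g B U G d V r ω N → ℕ × Idx Γ d V :=
    Sum.elim (fun s => ((s.1.1.1 : ℕ), Sum.inl ((s.1.1.2, s.2.1), s.2.2)))
      (fun q => ((q.1.1 : ℕ), Sum.inr q.1.2))
  refine ⟨Fintype.card (GS g O B U G Γ ω N × Fin d), t, fun v => testPoint c k₀ ι (u v),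
    fun j => (((eA j).1.1 : ℕ), Sum.inr (eA j).1.2),
    fun l e => (((eM.symm l).1.1.1 : ℕ), Sum.inl (((eM.symm l).1.1.2, (eM.symm l).2), e)),
    fun j => δ₀ (eT.symm j), testPoint_continuous c k₀ hι hu, ?_, ?_, ?_, ?_, ?_, ?_⟩
  · intro j j' h
    simp only [Prod.mk.injEq, Sum.inr.injEq] at h
    apply eA.injective
    exact Subtype.ext (Prod.ext (Fin.ext h.1) h.2)
  · intro j
    exact (eA j).2.1
  · intro v j
    obtain ⟨⟨⟨i, k⟩, hq⟩, hqj⟩ : ∃ q, eA j = q := ⟨_, rfl⟩
    simp only [hqj]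
    simp only at hq
    unfold aFn
    rw [(frozen_iter g _ _).2]
    change (if (g ^ ((i : ℕ) : ℤ)) ω ∈ B then _ else _) *ᵥ _ = _
    rw [if_pos hq.2.1]
    funext p
    rcases p with ⟨o, e⟩ | k'
    · rw [bdiag_mulVec_inl]
      simp
    · rw [bdiag_mulVec_inr]
      by_cases hk : k' = k
      · subst hk
        change (if (k' : ℕ) < (gap g B U G d r ((g ^ ((i : ℕ) : ℤ)) ω)).toNat then (1 : ℂ) else 0) * _ = _
        rw [if_pos hq.2.2, one_mul]
      · rw [Pi.single_eq_of_ne (by simpa using hk), mul_zero]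
  · intro l e
    exact (eM.symm l).1.1.1.2
  · intro j
    change (δ₀ (eT.symm j)).1 < N
    rcases eT.symm j with s | q
    · exact s.1.1.1.2
    · exact q.1.1.2
  · intro v y hy1 hy2 i hi
    have hy3 : ∀ z, y (δ₀ z).1 (δ₀ z).2 = 0 := by
      intro z
      have := hy2 (eT z)
      simpa using this
    have hy4 : ∀ (s : GS g O B U G Γ ω N) (l : Fin d), hopf (u v s l) *ᵥ
        (fun e => y (s.1.1 : ℕ) (Sum.inl ((s.1.2, l), e))) = 0 := by
      intro s l
      have := hy1 (eM (s, l))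
      simpa only [mulVec_fin_two, Nat.succ_eq_add_one, Nat.reduceAdd, Fin.isValue, cons_eq_zero_iff, zero_empty,     and_true, Equiv.symm_apply_apply] using this
    unfold bFn
    rw [(frozen_iter g _ _).2]
    change (if (g ^ (i : ℤ)) ω ∈ B then _ else _) *ᵥ _ = _
    by_cases hiB : (g ^ (i : ℤ)) ω ∈ B
    · rw [if_pos hiB]
      funext p
      rcases p with ⟨⟨γ, l⟩, e⟩ | k
      · rw [bdiag_mulVec_inl]
        change ((if (γ : ℕ) < ngr g B U G ((g ^ (i : ℤ)) ω) then _ else _) *ᵥ _) e = 0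
        by_cases hγ : (γ : ℕ) < ngr g B U G ((g ^ (i : ℤ)) ω)
        · rw [if_pos hγ]
          have hslot : IsSlot g B U G Γ ω N (⟨i, hi⟩, γ) := ⟨hiB, hγ⟩
          by_cases hgood : IsGood g O U G Γ ω N (⟨i, hi⟩, γ)
          · let s : GS g O B U G Γ ω N := ⟨(⟨i, hi⟩, γ), hslot, hgood⟩
            have h1 : grp U G ((frozenShift g O c)^[i] (testPoint c k₀ ι (u v))) (γ : ℕ) =
                ι (u v s) := grp_testPoint c k₀ ι (u v) s
            rw [h1, hE, betaM_sphere (mem_sphere_zero_iff_norm.mp (u v s l).2)]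
            exact congrFun (hy4 s l) e
          · let s : BS g O B U G Γ ω N := ⟨(⟨i, hi⟩, γ), hslot, hgood⟩
            have h1 : (fun e' : Fin 2 => y i (Sum.inl ((γ, l), e'))) = 0 := by
              funext e'
              exact hy3 (Sum.inl (s, l, e'))
            rw [h1, Matrix.mulVec_zero]
            rfl
        · rw [if_neg hγ, Matrix.zero_mulVec]
          rfl
      · rw [bdiag_mulVec_inr]
        change (if (k : ℕ) < (-gap g B U G d r ((g ^ (i : ℤ)) ω)).toNat then (1 : ℂ) else 0) * _ = 0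
        by_cases hk : (k : ℕ) < (-gap g B U G d r ((g ^ (i : ℤ)) ω)).toNat
        · rw [if_pos hk, one_mul]
          exact hy3 (Sum.inr ⟨(⟨i, hi⟩, k), hiB, hk⟩)
        · rw [if_neg hk, zero_mul]
    · rw [if_neg hiB, Matrix.zero_mulVec]

end Main

end

end Vale.Agent.P093
end
end
end

section

section

section

/-!
Counting slots and coordinates in windows.
-/

open Set Filter

namespace Vale.Agent.P093

noncomputable section

variable {K Ω : Type*} [TopologicalSpace K] [TopologicalSpace Ω]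
variable {g : Ω ≃ₜ Ω} {O B U : Set Ω} {G d Γ V H H' : ℕ} {r : ℝ} {ω : Ω} {N R : ℕ}

open scoped Classical in
/-- the numbers below `N` with property `A` -/
def fset (A : ℕ → Prop) (N : ℕ) : Finset ℕ := (Finset.range N).filter A

theorem mem_fset {A : ℕ → Prop} {i : ℕ} : i ∈ fset A N ↔ i < N ∧ A i := by
  classical
  unfold fset
  rw [Finset.mem_filter, Finset.mem_range]

/-- visits to `B` in the window -/
def wB (g : Ω ≃ₜ Ω) (B : Set Ω) (ω : Ω) (N : ℕ) : Finset ℕ :=
  fset (fun i : ℕ => (g ^ (i : ℤ)) ω ∈ B) N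

theorem mem_wB {i : ℕ} : i ∈ wB g B ω N ↔ i < N ∧ (g ^ (i : ℤ)) ω ∈ B := mem_fset

theorem sum_ret_le (hB : GoodBase g B H H') :
    ∑ i ∈ wB g B ω N, ret g B ((g ^ (i : ℤ)) ω) ≤ N + H' := by
  classical
  have h1 : ((wB g B ω N).sigma fun i => Finset.range (ret g B ((g ^ (i : ℤ)) ω))).card ≤
      (Finset.range (N + H')).card := by
    apply Finset.card_le_card_of_injOn (fun s => s.1 + s.2)
    · intro s hs
      rw [Finset.mem_coe, Finset.mem_sigma, mem_wB, Finset.mem_range] at hs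
      rw [Finset.mem_coe, Finset.mem_range]
      have := hB.ret_le ((g ^ (s.1 : ℤ)) ω)
      have h2 := hs.1.1
      have h3 := hs.2
      change s.1 + s.2 < N + H'
      omega
    · intro s hs s' hs' h
      rw [Finset.mem_coe, Finset.mem_sigma, mem_wB, Finset.mem_range] at hs hs'
      obtain ⟨h1, h2⟩ := block_disjoint hs.1.2 hs'.1.2 hs.2 hs'.2 h
      exact Sigma.ext h1 (heq_of_eq h2)
  rw [Finset.card_sigma, Finset.card_range] at h1
  simpa only [zpow_natCast, ge_iff_le, Finset.card_range] using h1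

theorem card_wB_mul_le (hB : GoodBase g B H H') : (wB g B ω N).card * H ≤ N + H' := by
  refine le_trans ?_ (sum_ret_le (ω := ω) (N := N) hB)
  rw [← smul_eq_mul]
  apply Finset.card_nsmul_le_sum
  intro i hi
  exact hB.le_ret (mem_wB.mp hi).2

theorem visits_le_sum_cnt (hB : GoodBase g B H H') :
    visits g U N ω ≤ ∑ i ∈ wB g B ω N, cnt g B U ((g ^ (i : ℤ)) ω) + H' := by
  classical
  rw [visits_eq_card]
  let S : Finset ((_ : ℕ) × ℕ) := (wB g B ω N).sigma fun i =>
    vset g U (ret g B ((g ^ (i : ℤ)) ω)) ((g ^ (i : ℤ)) ω)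
  have h1 : vset g U N ω ⊆
      S.image (fun s => s.1 + s.2) ∪ Finset.range H' := by
    intro p hp
    rw [mem_vset] at hp
    rw [Finset.mem_union]
    by_cases h : p < H'
    · right
      exact Finset.mem_range.mpr h
    · left
      push Not at h
      obtain ⟨i, j, hi, hj, hij⟩ := hB.exists_block ω h
      rw [Finset.mem_image]
      refine ⟨⟨i, j⟩, ?_, hij⟩
      rw [Finset.mem_sigma, mem_wB, mem_vset]
      have hiN : i < N := by omega
      refine ⟨⟨hiN, hi⟩, hj, ?_⟩
      rw [zpow_natCast_add, hij]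
      exact hp.2
  calc _ ≤ (S.image (fun s => s.1 + s.2) ∪ Finset.range H').card := Finset.card_le_card h1
    _ ≤ (S.image (fun s => s.1 + s.2)).card + (Finset.range H').card := Finset.card_union_le _ _
    _ ≤ S.card + H' := by
      rw [Finset.card_range]
      exact Nat.add_le_add_right Finset.card_image_le _
    _ = _ := by
      rw [Finset.card_sigma]
      rfl

open scoped Classical in
theorem card_BS_le (hB : GoodBase g B H H') :
    Nat.card (BS g O B U G Γ ω N) ≤ visits g (U ∩ O) (N + H') ω := by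
  have hex : ∀ s : BS g O B U G Γ ω N, ∃ i : Fin G, (g ^ (addr g U G Γ ω N s.1 i : ℤ)) ω ∈ O := by
    intro s
    have := s.2.2
    unfold IsGood at this
    push Not at this
    exact this
  choose f hf using hex
  rw [visits_eq_card, Nat.card_eq_fintype_card, ← Finset.card_univ]
  apply Finset.card_le_card_of_injOn (fun s => addr g U G Γ ω N s.1 (f s))
  · intro s _
    rw [Finset.mem_coe, mem_vset]
    have h1 := mul_add_lt_cnt s.2.1.2 (f s).2
    have h2 := pos_lt h1
    have h3 := pos_mem h1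
    have h4 := hB.ret_le ((g ^ ((s.1.1 : ℕ) : ℤ)) ω)
    have h5 := s.1.1.2
    refine ⟨?_, ?_, hf s⟩
    · change (s.1.1 : ℕ) + _ < _
      omega
    · change (g ^ (((s.1.1 : ℕ) + _ : ℕ) : ℤ)) ω ∈ U
      rw [← zpow_natCast_add]
      exact h3
  · intro s _ s' _ h
    exact Subtype.ext (addr_inj s.1 s'.1 s.2.1 s'.2.1 _ _ h).1

theorem visits_inter_add (hOU : Oᶜ ⊆ U) (n : ℕ) (ω : Ω) :
    visits g (U ∩ O) n ω + visits g Oᶜ n ω = visits g U n ω := by
  classical
  rw [visits_eq_card, visits_eq_card, visits_eq_card, ← Finset.card_union_of_disjoint]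
  · congr 1
    ext j
    simp only [Finset.mem_union, mem_vset, Set.mem_inter_iff, Set.mem_compl_iff]
    constructor
    · rintro (⟨h1, h2, _⟩ | ⟨h1, h2⟩)
      · exact ⟨h1, h2⟩
      · exact ⟨h1, hOU h2⟩
    · rintro ⟨h1, h2⟩
      by_cases h : (g ^ (j : ℤ)) ω ∈ O
      · exact Or.inl ⟨h1, h2, h⟩
      · exact Or.inr ⟨h1, h⟩
  · rw [Finset.disjoint_left]
    intro j hj hj'
    rw [mem_vset] at hj hj'
    exact hj'.2 hj.2.2

theorem visits_add_le (S : Set Ω) (n m : ℕ) (ω : Ω) :
    visits g S (n + m) ω ≤ visits g S n ω + m := by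
  rw [visits_add]
  exact Nat.add_le_add_left (visits_le _ _ _ _) _

theorem visits_mono (S : Set Ω) {n m : ℕ} (h : n ≤ m) (ω : Ω) :
    visits g S n ω ≤ visits g S m ω := by
  obtain ⟨k, rfl⟩ := Nat.exists_eq_add_of_le h
  rw [visits_add]
  exact Nat.le_add_right _ _

open scoped Classical in
/-- cardinality of a family of initial segments -/
theorem card_segments (A : ℕ → Prop) (s : ℕ → ℕ) (hs : ∀ i, s i ≤ V) :
    Nat.card {q : Fin N × Fin V // A q.1 ∧ (q.2 : ℕ) < s q.1} =
      ∑ i ∈ fset A N, s i := by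
  unfold fset
  rw [Nat.card_eq_fintype_card, Fintype.card_subtype, Finset.card_filter, Fintype.sum_prod_type]
  have h1 : ∀ i : Fin N, ∑ k : Fin V,
      (if A ((i, k) : Fin N × Fin V).1 ∧ (((i, k) : Fin N × Fin V).2 : ℕ) < s ((i, k) : Fin N × Fin V).1 then 1 else 0) =
      (if A i then s i else 0) := by
    intro i
    by_cases hA : A i
    · simp only [hA, true_and, if_true]
      rw [← Finset.card_filter, Fin.card_filter_val_lt]
      exact min_eq_right (hs i)
    · simp only [hA, false_and, ↓reduceIte, Finset.sum_const_zero]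
  rw [Finset.sum_congr rfl fun i _ => h1 i, Finset.sum_filter]
  exact Fin.sum_univ_eq_sum_range (fun i => if A i then s i else 0) N

open scoped Classical in
theorem card_TS_eq (hV : ∀ ω, (-gap g B U G d r ω).toNat ≤ V) :
    Nat.card (TS g B U G d V r ω N) =
      ∑ i ∈ wB g B ω N, (-gap g B U G d r ((g ^ (i : ℤ)) ω)).toNat :=
  card_segments (fun i : ℕ => (g ^ (i : ℤ)) ω ∈ B)
    (fun i : ℕ => (-gap g B U G d r ((g ^ (i : ℤ)) ω)).toNat) (fun _ => hV _)

open scoped Classical in
theorem le_card_AS (hV : ∀ ω, (gap g B U G d r ω).toNat ≤ V) :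
    ∑ i ∈ wB g B ω N, (gap g B U G d r ((g ^ (i : ℤ)) ω)).toNat ≤
      Nat.card (AS g B U G d V r ω N R) + 2 * R * V := by
  have h1 : Nat.card (AS g B U G d V r ω N R) =
      ∑ i ∈ fset (fun i : ℕ => (R ≤ i ∧ i + R < N) ∧ (g ^ (i : ℤ)) ω ∈ B) N,
        (gap g B U G d r ((g ^ (i : ℤ)) ω)).toNat := by
    have h0 := card_segments (V := V) (N := N)
      (fun i : ℕ => (R ≤ i ∧ i + R < N) ∧ (g ^ (i : ℤ)) ω ∈ B)
      (fun i : ℕ => (gap g B U G d r ((g ^ (i : ℤ)) ω)).toNat) (fun _ => hV _)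
    rw [← h0]
    apply Nat.card_congr
    apply Equiv.subtypeEquivRight
    intro q
    exact and_assoc.symm
  rw [h1]
  set s : ℕ → ℕ := fun i => (gap g B U G d r ((g ^ (i : ℤ)) ω)).toNat with hs
  have h2 : wB g B ω N ⊆ fset (fun i : ℕ => (R ≤ i ∧ i + R < N) ∧ (g ^ (i : ℤ)) ω ∈ B) N ∪
      (Finset.range R ∪ Finset.Ico (N - R) N) := by
    intro i hi
    rw [mem_wB] at hi
    simp only [Finset.mem_union, mem_fset, Finset.mem_range, Finset.mem_Ico]
    by_cases h3 : i < R
    · exact Or.inr (Or.inl h3)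
    · by_cases h4 : i + R < N
      · left
        exact ⟨hi.1, ⟨by omega, h4⟩, hi.2⟩
      · right; right
        omega
  calc ∑ i ∈ wB g B ω N, s i ≤
      ∑ i ∈ (fset (fun i : ℕ => (R ≤ i ∧ i + R < N) ∧ (g ^ (i : ℤ)) ω ∈ B) N ∪
      (Finset.range R ∪ Finset.Ico (N - R) N)), s i := Finset.sum_le_sum_of_subset h2
    _ ≤ ∑ i ∈ fset (fun i : ℕ => (R ≤ i ∧ i + R < N) ∧ (g ^ (i : ℤ)) ω ∈ B) N, s i +
      ∑ i ∈ (Finset.range R ∪ Finset.Ico (N - R) N), s i := by
        rw [← Finset.sum_union_inter]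
        exact Nat.le_add_right _ _
    _ ≤ _ := by
        apply Nat.add_le_add_left
        calc ∑ i ∈ (Finset.range R ∪ Finset.Ico (N - R) N), s i ≤
            (Finset.range R ∪ Finset.Ico (N - R) N).card • V :=
              Finset.sum_le_card_nsmul _ _ _ (fun i _ => hV _)
          _ ≤ (R + R) * V := by
              rw [smul_eq_mul]
              apply Nat.mul_le_mul_right
              refine (Finset.card_union_le _ _).trans ?_
              rw [Finset.card_range, Nat.card_Ico]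
              omega
          _ = 2 * R * V := by ring

/-- lower bound for the sum of the gaps -/
theorem sum_gap_ge (hB : GoodBase g B H H') (hr : 0 ≤ r) (hG : 0 < G) (hH : 0 < H) :
    (d : ℝ) / G * ((visits g U N ω : ℝ) - H') - r * (N + H') - (d + 1) * ((N + H') / H) ≤
      ((∑ i ∈ wB g B ω N, gap g B U G d r ((g ^ (i : ℤ)) ω) : ℤ) : ℝ) := by
  have hG' : (0 : ℝ) < G := by exact_mod_cast hG
  have hH' : (0 : ℝ) < H := by exact_mod_cast hH
  have h1 : ∀ i ∈ wB g B ω N, (d : ℝ) / G * (cnt g B U ((g ^ (i : ℤ)) ω) : ℝ) -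
      r * (ret g B ((g ^ (i : ℤ)) ω) : ℝ) - (d + 1) ≤ (gap g B U G d r ((g ^ (i : ℤ)) ω) : ℝ) := by
    intro i _
    have h2 := Int.lt_floor_add_one
      (((d * ngr g B U G ((g ^ (i : ℤ)) ω) : ℕ) : ℝ) - r * (ret g B ((g ^ (i : ℤ)) ω) : ℝ))
    change _ < (gap g B U G d r ((g ^ (i : ℤ)) ω) : ℝ) + 1 at h2
    have h3 : (cnt g B U ((g ^ (i : ℤ)) ω) : ℝ) / G - 1 ≤ (ngr g B U G ((g ^ (i : ℤ)) ω) : ℝ) := by
      have h4 := Nat.lt_div_mul_add (a := cnt g B U ((g ^ (i : ℤ)) ω)) hG
      have h5 : (cnt g B U ((g ^ (i : ℤ)) ω) : ℝ) <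
          (ngr g B U G ((g ^ (i : ℤ)) ω) : ℝ) * G + G := by
        unfold ngr
        exact_mod_cast h4
      rw [sub_le_iff_le_add, div_le_iff₀ hG']
      nlinarith only [h5]
    push_cast at h2
    have h6 : (d : ℝ) * ((cnt g B U ((g ^ (i : ℤ)) ω) : ℝ) / G - 1) ≤
        d * (ngr g B U G ((g ^ (i : ℤ)) ω) : ℝ) :=
      mul_le_mul_of_nonneg_left h3 (Nat.cast_nonneg _)
    have h7 : (d : ℝ) / G * (cnt g B U ((g ^ (i : ℤ)) ω) : ℝ) =
        (d : ℝ) * ((cnt g B U ((g ^ (i : ℤ)) ω) : ℝ) / G) := by ring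
    rw [h7]
    linarith only [h2, h6]
  have h2 := Finset.sum_le_sum h1
  rw [Finset.sum_sub_distrib, Finset.sum_sub_distrib, ← Finset.mul_sum, ← Finset.mul_sum,
    Finset.sum_const, nsmul_eq_mul] at h2
  push_cast
  refine le_trans ?_ h2
  have h3 : (∑ i ∈ wB g B ω N, (ret g B ((g ^ (i : ℤ)) ω) : ℝ)) ≤ N + H' := by
    exact_mod_cast sum_ret_le (ω := ω) (N := N) hB
  have h4 : ((wB g B ω N).card : ℝ) ≤ (N + H') / H := by
    rw [le_div_iff₀ hH']
    exact_mod_cast card_wB_mul_le (ω := ω) (N := N) hB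
  have h5 : (visits g U N ω : ℝ) - H' ≤ ∑ i ∈ wB g B ω N, (cnt g B U ((g ^ (i : ℤ)) ω) : ℝ) := by
    rw [sub_le_iff_le_add]
    exact_mod_cast visits_le_sum_cnt (ω := ω) (N := N) (U := U) hB
  have h6 : (d : ℝ) / G * ((visits g U N ω : ℝ) - H') ≤
      (d : ℝ) / G * ∑ i ∈ wB g B ω N, (cnt g B U ((g ^ (i : ℤ)) ω) : ℝ) :=
    mul_le_mul_of_nonneg_left h5 (by (clear * - hG; positivity))
  have h7 : r * ∑ i ∈ wB g B ω N, (ret g B ((g ^ (i : ℤ)) ω) : ℝ) ≤ r * (N + H') :=
    mul_le_mul_of_nonneg_left h3 hr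
  have h8 : ((wB g B ω N).card : ℝ) * (d + 1) ≤ (d + 1) * ((N + H') / H) := by
    rw [mul_comm]
    exact mul_le_mul_of_nonneg_left h4 (by (clear * -; positivity))
  linarith only [h6, h7, h8]

end

end Vale.Agent.P093
end
end
end

section

section

section

/-!
Existence of the matrix valued functions `a` and `b` for a frozen skew shift over a minimal
zero-dimensional base.
-/

open Set Filter Matrix
open scoped ENNReal ComplexOrder

namespace Vale.Agent.P093

noncomputable section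

variable {K Ω : Type*} [TopologicalSpace K] [TopologicalSpace Ω]

theorem dens_le_one (g : Ω ≃ₜ Ω) (S : Set Ω) : dens g S ≤ 1 := by
  unfold dens
  refine (iInf₂_le 1 one_pos).trans ?_
  have h : (maxVisits g S 1 : ℝ≥0∞) ≤ 1 := by exact_mod_cast maxVisits_le_self g S 1
  simpa only [Nat.cast_one, div_one, Nat.cast_le_one, ge_iff_le] using h

theorem dens_ne_top (g : Ω ≃ₜ Ω) (S : Set Ω) : dens g S ≠ ∞ :=
  ne_top_of_le_ne_top ENNReal.one_ne_top (dens_le_one g S)

theorem dens_mul_le (g : Ω ≃ₜ Ω) (S : Set Ω) (N : ℕ) :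
    (dens g S).toReal * N ≤ maxVisits g S N := by
  rcases Nat.eq_zero_or_pos N with h | h
  · subst h; simp only [CharP.cast_eq_zero, mul_zero, Nat.cast_nonneg]
  · have h1 : dens g S ≤ (maxVisits g S N : ℝ≥0∞) / (N : ℝ≥0∞) := by
      unfold dens
      exact iInf₂_le N h
    have hN : (0 : ℝ) < N := by exact_mod_cast h
    have h2 : (dens g S).toReal ≤ (maxVisits g S N : ℝ) / N := by
      have h3 : ((maxVisits g S N : ℝ≥0∞) / (N : ℝ≥0∞)) ≠ ∞ :=
        ENNReal.div_ne_top (ENNReal.natCast_ne_top _) (by exact_mod_cast h.ne')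
      have h4 := ENNReal.toReal_mono h3 h1
      rwa [ENNReal.toReal_div, ENNReal.toReal_natCast, ENNReal.toReal_natCast] at h4
    rwa [le_div_iff₀ hN] at h2

theorem exists_dens_lt (g : Ω ≃ₜ Ω) (S : Set Ω) {ε : ℝ} (hε : 0 < ε) :
    ∃ N : ℕ, 0 < N ∧ (maxVisits g S N : ℝ) ≤ ((dens g S).toReal + ε) * N := by
  have h1 : dens g S < dens g S + ENNReal.ofReal ε :=
    ENNReal.lt_add_right (dens_ne_top g S) (by simpa only [ne_eq, ENNReal.ofReal_eq_zero, not_le] using hε)
  conv_lhs at h1 => unfold dens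
  obtain ⟨N, hN⟩ := iInf_lt_iff.mp h1
  obtain ⟨hN0, hN1⟩ := iInf_lt_iff.mp hN
  refine ⟨N, hN0, ?_⟩
  have hN : (0 : ℝ) < N := by exact_mod_cast hN0
  have h2 : (dens g S + ENNReal.ofReal ε) ≠ ∞ :=
    ENNReal.add_ne_top.mpr ⟨dens_ne_top g S, ENNReal.ofReal_ne_top⟩
  have h3 := ENNReal.toReal_mono h2 hN1.le
  rw [ENNReal.toReal_div, ENNReal.toReal_natCast, ENNReal.toReal_natCast,
    ENNReal.toReal_add (dens_ne_top g S) ENNReal.ofReal_ne_top, ENNReal.toReal_ofReal hε.le,
    div_le_iff₀ hN] at h3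
  exact h3

theorem gap_toNat_le {g : Ω ≃ₜ Ω} {B U : Set Ω} {G d H H' : ℕ} {r : ℝ} (hB : GoodBase g B H H')
    (hr : 0 ≤ r) (ω : Ω) :
    (gap g B U G d r ω).toNat ≤ d * H' + ⌈r * H'⌉₊ + 1 ∧
    (-gap g B U G d r ω).toNat ≤ d * H' + ⌈r * H'⌉₊ + 1 := by
  have h1 := Int.floor_le (((d * ngr g B U G ω : ℕ) : ℝ) - r * (ret g B ω : ℝ))
  have h2 := Int.lt_floor_add_one (((d * ngr g B U G ω : ℕ) : ℝ) - r * (ret g B ω : ℝ))
  change (gap g B U G d r ω : ℝ) ≤ _ at h1
  change _ < (gap g B U G d r ω : ℝ) + 1 at h2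
  have h3 : ngr g B U G ω ≤ H' :=
    ((Nat.div_le_self _ _).trans (cnt_le_ret _)).trans (hB.ret_le _)
  have h4 : ((d * ngr g B U G ω : ℕ) : ℝ) ≤ ((d * H' : ℕ) : ℝ) := by
    exact_mod_cast Nat.mul_le_mul_left d h3
  have h5 : (ret g B ω : ℝ) ≤ H' := by exact_mod_cast hB.ret_le ω
  have h6 : r * (ret g B ω : ℝ) ≤ r * H' := mul_le_mul_of_nonneg_left h5 hr
  have h7 := Nat.le_ceil (r * (H' : ℝ))
  have h8 : 0 ≤ r * (ret g B ω : ℝ) := by (clear * - hr; positivity)
  have h9 : (0 : ℝ) ≤ ((d * ngr g B U G ω : ℕ) : ℝ) := Nat.cast_nonneg _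
  have h10 : (0 : ℝ) ≤ (⌈r * (H' : ℝ)⌉₊ : ℝ) := Nat.cast_nonneg _
  have h11 : (0 : ℝ) ≤ ((d * H' : ℕ) : ℝ) := Nat.cast_nonneg _
  constructor
  · have : (gap g B U G d r ω : ℝ) ≤ ((d * H' + ⌈r * H'⌉₊ + 1 : ℕ) : ℝ) := by
      push_cast
      push_cast at h4 h1 h10 h11
      linarith only [h8, h4, h1]
    have h12 : gap g B U G d r ω ≤ ((d * H' + ⌈r * H'⌉₊ + 1 : ℕ) : ℤ) := by exact_mod_cast this
    omega
  · have : (-(gap g B U G d r ω : ℝ)) ≤ ((d * H' + ⌈r * H'⌉₊ + 1 : ℕ) : ℝ) := by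
      push_cast
      push_cast at h4 h2 h9 h10 h11
      linarith only [h6, h7, h4, h2, h9]
    have h12 : -gap g B U G d r ω ≤ ((d * H' + ⌈r * H'⌉₊ + 1 : ℕ) : ℤ) := by exact_mod_cast this
    omega

/-- the counting inequality for large windows -/
theorem exists_window_count [Nonempty Ω] {g : Ω ≃ₜ Ω} {O B U : Set Ω} {G d Γ V H H' N₁ : ℕ}
    {r η ε : ℝ} (hB : GoodBase g B H H') (hr : 0 ≤ r) (hη : 0 < η) (hε : 0 < ε) (hG : 0 < G)
    (hH : 0 < H) (hN₁ : 0 < N₁) (hOU : Oᶜ ⊆ U)
    (hmax : (maxVisits g U N₁ : ℝ) ≤ ((dens g Oᶜ).toReal + ε) * N₁)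
    (hD : r + 4 * η ≤ (d : ℝ) / G * (dens g Oᶜ).toReal) (hεη : 2 * d * ε ≤ η)
    (hHη : ((d : ℝ) + 1) / H ≤ η)
    (hV₁ : ∀ ω, (gap g B U G d r ω).toNat ≤ V) (hV₂ : ∀ ω, (-gap g B U G d r ω).toNat ≤ V)
    (R : ℕ) :
    ∃ (N : ℕ) (ω : Ω), Nat.card ((BS g O B U G Γ ω N × Fin d × Fin 2) ⊕ TS g B U G d V r ω N) + 1 ≤
      Nat.card (AS g B U G d V r ω N R) := by
  set D := (dens g Oᶜ).toReal with hDdef
  have hD0 : 0 ≤ D := ENNReal.toReal_nonneg
  -- the constant
  obtain ⟨N, hN⟩ := exists_nat_gt (((d : ℝ) / G * H' + r * H' + η * H' + 2 * R * V + 2 * d * H' +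
    2 * d * (N₁ * (D + ε)) + 1) / (2 * η))
  rw [div_lt_iff₀ (by positivity)] at hN
  obtain ⟨ω, hω⟩ := exists_visits_eq g Oᶜ N
  refine ⟨N, ω, ?_⟩
  have hvF : D * N ≤ (visits g Oᶜ N ω : ℝ) := by rw [hω]; exact dens_mul_le g Oᶜ N
  have hvFU : (visits g Oᶜ N ω : ℝ) ≤ (visits g U N ω : ℝ) := by
    exact_mod_cast visits_mono_set hOU N ω
  have hvU : (visits g U N ω : ℝ) ≤ (N + N₁) * (D + ε) := by
    have h1 : (visits g U N ω : ℝ) ≤ (((N / N₁ + 1) * maxVisits g U N₁ : ℕ) : ℝ) := by
      exact_mod_cast (visits_le_max g U N ω).trans (maxVisits_le_div hN₁ N)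
    have h2 : (((N / N₁ + 1 : ℕ) : ℝ)) * N₁ ≤ N + N₁ := by
      have := Nat.div_mul_le_self N N₁
      have h3 : (N / N₁ + 1) * N₁ ≤ N + N₁ := by rw [Nat.add_mul, Nat.one_mul]; omega
      exact_mod_cast h3
    calc (visits g U N ω : ℝ) ≤ (((N / N₁ + 1) * maxVisits g U N₁ : ℕ) : ℝ) := h1
      _ = ((N / N₁ + 1 : ℕ) : ℝ) * (maxVisits g U N₁ : ℝ) := by push_cast; ring
      _ ≤ ((N / N₁ + 1 : ℕ) : ℝ) * ((D + ε) * N₁) :=
          mul_le_mul_of_nonneg_left hmax (Nat.cast_nonneg _)
      _ = (((N / N₁ + 1 : ℕ) : ℝ) * N₁) * (D + ε) := by ring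
      _ ≤ (N + N₁) * (D + ε) := mul_le_mul_of_nonneg_right h2 (by (clear * - hε; positivity))
  have hBS : (Nat.card (BS g O B U G Γ ω N) : ℝ) ≤
      (visits g U N ω : ℝ) + H' - (visits g Oᶜ N ω : ℝ) := by
    have h1 := card_BS_le (O := O) (U := U) (G := G) (Γ := Γ) (N := N) (ω := ω) hB
    have h2 := visits_inter_add (g := g) hOU (N + H') ω
    have h3 := visits_add_le (g := g) U N H' ω
    have h4 := visits_mono (g := g) Oᶜ (Nat.le_add_right N H') ω
    have h5 : Nat.card (BS g O B U G Γ ω N) + visits g Oᶜ N ω ≤ visits g U N ω + H' := by omega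
    have h6 : (Nat.card (BS g O B U G Γ ω N) : ℝ) + (visits g Oᶜ N ω : ℝ) ≤
      (visits g U N ω : ℝ) + H' := by exact_mod_cast h5
    linarith only [h6]
  have hgap := sum_gap_ge (U := U) (G := G) (d := d) (r := r) (ω := ω) (N := N) hB hr hG hH
  have hTS := card_TS_eq (N := N) (ω := ω) hV₂
  have hAS := le_card_AS (N := N) (ω := ω) (R := R) hV₁
  have hsum : ((∑ i ∈ wB g B ω N, gap g B U G d r ((g ^ (i : ℤ)) ω) : ℤ) : ℝ) ≤
      (Nat.card (AS g B U G d V r ω N R) : ℝ) + 2 * R * V -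
        (Nat.card (TS g B U G d V r ω N) : ℝ) := by
    have h1 : (∑ i ∈ wB g B ω N, gap g B U G d r ((g ^ (i : ℤ)) ω) : ℤ) =
        ((∑ i ∈ wB g B ω N, (gap g B U G d r ((g ^ (i : ℤ)) ω)).toNat : ℕ) : ℤ) -
        ((∑ i ∈ wB g B ω N, (-gap g B U G d r ((g ^ (i : ℤ)) ω)).toNat : ℕ) : ℤ) := by
      push_cast
      rw [← Finset.sum_sub_distrib]
      apply Finset.sum_congr rfl
      intro i _
      omega
    rw [h1, ← hTS]
    push_cast
    have h2 : ((∑ i ∈ wB g B ω N, (gap g B U G d r ((g ^ (i : ℤ)) ω)).toNat : ℕ) : ℝ) ≤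
      ((Nat.card (AS g B U G d V r ω N R) + 2 * R * V : ℕ) : ℝ) := by exact_mod_cast hAS
    push_cast at h2
    linarith only [h2]
  have hcard : Nat.card ((BS g O B U G Γ ω N × Fin d × Fin 2) ⊕ TS g B U G d V r ω N) =
      Nat.card (BS g O B U G Γ ω N) * (d * 2) + Nat.card (TS g B U G d V r ω N) := by
    rw [Nat.card_sum, Nat.card_prod, Nat.card_prod, Nat.card_fin, Nat.card_fin]
  rw [hcard]
  have hfinal : (((Nat.card (BS g O B U G Γ ω N) * (d * 2) + Nat.card (TS g B U G d V r ω N)) + 1 : ℕ) : ℝ) ≤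
      (Nat.card (AS g B U G d V r ω N R) : ℝ) := by
    push_cast
    have hdG : (0 : ℝ) ≤ (d : ℝ) / G := by (clear * - hG; positivity)
    have e1 : (d : ℝ) / G * (D * N) ≤ (d : ℝ) / G * (visits g U N ω : ℝ) :=
      mul_le_mul_of_nonneg_left (hvF.trans hvFU) hdG
    have e2 : (r + 4 * η) * N ≤ (d : ℝ) / G * D * N :=
      mul_le_mul_of_nonneg_right hD (Nat.cast_nonneg _)
    have e3 : (d + 1 : ℝ) * (((N : ℝ) + H') / H) ≤ η * (N + H') := by
      have : (d + 1 : ℝ) * (((N : ℝ) + H') / H) = ((d + 1 : ℝ) / H) * (N + H') := by ring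
      rw [this]
      exact mul_le_mul_of_nonneg_right hHη (by (clear * -; positivity))
    have e4 : (visits g U N ω : ℝ) - (visits g Oᶜ N ω : ℝ) ≤ ε * N + N₁ * (D + ε) := by
      have e4' : ((N : ℝ) + N₁) * (D + ε) = D * N + (ε * N + N₁ * (D + ε)) := by ring
      rw [e4'] at hvU
      linarith only [hvU, hvF]
    have e5 : (Nat.card (BS g O B U G Γ ω N) : ℝ) ≤ ε * N + N₁ * (D + ε) + H' := by linarith only [hvF, hvU, hBS]
    have e6 : (Nat.card (BS g O B U G Γ ω N) : ℝ) * (d * 2) ≤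
        (ε * N + N₁ * (D + ε) + H') * (d * 2) :=
      mul_le_mul_of_nonneg_right e5 (by (clear * -; positivity))
    have e7 : 2 * d * ε * N ≤ η * N := mul_le_mul_of_nonneg_right hεη (Nat.cast_nonneg _)
    linarith only [hN, e1, e2, e3, e6, e7, hsum, hgap, hvF, hvFU]
  exact_mod_cast hfinal

/-- **The data for the lower bound.** -/
theorem frozen_lower_data [CompactSpace Ω] [T2Space Ω] [TotallyDisconnectedSpace Ω] [Infinite Ω]
    [CompactSpace K] [T2Space K] (g : Ω ≃ₜ Ω)
    (hd : ∀ ω, Dense (Set.range fun n : ℤ => (g ^ n) ω)) {O : Set Ω} (hO : IsOpen O) (c : Ω → K)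
    {q : ℕ} {j : (Fin q → unitInterval) → K} (hj : Continuous j) (hji : Function.Injective j)
    {r : ℝ} (hr0 : 0 ≤ r) (hr : r < (q : ℝ) / 2 * (dens g Oᶜ).toReal) :
    ∃ (d Γ V H H' : ℕ) (r' : ℝ) (B : Set Ω)
      (a b : frozenSet g O c → Matrix (Idx Γ d V) (Idx Γ d V) ℂ),
      r < r' ∧ GoodBase g B H H' ∧ Continuous a ∧ Continuous b ∧
      (∀ x i j, i ≠ j → a x i j = 0) ∧ (∀ x i, a x i i = 0 ∨ a x i i = 1) ∧
      (∀ x, (b x).PosSemidef) ∧ (∀ x, (1 - b x).PosSemidef) ∧
      (∀ x, (a x).trace.re + r' * (open scoped Classical in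
        if x.1.2 ∈ B then (ret g B x.1.2 : ℝ) else 0) ≤ (b x).trace.re) ∧
      HasTestMaps (frozenShift g O c) a b := by
  set D := (dens g Oᶜ).toReal with hDdef
  have hD0 : 0 ≤ D := ENNReal.toReal_nonneg
  have hD1 : D ≤ 1 := by
    have := ENNReal.toReal_mono ENNReal.one_ne_top (dens_le_one g Oᶜ)
    simpa only [ge_iff_le, ENNReal.toReal_one] using this
  have hq : 0 < q := by
    rcases Nat.eq_zero_or_pos q with h | h
    · rw [h] at hr
      simp only [Nat.cast_zero, zero_div, zero_mul] at hr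
      exact absurd hr (not_lt.mpr hr0)
    · exact h
  -- the group size
  obtain ⟨G, hG⟩ := exists_nat_gt (1 / ((q : ℝ) / 2 * D - r))
  have hpos : 0 < (q : ℝ) / 2 * D - r := by linarith only [hr]
  have hG0 : 0 < G := by
    have h1 : (0 : ℝ) < 1 / ((q : ℝ) / 2 * D - r) := by positivity
    exact_mod_cast h1.trans hG
  have hG0' : (0 : ℝ) < G := by exact_mod_cast hG0
  have hG1 : 1 / (G : ℝ) < (q : ℝ) / 2 * D - r := by
    rw [div_lt_iff₀ hpos] at hG
    rw [div_lt_iff₀ hG0']
    linarith only [hG]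
  set d := (G * q - 1) / 2 with hddef
  have hGq : 1 ≤ G * q := Nat.mul_pos hG0 hq
  have hd1 : 2 * d + 1 ≤ G * q := by omega
  have hd2 : G * q ≤ 2 * d + 2 := by omega
  have hdG : (q : ℝ) / 2 - 1 / G ≤ (d : ℝ) / G := by
    have h1 : (G : ℝ) * q ≤ 2 * d + 2 := by exact_mod_cast hd2
    rw [le_div_iff₀ hG0', sub_mul, one_div, inv_mul_cancel₀ hG0'.ne']
    linarith only [h1]
  have hkey : r < (d : ℝ) / G * D := by
    have h1 : ((q : ℝ) / 2 - 1 / G) * D ≤ (d : ℝ) / G * D := mul_le_mul_of_nonneg_right hdG hD0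
    have h2 : 1 / (G : ℝ) * D ≤ 1 / G := by
      have : (0 : ℝ) ≤ 1 / G := by positivity
      nlinarith only [hD1, this]
    nlinarith only [hG1, h1, h2]
  set η := ((d : ℝ) / G * D - r) / 5 with hη
  have hη0 : 0 < η := by
    rw [hη]; linarith only [hkey]
  set r' := r + η with hr'
  have hr'0 : 0 ≤ r' := by linarith only [hr0, hη0]
  have hD4 : r' + 4 * η ≤ (d : ℝ) / G * D := by
    rw [hr', hη]; linarith only []
  set ε := η / (2 * d + 1) with hε
  have hε0 : 0 < ε := by rw [hε]; (clear * - hkey; positivity)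
  have hεη : 2 * d * ε ≤ η := by
    rw [hε]
    have : (0 : ℝ) < 2 * d + 1 := by (clear * -; positivity)
    rw [mul_div_assoc', div_le_iff₀ this]
    nlinarith only [hη0]
  obtain ⟨N₁, hN₁, hN₁'⟩ := exists_dens_lt g Oᶜ hε0
  obtain ⟨U, hU, hOU, hUmax⟩ := exists_clopen_approx g hO.isClosed_compl N₁
  have hUmax' : (maxVisits g U N₁ : ℝ) ≤ (D + ε) * N₁ := by
    have : (maxVisits g U N₁ : ℝ) ≤ maxVisits g Oᶜ N₁ := by exact_mod_cast hUmax
    exact this.trans hN₁'
  obtain ⟨H, hH⟩ := exists_nat_gt (((d : ℝ) + 1) / η)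
  have hH0 : 0 < H := by
    have h1 : (0 : ℝ) < ((d : ℝ) + 1) / η := by (clear * - hkey; positivity)
    exact_mod_cast h1.trans hH
  have hH0' : (0 : ℝ) < H := by exact_mod_cast hH0
  have hHη : ((d : ℝ) + 1) / H ≤ η := by
    rw [div_lt_iff₀ hη0] at hH
    rw [div_le_iff₀ hH0']
    linarith only [hH]
  obtain ⟨B, H', hB⟩ := exists_goodBase g hd H
  obtain ⟨ι, E, hι, hE, hEι, hE1⟩ := exists_sphere_coordinates (d := d) (G := G) hj hji hd1
  set V := d * H' + ⌈r' * H'⌉₊ + 1 with hV
  have hV₁ : ∀ ω, (gap g B U G d r' ω).toNat ≤ V := fun ω => (gap_toNat_le hB hr'0 ω).1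
  have hV₂ : ∀ ω, (-gap g B U G d r' ω).toNat ≤ V := fun ω => (gap_toNat_le hB hr'0 ω).2
  refine ⟨d, H', V, H, H', r', B, aFn B U G d H' V r', bFn B U G d H' V r' E, by linarith only [hη0], hB,
    aFn_continuous hB hU, bFn_continuous hB hU hE, fun x i j h => aFn_offdiag x h,
    fun x i => aFn_diag x i, bFn_posSemidef hE1, one_sub_bFn_posSemidef, fun x => trace_ineq hE1 le_rfl hB hV₂ x, ?_⟩
  intro R
  obtain ⟨ω₀⟩ : Nonempty Ω := inferInstance
  obtain ⟨N, ω, hcard⟩ := exists_window_count (Γ := H') hB hr'0 hη0 hε0 hG0 hH0 hN₁ hOU hUmax' hD4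
    hεη hHη hV₁ hV₂ R
  let k₀ : K := j fun _ => 0
  obtain ⟨M, t, ψ, α, γ, δ, h⟩ := frozen_test (c := c) k₀ hι hEι hcard
  exact ⟨N, M, t, ψ, α, γ, δ, h⟩

end

end Vale.Agent.P093
end
end
end

section

section

section

/-!
The criterion for an arbitrary C*-algebra generated by a covariant pair.
-/

open Filter Topology Set
open scoped ENNReal ComplexOrder
set_option linter.unusedSectionVars false
namespace Vale.Agent.P093

variable {X : Type*} [TopologicalSpace X] [CompactSpace X] [T2Space X]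
  {A : Type*} [CStarAlgebra A] [PartialOrder A] [StarOrderedRing A]

set_option backward.isDefEq.respectTransparency false in
/-- **Criterion** for algebras generated by a covariant pair. -/
theorem not_comparisonBound' {h : X ≃ₜ X} (hfree : ∀ (k : ℤ) (x : X), k ≠ 0 → (h ^ k) x ≠ x)
    (hA : IsCrossedProduct h A) {n m : ℕ} (g G : Fin n → C(X, ℝ))
    (β : Fin m → Fin m → C(X, ℂ)) (r r' : ℝ) (N₀ : ℕ) (hN₀ : 0 < N₀) (hr : r < r')
    (hg0 : ∀ l x, 0 ≤ g l x) (hg1 : ∀ l x, g l x ≤ 1) (hG0 : ∀ l x, 0 ≤ G l x)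
    (hG : ∀ l x, g l x ≠ 0 → 1 ≤ G l x)
    (hβ : ∀ x, (Matrix.of fun k k' => β k k' x).PosSemidef)
    (hβ1 : ∀ x, (1 - Matrix.of fun k k' => β k k' x).PosSemidef)
    (hav : ∀ x, ∑ j ∈ Finset.range N₀, ∑ l, G l ((h ^ (j : ℤ)) x) + r' * N₀ ≤
      ∑ j ∈ Finset.range N₀, ∑ k, (β k k ((h ^ (j : ℤ)) x)).re)
    (fam : ∀ R : ℕ, ∃ (N M t : ℕ) (ψ : (Fin M → S2) → X), Continuous ψ ∧
      ∃ (B₁ : (Fin N × Fin m → ℂ) →ₗ[ℂ] (Fin M × Fin 2 → ℂ))
        (B₂ : (Fin N × Fin m → ℂ) →ₗ[ℂ] (Fin t → ℂ)),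
      (∀ v u, (∀ i, (hopf (v i)).mulVec (fun e => B₁ u (i, e)) = 0) → B₂ u = 0 →
        ∀ (j : Fin N) k, ∑ k', β k k' ((h ^ ((j : ℕ) : ℤ)) (ψ v)) * u (j, k') = 0) ∧
      ∀ v, t < (Finset.univ.filter (fun p : Fin N × Fin n => R ≤ (p.1 : ℕ) ∧
        (p.1 : ℕ) + R < N ∧ g p.2 ((h ^ ((p.1 : ℕ) : ℤ)) (ψ v)) = 1)).card) :
    ¬ IsComparisonBound A r := by
  obtain ⟨π, u, hπ, hu1, hu2, hcov, hd⟩ := hA
  obtain ⟨Λ, hΛ, -⟩ := exists_lam hfree hπ hu1 hu2 hcov hd
  rintro ⟨-, hcomp⟩
  have hle : CuntzLE (diagM π (fun l => cf (g l))) (fullM π β) := by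
    refine hcomp n m _ _ (diagM_nonneg π g hg0) (fullM_nonneg π β hβ) fun τ => ?_
    have h1 := dTau_diag_le' π τ g G hg0 hg1 hG0 hG
    have h2 := traceEval_le_dTau τ (fullM_nonneg π β hβ) (fullM_le_one π β hβ1)
    rw [traceEval_full' π τ β hβ] at h2
    have h3 := trace_average' π h hu1 hu2 hcov τ (∑ l, G l) (trFun β) r' N₀ hN₀ (fun x => by
      have := hav x
      simp only [ContinuousMap.sum_apply, trFun_apply]
      exact this)
    linarith
  obtain ⟨R, hR⟩ := nc h β g (cuntzLE_map Λ hΛ _ β hle)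
  obtain ⟨N, M, t, ψ, hψ, B₁, B₂, hB, hcard⟩ := fam R
  obtain ⟨v, hv⟩ := hR N M t ψ hψ B₁ B₂ hB
  exact absurd hv (not_le.2 (hcard v))

/-- the concrete crossed product is generated by a covariant pair -/
theorem isCrossedProduct_crossedProduct (h : X ≃ₜ X) : IsCrossedProduct h (CrossedProduct h) := by
  refine ⟨piHom h, uElt h, ?_, star_u_mul_u h, u_mul_star_u h, fun f => ?_, ?_⟩
  · intro f g hfg
    have h1 : multOp h f = multOp h g := congrArg toOp hfg
    ext x
    have h2 : multOp h f (dvec 0 x) (0, x) = multOp h g (dvec 0 x) (0, x) := by rw [h1]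
    rw [multOp_dvec, multOp_dvec, lp.coeFn_smul, lp.coeFn_smul, Pi.smul_apply, Pi.smul_apply,
      dvec_apply] at h2
    simpa using h2
  · have h0 : (f.comp (h.symm : C(X, X))).comp (h : C(X, X)) = f := by
      ext x
      simp
    have h1 := u_pi h (f.comp (h.symm : C(X, X)))
    rw [h0] at h1
    rw [h1, mul_assoc, u_mul_star_u, mul_one]
  · rw [dense_iff_closure_eq, eq_univ_iff_forall]
    intro a
    have h1 : (toOp a) ∈ closure
        ((StarAlgebra.adjoin ℂ (Set.range (multOp h) ∪ {shiftOp X}) :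
          StarSubalgebra ℂ (Ell2 X →L[ℂ] Ell2 X)) : Set (Ell2 X →L[ℂ] Ell2 X)) := by
      have h1 : toOp a ∈ (crossedProductAlg h : Set (Ell2 X →L[ℂ] Ell2 X)) := a.2
      unfold crossedProductAlg at h1
      rw [StarSubalgebra.topologicalClosure_coe] at h1
      exact h1
    obtain ⟨s, hs, hlim⟩ := mem_closure_iff_seq_limit.1 h1
    have key : ∀ T ∈ StarAlgebra.adjoin ℂ (Set.range (multOp h) ∪ {shiftOp X}),
        ∃ b : CrossedProduct h, b ∈ StarAlgebra.adjoin ℂ (Set.range (piHom h) ∪ {uElt h}) ∧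
          toOp b = T := by
      intro T hT
      have h2 : StarAlgebra.adjoin ℂ (Set.range (multOp h) ∪ {shiftOp X}) ≤
          (StarAlgebra.adjoin ℂ (Set.range (piHom h) ∪ {uElt h})).map
            (crossedProductAlg h).subtype := by
        refine StarAlgebra.adjoin_le ?_
        rintro T (⟨f, rfl⟩ | hT)
        · exact ⟨piHom h f, StarAlgebra.subset_adjoin ℂ _ (Or.inl ⟨f, rfl⟩), rfl⟩
        · rw [Set.mem_singleton_iff] at hT
          subst hT
          exact ⟨uElt h, StarAlgebra.subset_adjoin ℂ _ (Or.inr rfl), rfl⟩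
      obtain ⟨b, hb, hbT⟩ := h2 hT
      exact ⟨b, hb, hbT⟩
    choose! b hb hbT using key
    refine mem_closure_iff_seq_limit.2 ⟨fun k => b (s k), fun k => hb _ (hs k), ?_⟩
    refine tendsto_subtype_rng.2 ?_
    refine hlim.congr fun k => ?_
    exact (hbT _ (hs k)).symm

end Vale.Agent.P093
end
end
end

section

section

section
open Filter Topology Set
open scoped ENNReal ComplexOrder
set_option linter.unusedSectionVars false
namespace Vale.Agent.P093

variable {X : Type*} [TopologicalSpace X] [CompactSpace X] [T2Space X]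
  {A : Type*} [CStarAlgebra A] [PartialOrder A] [StarOrderedRing A]

/-- The criterion with arbitrary finite index types. -/
theorem not_comparisonBound_gen' {h : X ≃ₜ X}
    (hfree : ∀ (k : ℤ) (x : X), k ≠ 0 → (h ^ k) x ≠ x) (hA : IsCrossedProduct h A) {I : Type*} [Fintype I] [DecidableEq I] {n : ℕ}
    (g G : Fin n → C(X, ℝ)) (b : X → Matrix I I ℂ) (hbc : Continuous b) (r r' : ℝ)
    (N₀ : ℕ) (hN₀ : 0 < N₀) (hr : r < r')
    (hg0 : ∀ l x, 0 ≤ g l x) (hg1 : ∀ l x, g l x ≤ 1) (hG0 : ∀ l x, 0 ≤ G l x)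
    (hG : ∀ l x, g l x ≠ 0 → 1 ≤ G l x)
    (hβ : ∀ x, (b x).PosSemidef) (hβ1 : ∀ x, (1 - b x).PosSemidef)
    (hav : ∀ x, ∑ j ∈ Finset.range N₀, ∑ l, G l ((h ^ (j : ℤ)) x) + r' * N₀ ≤
      ∑ j ∈ Finset.range N₀, (b ((h ^ (j : ℤ)) x)).trace.re)
    (fam : ∀ R : ℕ, ∃ (N : ℕ) (𝓜 𝓣 : Type) (_ : Fintype 𝓜) (_ : Fintype 𝓣)
      (ψ : (𝓜 → S2) → X) (γ : 𝓜 → Fin 2 → ℕ × I) (δ : 𝓣 → ℕ × I), Continuous ψ ∧
      (∀ l e, (γ l e).1 < N) ∧ (∀ j, (δ j).1 < N) ∧
      (∀ (v : 𝓜 → S2) (y : ℕ → I → ℂ),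
        (∀ l, (hopf (v l)).mulVec (fun e => y (γ l e).1 (γ l e).2) = 0) →
        (∀ j, y (δ j).1 (δ j).2 = 0) → ∀ i < N, (b ((h ^ (i : ℤ)) (ψ v))).mulVec (y i) = 0) ∧
      ∀ v, Fintype.card 𝓣 < (Finset.univ.filter (fun p : Fin N × Fin n => R ≤ (p.1 : ℕ) ∧
        (p.1 : ℕ) + R < N ∧ g p.2 ((h ^ ((p.1 : ℕ) : ℤ)) (ψ v)) = 1)).card) :
    ¬ IsComparisonBound A r := by
  classical
  let m := Fintype.card I
  let φ : Fin m ≃ I := (Fintype.equivFin I).symm
  let β : Fin m → Fin m → C(X, ℂ) := fun k k' => ⟨fun x => b x (φ k) (φ k'),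
    (continuous_apply_apply (φ k) (φ k')).comp hbc⟩
  have hβeq : ∀ x, (Matrix.of fun k k' => β k k' x) = (b x).submatrix φ φ := fun x => rfl
  refine not_comparisonBound' hfree hA g G β r r' N₀ hN₀ hr hg0 hg1 hG0 hG ?_ ?_ ?_ ?_
  · intro x
    rw [hβeq]
    exact (hβ x).submatrix φ
  · intro x
    rw [hβeq]
    have h1 : (1 : Matrix (Fin m) (Fin m) ℂ) = (1 : Matrix I I ℂ).submatrix φ φ := by
      ext i j
      simp [Matrix.one_apply]
    rw [h1]
    exact (hβ1 x).submatrix φ
  · intro x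
    refine (hav x).trans (le_of_eq ?_)
    refine Finset.sum_congr rfl fun j _ => ?_
    rw [Matrix.trace, Complex.re_sum]
    exact (φ.sum_comp (fun i => (b ((h ^ (j : ℤ)) x) i i).re)).symm
  · intro R
    obtain ⟨N, 𝓜, 𝓣, i1, i2, ψ, γ, δ, hψ, hγ, hδ, hker, hcard⟩ := fam R
    let eM : Fin (Fintype.card 𝓜) ≃ 𝓜 := (Fintype.equivFin 𝓜).symm
    let eT : Fin (Fintype.card 𝓣) ≃ 𝓣 := (Fintype.equivFin 𝓣).symm
    let pull : (Fin (Fintype.card 𝓜) → S2) → (𝓜 → S2) := fun v l => v (eM.symm l)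
    have hpull : Continuous pull := continuous_pi fun l => continuous_apply _
    refine ⟨N, Fintype.card 𝓜, Fintype.card 𝓣, fun v => ψ (pull v), hψ.comp hpull,
      { toFun := fun u p => u (⟨(γ (eM p.1) p.2).1, hγ _ _⟩, φ.symm (γ (eM p.1) p.2).2)
        map_add' := fun _ _ => rfl
        map_smul' := fun _ _ => rfl },
      { toFun := fun u p => u (⟨(δ (eT p)).1, hδ _⟩, φ.symm (δ (eT p)).2)
        map_add' := fun _ _ => rfl
        map_smul' := fun _ _ => rfl }, ?_, fun v => hcard (pull v)⟩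
    intro v u h1 h2 j k
    let y : ℕ → I → ℂ := fun i κ => if hi : i < N then u (⟨i, hi⟩, φ.symm κ) else 0
    have hy : ∀ i (hi : i < N) κ, y i κ = u (⟨i, hi⟩, φ.symm κ) := fun i hi κ => dif_pos hi
    have h3 := hker (pull v) y (fun l => by
      have h4 := h1 (eM.symm l)
      simp only [LinearMap.coe_mk, AddHom.coe_mk, Equiv.apply_symm_apply] at h4
      rw [show pull v l = v (eM.symm l) from rfl]
      rw [← h4]
      congr 1
      funext e
      exact hy _ (hγ l e) _) (fun j => by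
      have h4 := congrFun h2 (eT.symm j)
      simp only [LinearMap.coe_mk, AddHom.coe_mk, Equiv.apply_symm_apply, Pi.zero_apply] at h4
      rw [hy _ (hδ j)]
      exact h4) j j.2
    have h5 := congrFun h3 (φ k)
    rw [Matrix.mulVec, dotProduct] at h5
    rw [Pi.zero_apply] at h5
    rw [← h5, ← φ.sum_comp]
    refine Finset.sum_congr rfl fun k' _ => ?_
    rw [hy _ j.2, Equiv.symm_apply_apply]
    rfl

theorem CritData.not_comparisonBound' {h : X ≃ₜ X} {r : ℝ} (H : CritData h r)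
    (hfree : ∀ (k : ℤ) (x : X), k ≠ 0 → (h ^ k) x ≠ x) (hA : IsCrossedProduct h A) :
    ¬ IsComparisonBound A r := by
  obtain ⟨I, _, _, n, g, G, b, r', N₀, hbc, hN₀, hr, hg0, hg1, hG0, hG, hb, hb1, hav, fam⟩ := H
  exact not_comparisonBound_gen' hfree hA g G b hbc r r' N₀ hN₀ hr hg0 hg1 hG0 hG hb hb1 hav fam

end Vale.Agent.P093
end
end
end

section

section

section

/-!
The data of `frozen_lower_data` in the form needed for the comparison criterion.
-/

open Set Filter Matrix
open scoped ENNReal ComplexOrder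

namespace Vale.Agent.P093

noncomputable section

variable {K Ω : Type*} [TopologicalSpace K] [TopologicalSpace Ω]

/-- averaged form of Kac's formula -/
theorem sum_ret_ge {g : Ω ≃ₜ Ω} {B : Set Ω} {H H' : ℕ} (hB : GoodBase g B H H') (N : ℕ) (ω : Ω) :
    (N : ℝ) - H' ≤ ∑ j ∈ Finset.range N, (open scoped Classical in
      if (g ^ (j : ℤ)) ω ∈ B then (ret g B ((g ^ (j : ℤ)) ω) : ℝ) else 0) := by
  classical
  have h1 := visits_le_sum_cnt (U := Set.univ) (N := N) (ω := ω) hB
  have h2 : ∀ (n : ℕ) (w : Ω), visits g Set.univ n w = n := by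
    intro n w
    have h0 : vset g Set.univ n w = Finset.range n := by
      ext i
      rw [mem_vset, Finset.mem_range]
      exact ⟨fun h => h.1, fun h => ⟨h, Set.mem_univ _⟩⟩
    rw [visits_eq_card, h0, Finset.card_range]
  have h3 : ∀ w : Ω, cnt g B Set.univ w = ret g B w := fun w => h2 _ _
  rw [h2, Finset.sum_congr rfl fun i _ => h3 _] at h1
  rw [sub_le_iff_le_add]
  have h4 : (N : ℝ) ≤ ∑ i ∈ wB g B ω N, (ret g B ((g ^ (i : ℤ)) ω) : ℝ) + H' := by
    exact_mod_cast h1
  refine h4.trans (le_of_eq ?_)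
  congr 1
  unfold wB fset
  rw [Finset.sum_filter]

theorem zpow_eq_iterate {X : Type*} [TopologicalSpace X] (h : X ≃ₜ X) (j : ℕ) (x : X) :
    (h ^ (j : ℤ)) x = (⇑h)^[j] x := by
  rw [zpow_natCast, pow_eq_iterate]

/-- **The data for the comparison criterion.** -/
theorem frozen_criterion_data [CompactSpace Ω] [T2Space Ω] [TotallyDisconnectedSpace Ω]
    [Infinite Ω] [CompactSpace K] [T2Space K] (g : Ω ≃ₜ Ω)
    (hd : ∀ ω, Dense (Set.range fun n : ℤ => (g ^ n) ω)) {O : Set Ω} (hO : IsOpen O) (c : Ω → K)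
    {q : ℕ} {j : (Fin q → unitInterval) → K} (hj : Continuous j) (hji : Function.Injective j)
    {r : ℝ} (hr0 : 0 ≤ r) (hr : r < (q : ℝ) / 2 * (dens g Oᶜ).toReal) :
    ∃ (n : ℕ) (a : Fin n → C(frozenSet g O c, ℝ)) (β : Fin n → Fin n → C(frozenSet g O c, ℂ))
      (r'' : ℝ) (N₀ : ℕ), 0 < N₀ ∧ r < r'' ∧ (∀ l x, a l x = 0 ∨ a l x = 1) ∧
      (∀ x, (Matrix.of fun k k' => β k k' x).PosSemidef) ∧
      (∀ x, (1 - Matrix.of fun k k' => β k k' x).PosSemidef) ∧
      (∀ x, ∑ i ∈ Finset.range N₀, ∑ l, a l ((frozenShift g O c ^ (i : ℤ)) x) + r'' * N₀ ≤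
        ∑ i ∈ Finset.range N₀, ∑ k, (β k k ((frozenShift g O c ^ (i : ℤ)) x)).re) ∧
      ∀ R : ℕ, ∃ (N M t : ℕ) (ψ : (Fin M → S2) → frozenSet g O c), Continuous ψ ∧
        ∃ (B₁ : (Fin N × Fin n → ℂ) →ₗ[ℂ] (Fin M × Fin 2 → ℂ))
          (B₂ : (Fin N × Fin n → ℂ) →ₗ[ℂ] (Fin t → ℂ)),
          (∀ v u, (∀ i, hopf (v i) *ᵥ (fun e => B₁ u (i, e)) = 0) → B₂ u = 0 →
            ∀ (i : Fin N) (k : Fin n),
              ∑ k', β k k' ((frozenShift g O c ^ ((i : ℕ) : ℤ)) (ψ v)) * u (i, k') = 0) ∧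
          ∀ v, t < (open scoped Classical in (Finset.univ.filter fun p : Fin N × Fin n =>
            R ≤ (p.1 : ℕ) ∧ (p.1 : ℕ) + R < N ∧
              a p.2 ((frozenShift g O c ^ ((p.1 : ℕ) : ℤ)) (ψ v)) = 1).card) := by
  classical
  obtain ⟨d, Γ, V, H, H', r', B, a, b, hrr', hB, ha, hb, haoff, had, hbp, hbc, htr, htest⟩ :=
    frozen_lower_data g hd hO c hj hji hr0 hr
  set T := frozenShift g O c with hT
  let e := Fintype.equivFin (Idx Γ d V)
  have hr'0 : 0 < r' := lt_of_le_of_lt hr0 hrr'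
  have haij : ∀ i j, Continuous fun x => a x i j := fun i j => ha.matrix_elem i j
  have hbij : ∀ i j, Continuous fun x => b x i j := fun i j => hb.matrix_elem i j
  let A : Fin (Fintype.card (Idx Γ d V)) → C(frozenSet g O c, ℝ) := fun l =>
    ⟨fun x => (a x (e.symm l) (e.symm l)).re, Complex.continuous_re.comp (haij _ _)⟩
  let β : Fin (Fintype.card (Idx Γ d V)) → Fin (Fintype.card (Idx Γ d V)) →
      C(frozenSet g O c, ℂ) := fun k k' => ⟨fun x => b x (e.symm k) (e.symm k'), hbij _ _⟩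
  have hβ : ∀ x, (Matrix.of fun k k' => β k k' x) = (b x).submatrix e.symm e.symm := fun x => rfl
  set r'' := (r + r') / 2 with hr''
  obtain ⟨N₀, hN₀⟩ := exists_nat_gt (r' * H' / (r' - r'') + 1)
  have hrd : 0 < r' - r'' := by rw [hr'']; linarith only [hrr']
  have hN₀0 : 0 < N₀ := by
    have : (0 : ℝ) < N₀ := lt_of_le_of_lt (by (clear * - hr'0 hrd; positivity)) hN₀
    exact_mod_cast this
  have hN₀1 : r' * H' ≤ (r' - r'') * N₀ := by
    have h1 : r' * H' / (r' - r'') < N₀ := by linarith only [hN₀]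
    rw [div_lt_iff₀ hrd] at h1
    linarith only [h1]
  refine ⟨Fintype.card (Idx Γ d V), A, β, r'', N₀, hN₀0, by rw [hr'']; linarith only [hr'', hrd], ?_, ?_, ?_, ?_, ?_⟩
  · intro l x
    change (a x (e.symm l) (e.symm l)).re = 0 ∨ (a x (e.symm l) (e.symm l)).re = 1
    rcases had x (e.symm l) with h | h
    · left; rw [h]; rfl
    · right; rw [h]; rfl
  · intro x
    rw [hβ]
    exact (hbp x).submatrix _
  · intro x
    have h1 : (1 - Matrix.of fun k k' => β k k' x) = (1 - b x).submatrix e.symm e.symm := by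
      rw [hβ]
      ext i j
      simp [Matrix.one_apply]
    rw [h1]
    exact (hbc x).submatrix _
  · intro x
    have hsum : ∀ y : frozenSet g O c, ∑ l, A l y + r' * (if y.1.2 ∈ B then (ret g B y.1.2 : ℝ) else 0) ≤
        ∑ k, (β k k y).re := by
      intro y
      have h1 := htr y
      have h2 : ∑ l, A l y = (a y).trace.re := by
        rw [Matrix.trace, Complex.re_sum]
        exact Equiv.sum_comp e.symm (fun i => (a y i i).re)
      have h3 : ∑ k, (β k k y).re = (b y).trace.re := by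
        rw [Matrix.trace, Complex.re_sum]
        exact Equiv.sum_comp e.symm (fun i => (b y i i).re)
      rw [h2, h3]
      exact h1
    have h1 := Finset.sum_le_sum fun i (_ : i ∈ Finset.range N₀) => hsum ((T ^ (i : ℤ)) x)
    rw [Finset.sum_add_distrib, ← Finset.mul_sum] at h1
    have h2 := sum_ret_ge hB N₀ x.1.2
    have h3 : ∑ i ∈ Finset.range N₀, (if ((T ^ (i : ℤ)) x).1.2 ∈ B then
        (ret g B ((T ^ (i : ℤ)) x).1.2 : ℝ) else 0) = ∑ j ∈ Finset.range N₀,
        (if (g ^ (j : ℤ)) x.1.2 ∈ B then (ret g B ((g ^ (j : ℤ)) x.1.2) : ℝ) else 0) := by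
      apply Finset.sum_congr rfl
      intro i _
      rw [(frozen_zpow g (i : ℤ) x).2]
    rw [h3] at h1
    have h4 : r' * ((N₀ : ℝ) - H') ≤ r' * ∑ j ∈ Finset.range N₀,
        (if (g ^ (j : ℤ)) x.1.2 ∈ B then (ret g B ((g ^ (j : ℤ)) x.1.2) : ℝ) else 0) :=
      mul_le_mul_of_nonneg_left h2 hr'0.le
    refine le_trans ?_ h1
    nlinarith only [hN₀1, h4]
  · intro R
    obtain ⟨N, M, t, ψ, α, γ, δ, hψ, hα, hαR, hαa, hγ, hδ, hker⟩ := htest R
    refine ⟨N, M, t, ψ, hψ, ?_⟩
    let B₁ : (Fin N × Fin (Fintype.card (Idx Γ d V)) → ℂ) →ₗ[ℂ] (Fin M × Fin 2 → ℂ) :=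
      LinearMap.pi fun p => LinearMap.proj (⟨(γ p.1 p.2).1, hγ p.1 p.2⟩, e (γ p.1 p.2).2)
    let B₂ : (Fin N × Fin (Fintype.card (Idx Γ d V)) → ℂ) →ₗ[ℂ] (Fin t → ℂ) :=
      LinearMap.pi fun p => LinearMap.proj (⟨(δ p).1, hδ p⟩, e (δ p).2)
    refine ⟨B₁, B₂, ?_, ?_⟩
    · intro v u h1 h2 i k
      let y : ℕ → Idx Γ d V → ℂ := fun i k => if h : i < N then u (⟨i, h⟩, e k) else 0
      have hy : ∀ (i : ℕ) (hi : i < N) (k : Idx Γ d V), y i k = u (⟨i, hi⟩, e k) := by
        intro i hi k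
        change (if h : i < N then u (⟨i, h⟩, e k) else 0) = _
        rw [dif_pos hi]
      have h3 := hker v y (by
        intro l
        have h4 := h1 l
        have h5 : (fun e' => B₁ u (l, e')) = fun e' => y (γ l e').1 (γ l e').2 := by
          funext e'
          rw [hy _ (hγ l e')]
          rfl
        rw [h5] at h4
        exact h4) (by
        intro l
        have h4 := congrFun h2 l
        rw [hy _ (hδ l)]
        exact h4) i i.2
      have h4 := congrFun h3 (e.symm k)
      simp only [Matrix.mulVec, dotProduct, Pi.zero_apply] at h4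
      rw [← h4, ← Equiv.sum_comp e.symm]
      apply Finset.sum_congr rfl
      intro k' _
      rw [hy _ i.2, Equiv.apply_symm_apply, ← zpow_eq_iterate]
      rfl
    · intro v
      have h1 : ∀ j : Fin (t + 1), (α j).1 < N := fun j => by have := (hαR j).2; omega
      have h2 : (Finset.univ : Finset (Fin (t + 1))).card ≤ (Finset.univ.filter
          fun p : Fin N × Fin (Fintype.card (Idx Γ d V)) =>
            R ≤ (p.1 : ℕ) ∧ (p.1 : ℕ) + R < N ∧ A p.2 ((T ^ ((p.1 : ℕ) : ℤ)) (ψ v)) = 1).card := by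
        apply Finset.card_le_card_of_injOn (fun j => (⟨(α j).1, h1 j⟩, e (α j).2))
        · intro j _
          rw [Finset.mem_coe, Finset.mem_filter]
          refine ⟨Finset.mem_univ _, (hαR j).1, (hαR j).2, ?_⟩
          change (a ((T ^ ((α j).1 : ℤ)) (ψ v)) (e.symm (e (α j).2)) (e.symm (e (α j).2))).re = 1
          rw [Equiv.symm_apply_apply, zpow_eq_iterate]
          have h3 := congrFun (hαa v j) (α j).2
          rw [Matrix.mulVec_single_one] at h3
          simp only [Matrix.col_apply, Pi.single_eq_same] at h3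
          rw [h3]
          rfl
        · intro j _ j' _ h
          simp only [Prod.mk.injEq, Fin.mk.injEq, EmbeddingLike.apply_eq_iff_eq] at h
          exact hα (Prod.ext h.1 h.2)
      rw [Finset.card_univ, Fintype.card_fin] at h2
      exact h2

end

end Vale.Agent.P093
end
end
end

section

section

section

/-!
Minimal systems with prescribed mean dimension and radius of comparison.
-/

open Set Filter Topology
open scoped ENNReal

namespace Vale.Agent.P093

noncomputable section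

theorem z2_infinite : Infinite Z2 := Infinite.of_injective (fun n : ℕ => (n : Z2)) Nat.cast_injective

theorem exists_frozen_odometer {K : Type} [TopologicalSpace K] [CompactSpace K] [T2Space K]
    [SecondCountableTopology K] [Nonempty K] {D : ℝ} (hD0 : 0 ≤ D) (hD1 : D < 1) :
    ∃ (O : Set Z2) (c : Z2 → K), IsOpen O ∧ ContinuousOn c O ∧ dens odo Oᶜ = ENNReal.ofReal D ∧
      IsMinimalHomeo (frozenShift odo O c) := by
  obtain ⟨T⟩ := exists_stages (TopologicalSpace.denseSeq K) hD0 hD1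
  exact ⟨T.O, T.c, T.isOpen_O, T.continuousOn_c, T.dens_eq hD0,
    fun x => T.minimal (TopologicalSpace.denseRange_denseSeq K) x⟩

theorem frozen_infinite {K : Type*} [TopologicalSpace K] (O : Set Z2) (c : Z2 → K) :
    Infinite (frozenSet odo O c) := by
  have := z2_infinite
  exact Infinite.of_surjective (fun x : frozenSet odo O c => x.1.2)
    (fun ω => frozen_surjective odo O c ω)

theorem frozen_metrizable {K : Type*} [TopologicalSpace K] [CompactSpace K] [T2Space K]
    [SecondCountableTopology K] (O : Set Z2) (c : Z2 → K) :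
    TopologicalSpace.MetrizableSpace (frozenSet odo O c) := by
  have : TopologicalSpace.MetrizableSpace K := TopologicalSpace.metrizableSpace_of_t3_secondCountable K
  infer_instance

end

end Vale.Agent.P093
end
end
end

section

section

section

/-!
The lower bound for frozen systems, for every C*-algebra satisfying the crossed product relations.
-/

open Set Filter Topology
open scoped ENNReal

namespace Vale.Agent.P093

noncomputable section

/-- minimal homeomorphisms of infinite spaces are free -/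
theorem free_of_minimal {X : Type*} [TopologicalSpace X] [T1Space X] [Infinite X] {h : X ≃ₜ X}
    (hmin : IsMinimalHomeo h) (k : ℤ) (x : X) (hk : k ≠ 0) : (h ^ k) x ≠ x := by
  intro hx
  have key : ∀ n : ℕ, 0 < n → (h ^ (n : ℤ)) x ≠ x := by
    intro n hn hx
    have := finite_of_periodic h (hmin x) hn hx
    exact not_finite X
  rcases lt_trichotomy k 0 with h0 | h0 | h0
  · obtain ⟨n, hn⟩ : ∃ n : ℕ, k = -(n : ℤ) := ⟨k.natAbs, by omega⟩
    refine key n (by omega) ?_
    have h1 : (h ^ (n : ℤ)) ((h ^ k) x) = x := by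
      change ((h ^ (n : ℤ)) * (h ^ k)) x = x
      rw [← zpow_add, hn]
      simp only [add_neg_cancel, zpow_ofNat, pow_zero, Homeomorph.one_apply]
    rwa [hx] at h1
  · exact hk h0
  · obtain ⟨n, hn⟩ : ∃ n : ℕ, k = (n : ℤ) := ⟨k.natAbs, by omega⟩
    exact key n (by omega) (by rwa [← hn])

variable {K Ω : Type*} [TopologicalSpace K] [TopologicalSpace Ω]
  {A : Type*} [CStarAlgebra A] [PartialOrder A] [StarOrderedRing A]

theorem frozen_not_bound' [CompactSpace Ω] [T2Space Ω] [TotallyDisconnectedSpace Ω]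
    [Infinite Ω] [CompactSpace K] [T2Space K] (g : Ω ≃ₜ Ω)
    (hd : ∀ ω, Dense (Set.range fun n : ℤ => (g ^ n) ω)) {O : Set Ω} (hO : IsOpen O) (c : Ω → K)
    [CompactSpace (frozenSet g O c)]
    (hfree : ∀ (k : ℤ) (x : frozenSet g O c), k ≠ 0 → ((frozenShift g O c) ^ k) x ≠ x)
    (hA : IsCrossedProduct (frozenShift g O c) A)
    {q : ℕ} {j : (Fin q → unitInterval) → K} (hj : Continuous j) (hji : Function.Injective j)
    {r : ℝ} (hr0 : 0 ≤ r) (hr : r < (q : ℝ) / 2 * (dens g Oᶜ).toReal) :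
    ¬ IsComparisonBound A r := by
  obtain ⟨n, a, β, r'', N₀, hN₀, hrr, ha, hβ, hβ1, hav, hfam⟩ :=
    frozen_criterion_data g hd hO c hj hji hr0 hr
  refine not_comparisonBound' hfree hA a a β r r'' N₀ hN₀ hrr ?_ ?_ ?_ ?_ hβ hβ1 hav ?_
  · intro l x
    rcases ha l x with h | h <;> rw [h] <;> norm_num
  · intro l x
    rcases ha l x with h | h <;> rw [h] <;> norm_num
  · intro l x
    rcases ha l x with h | h <;> rw [h] <;> norm_num
  · intro l x hne
    rcases ha l x with h | h
    · exact absurd h hne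
    · rw [h]
  · intro R
    obtain ⟨N, M, t, ψ, hψ, B₁, B₂, hB, hcard⟩ := hfam R
    refine ⟨N, M, t, ψ, hψ, B₁, B₂, hB, fun v => ?_⟩
    convert hcard v

theorem z2_lower' {K : Type} [TopologicalSpace K] [CompactSpace K] [T2Space K] {q : ℕ}
    {j : (Fin q → unitInterval) → K} (hj : Continuous j) (hji : Function.Injective j)
    {O : Set Z2} {c : Z2 → K} (hO : IsOpen O) [CompactSpace (frozenSet odo O c)]
    (hmin : IsMinimalHomeo (frozenShift odo O c))
    (hA : IsCrossedProduct (frozenShift odo O c) A) {D : ℝ}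
    (hD : 0 ≤ D) (hdens : dens odo Oᶜ = ENNReal.ofReal D) :
    ENNReal.ofReal ((q : ℝ) / 2 * D) ≤ radiusOfComparison A := by
  have := z2_infinite
  have := frozen_infinite O c
  apply le_radius
  intro r hr0 hr
  apply frozen_not_bound' odo odo_dense hO c (fun k x hk => free_of_minimal hmin k x hk) hA
    hj hji hr0
  rw [hdens, ENNReal.toReal_ofReal hD]
  exact hr

/-- **Existence.** For every `t ∈ [0, ∞]` there is a minimal homeomorphism of an infinite compact
metrizable space with mean dimension at most `t` and radius of comparison at least `t / 2`. -/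
theorem exists_minimal_system' (t : ℝ≥0∞) :
    ∃ (X : Type) (_ : TopologicalSpace X) (_ : CompactSpace X)
      (_ : TopologicalSpace.MetrizableSpace X) (_ : Infinite X) (h : X ≃ₜ X),
      IsMinimalHomeo h ∧ meanDim h ≤ t ∧
      ∀ (A : Type*) [CStarAlgebra A] [PartialOrder A] [StarOrderedRing A],
        IsCrossedProduct h A → t / 2 ≤ radiusOfComparison A := by
  by_cases ht : t = ∞
  · subst ht
    obtain ⟨O, c, hO, hc, hdens, hmin⟩ := exists_frozen_odometer (K := ℕ → unitInterval)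
      (D := 1 / 2) (by norm_num) (by norm_num)
    have hcomp := frozen_compact odo hO hc
    refine ⟨frozenSet odo O c, inferInstance, hcomp, frozen_metrizable O c, frozen_infinite O c,
      frozenShift odo O c, hmin, le_top, ?_⟩
    intro A _ _ _ hA
    have hq : ∀ q : ℕ, ENNReal.ofReal ((q : ℝ) / 2 * (1 / 2)) ≤ radiusOfComparison A := by
      intro q
      let j : (Fin q → unitInterval) → (ℕ → unitInterval) := fun x n =>
        if h : n < q then x ⟨n, h⟩ else 0
      have hj : Continuous j := by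
        apply continuous_pi
        intro n
        by_cases h : n < q
        · simp only [j, h, dif_pos]
          exact continuous_apply _
        · simp only [j, h, dif_neg, not_false_eq_true]
          exact continuous_const
      have hji : Function.Injective j := by
        intro x y hxy
        funext i
        have := congrFun hxy i
        simpa [j] using this
      exact z2_lower' hj hji hO hmin hA (by norm_num) hdens
    have htop : radiusOfComparison A = ∞ := by
      apply ENNReal.eq_top_of_forall_nnreal_le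
      intro r
      apply le_of_lt
      obtain ⟨q, hq'⟩ := exists_nat_gt (4 * (r : ℝ))
      refine lt_of_lt_of_le ?_ (hq q)
      rw [← ENNReal.ofReal_coe_nnreal, ENNReal.ofReal_lt_ofReal_iff]
      · linarith only [hq']
      · have := r.2
        have h0 : (0 : ℝ) ≤ r := r.2
        linarith
    rw [htop]
    exact le_top
  · -- finite case
    obtain ⟨q, hq⟩ := exists_nat_gt t.toReal
    have ht0 : 0 ≤ t.toReal := ENNReal.toReal_nonneg
    have hq0 : (0 : ℝ) < q := lt_of_le_of_lt ht0 hq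
    have hD0 : 0 ≤ t.toReal / q := by (clear * - hq0; positivity)
    have hD1 : t.toReal / q < 1 := by rwa [div_lt_one hq0]
    obtain ⟨O, c, hO, hc, hdens, hmin⟩ := exists_frozen_odometer (K := Fin q → unitInterval)
      (D := t.toReal / q) hD0 hD1
    have hcomp := frozen_compact odo hO hc
    refine ⟨frozenSet odo O c, inferInstance, hcomp, frozen_metrizable O c, frozen_infinite O c,
      frozenShift odo O c, hmin, ?_, ?_⟩
    · refine (meanDim_frozen_le odo hO hc).trans ?_
      rw [hdens]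
      calc coveringDim (Fin q → unitInterval) * ENNReal.ofReal (t.toReal / q)
          ≤ (q : ℝ≥0∞) * ENNReal.ofReal (t.toReal / q) := by
            gcongr
            exact coveringDim_cube_le q
        _ = ENNReal.ofReal ((q : ℝ) * (t.toReal / q)) := by
            rw [ENNReal.ofReal_mul hq0.le, ENNReal.ofReal_natCast]
        _ = t := by
            rw [mul_div_cancel₀ _ hq0.ne', ENNReal.ofReal_toReal ht]
    · intro A _ _ _ hA
      have h1 := z2_lower' (j := (id : (Fin q → unitInterval) → (Fin q → unitInterval)))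
        (c := c) continuous_id Function.injective_id hO hmin hA hD0 hdens
      refine le_trans (le_of_eq ?_) h1
      have h2 : (q : ℝ) / 2 * (t.toReal / q) = t.toReal / 2 := by
        (clear * - hq0; field_simp)
      rw [h2, ENNReal.ofReal_div_of_pos (by norm_num), ENNReal.ofReal_toReal ht,
        ENNReal.ofReal_ofNat]

/-- crossed products exist -/
theorem exists_isCrossedProduct {X : Type} [TopologicalSpace X] [CompactSpace X] [T2Space X]
    (h : X ≃ₜ X) : ∃ (A : Type) (_ : CStarAlgebra A) (_ : PartialOrder A) (_ : StarOrderedRing A),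
      IsCrossedProduct h A :=
  ⟨CrossedProduct h, inferInstance, inferInstance, inferInstance,
    isCrossedProduct_crossedProduct h⟩

end

end Vale.Agent.P093
end
end
end

section

section

section
open Filter Topology Set
open scoped ENNReal
namespace Vale.Agent.P093

/-- **Theorem R.** Lower bound for the radius of comparison from uniformly free cubes. -/
theorem free_cubes_lower_bound {X : Type*} [MetricSpace X] [CompactSpace X] [Infinite X]
    {h : X ≃ₜ X} (hmin : IsMinimalHomeo h) {q : ℕ}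
    {f : X → Fin q → unitInterval} (hf : Continuous f)
    {O₀ : Set unitInterval} (hO₀ : IsOpen O₀) (hne : O₀.Nonempty) {μ : ℝ}
    {Λ : Type*} {NN : Λ → ℕ} {J : Λ → Finset (ℕ × Fin q)}
    {Ψ : Λ → (ℕ → Fin q → unitInterval) → X}
    (hJ : ∀ k, ∀ p ∈ J k, p.1 < NN k) (hΨ : ∀ k, Continuous (Ψ k))
    (hfree : ∀ ε > 0, ∀ N₀ : ℕ, ∃ k, N₀ ≤ NN k ∧ (μ - ε) * NN k ≤ (J k).card)
    (hΨJ : ∀ k, ∀ p ∈ J k, ∀ y, f ((h ^ (p.1 : ℤ)) (Ψ k y)) p.2 = y p.1 p.2)
    (hΨO : ∀ k, ∀ p : ℕ × Fin q, p.1 < NN k → p ∉ J k →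
      (∀ y, f ((h ^ (p.1 : ℤ)) (Ψ k y)) p.2 ∉ O₀) ∨
      ∃ c, ∀ y, f ((h ^ (p.1 : ℤ)) (Ψ k y)) p.2 = c)
    (hequi : ∀ δ > 0, ∃ η > 0, ∀ k, ∀ i < NN k, ∀ y y' : ℕ → Fin q → unitInterval,
      (∀ j s, dist (y j s) (y' j s) < η) →
        dist ((h ^ (i : ℤ)) (Ψ k y)) ((h ^ (i : ℤ)) (Ψ k y')) < δ)
    {A : Type*} [CStarAlgebra A] [PartialOrder A] [StarOrderedRing A]
    (hA : IsCrossedProduct h A) : ENNReal.ofReal (μ / 2) ≤ radiusOfComparison A := by
  refine le_radius A _ fun r hr0 hr => ?_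
  exact (r_critData hmin hf hO₀ hne hJ hΨ hfree hΨJ hΨO hequi hr0 hr).not_comparisonBound'
    (free_of_minimal hmin) hA

/-- **Theorem R** for sequences of free cubes. -/
theorem free_cubes_limsup {X : Type*} [MetricSpace X] [CompactSpace X] [Infinite X]
    {h : X ≃ₜ X} (hmin : IsMinimalHomeo h) {q : ℕ}
    {f : X → Fin q → unitInterval} (hf : Continuous f)
    {O : Set unitInterval} (hO : IsOpen O) (hne : O.Nonempty)
    {N : ℕ → ℕ} (hN : Tendsto N atTop atTop) {J : ℕ → Finset (ℕ × Fin q)}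
    {Ψ : ℕ → (ℕ → Fin q → unitInterval) → X}
    (hJ : ∀ k, ∀ p ∈ J k, p.1 < N k) (hΨ : ∀ k, Continuous (Ψ k))
    (hΨJ : ∀ k, ∀ p ∈ J k, ∀ y, f ((h ^ (p.1 : ℤ)) (Ψ k y)) p.2 = y p.1 p.2)
    (hΨO : ∀ k, ∀ p : ℕ × Fin q, p.1 < N k → p ∉ J k →
      (∀ y, f ((h ^ (p.1 : ℤ)) (Ψ k y)) p.2 ∉ O) ∨
      ∃ c, ∀ y, f ((h ^ (p.1 : ℤ)) (Ψ k y)) p.2 = c)
    (hequi : ∀ δ > 0, ∃ η > 0, ∀ k, ∀ i < N k, ∀ y y' : ℕ → Fin q → unitInterval,
      (∀ j s, dist (y j s) (y' j s) < η) →
        dist ((h ^ (i : ℤ)) (Ψ k y)) ((h ^ (i : ℤ)) (Ψ k y')) < δ)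
    {A : Type*} [CStarAlgebra A] [PartialOrder A] [StarOrderedRing A]
    (hA : IsCrossedProduct h A) :
    limsup (fun k => ((J k).card : ℝ≥0∞) / N k) atTop / 2 ≤ radiusOfComparison A := by
  refine ENNReal.div_le_of_le_mul ?_
  refine le_of_forall_lt fun c hc => ?_
  obtain ⟨c', hcc', hc'⟩ := exists_between hc
  have hct : c' ≠ ⊤ := hc'.ne_top
  set μ : ℝ := c'.toReal with hμ
  have hcμ : c' = ENNReal.ofReal μ := (ENNReal.ofReal_toReal hct).symm
  have hfreq := frequently_lt_of_lt_limsup Filter.isCobounded_le_of_bot hc'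
  have key : ENNReal.ofReal (μ / 2) ≤ radiusOfComparison A := by
    refine free_cubes_lower_bound hmin hf hO hne (NN := N) (J := J) (Ψ := Ψ) hJ hΨ ?_ hΨJ hΨO
      hequi hA
    intro ε hε N₀
    obtain ⟨k, hk1, hk2⟩ := (hfreq.and_eventually (hN.eventually_ge_atTop (max N₀ 1))).exists
    refine ⟨k, (le_max_left _ _).trans hk2, ?_⟩
    have hNk : 0 < N k := lt_of_lt_of_le Nat.one_pos ((le_max_right _ _).trans hk2)
    have hNk' : (0 : ℝ) < N k := by exact_mod_cast hNk
    have h1 : μ ≤ (J k).card / (N k : ℝ) := by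
      have h2 : c' ≤ ENNReal.ofReal ((J k).card / (N k : ℝ)) := by
        refine hk1.le.trans (le_of_eq ?_)
        rw [ENNReal.ofReal_div_of_pos hNk', ENNReal.ofReal_natCast, ENNReal.ofReal_natCast]
      rw [hμ]
      exact ENNReal.toReal_le_of_le_ofReal (div_nonneg (Nat.cast_nonneg _) (Nat.cast_nonneg _)) h2
    rw [le_div_iff₀ hNk'] at h1
    have h3 : (μ - ε) * N k ≤ μ * N k := by
      have := mul_pos hε hNk'
      linarith only [this]
    linarith only [h1, h3]
  refine hcc'.trans_le ?_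
  rw [hcμ]
  have h4 : ENNReal.ofReal μ = ENNReal.ofReal (μ / 2) * 2 := by
    rw [← ENNReal.ofReal_ofNat 2, ← ENNReal.ofReal_mul (by (clear * -; positivity))]
    congr 1
    ring
  rw [h4]
  (clear c hc hcc' hct hcμ h4; gcongr)

end Vale.Agent.P093
end
end
end

section

section

section

/-!
Corollary of Theorem R: subshifts of `K^ℤ × Y` with free faces.
-/

open Filter Topology Set
open scoped ENNReal

namespace Vale.Agent.P093

/-- a left inverse of an embedded cube -/
theorem exists_cube_retraction {K : Type*} [TopologicalSpace K] [CompactSpace K] [T2Space K]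
    {q : ℕ} {e : (Fin q → unitInterval) → K} (he : Continuous e) (hei : Function.Injective e) :
    ∃ ret : K → (Fin q → unitInterval), Continuous ret ∧ ∀ y, ret (e y) = y := by
  have hce : IsClosedEmbedding e := he.isClosedEmbedding hei
  let F : C((Fin q → unitInterval), Fin q → ℝ) :=
    ⟨fun y s => ((y s : unitInterval) : ℝ), by fun_prop⟩
  obtain ⟨G, hG⟩ := ContinuousMap.exists_extension hce F
  refine ⟨fun k s => Set.projIcc (0 : ℝ) 1 zero_le_one (G k s), ?_, ?_⟩
  · refine continuous_pi fun s => continuous_projIcc.comp ?_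
    exact (continuous_apply s).comp G.continuous
  · intro y
    funext s
    have h1 : G (e y) = F y := by
      have := congrArg (fun φ => φ y) hG
      simpa using this
    simp only [h1]
    exact Set.projIcc_val zero_le_one (y s)

/-- uniform closeness in an embedded subshift -/
theorem exists_close_of_coord {X K Y : Type*} [MetricSpace X] [CompactSpace X] [MetricSpace K]
    [TopologicalSpace Y] [T2Space Y] {c : X → (ℤ → K) × Y} (hc : Continuous c)
    (hci : Function.Injective c) {δ : ℝ} (hδ : 0 < δ) :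
    ∃ r > 0, ∀ x x' : X, (∀ i, dist ((c x).1 i) ((c x').1 i) < r) → (c x).2 = (c x').2 →
      dist x x' < δ := by
  let S : Set (X × X) := {p | δ ≤ dist p.1 p.2 ∧ (c p.1).2 = (c p.2).2}
  have hSc : IsClosed S := by
    refine IsClosed.inter ?_ ?_
    · exact isClosed_le continuous_const continuous_dist
    · exact isClosed_eq ((continuous_snd.comp hc).comp continuous_fst)
        ((continuous_snd.comp hc).comp continuous_snd)
  let U : ℕ → Set (X × X) := fun n => {p | ∃ i, (1 : ℝ) / (n + 1) < dist ((c p.1).1 i) ((c p.2).1 i)}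
  have hUo : ∀ n, IsOpen (U n) := by
    intro n
    have : U n = ⋃ i : ℤ, {p : X × X | (1 : ℝ) / (n + 1) < dist ((c p.1).1 i) ((c p.2).1 i)} := by
      ext p
      simp only [one_div, mem_ofPred_eq, mem_iUnion, U]
    rw [this]
    refine isOpen_iUnion fun i => isOpen_lt continuous_const ?_
    exact (((continuous_apply i).comp (continuous_fst.comp hc)).comp continuous_fst).dist
      (((continuous_apply i).comp (continuous_fst.comp hc)).comp continuous_snd)
  have hmono : Monotone U := by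
    intro m n hmn p hp
    obtain ⟨i, hi⟩ := hp
    refine ⟨i, lt_of_le_of_lt ?_ hi⟩
    exact one_div_le_one_div_of_le (by (clear * -; positivity)) (by exact_mod_cast Nat.succ_le_succ hmn)
  have hcov : S ⊆ ⋃ n, U n := by
    rintro ⟨x, x'⟩ ⟨h1, h2⟩
    have hne : x ≠ x' := by
      rintro rfl
      simp only [dist_self] at h1
      linarith only [hδ, h1]
    have h3 : (c x).1 ≠ (c x').1 := by
      intro h3
      exact hne (hci (Prod.ext h3 h2))
    obtain ⟨i, hi⟩ := Function.ne_iff.1 h3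
    obtain ⟨n, hn⟩ := exists_nat_one_div_lt (dist_pos.2 hi)
    exact mem_iUnion.2 ⟨n, i, hn⟩
  obtain ⟨n, hn⟩ := hSc.isCompact.elim_directed_cover U hUo hcov (directed_of_isDirected_le hmono)
  refine ⟨1 / ((n : ℝ) + 1), by positivity, fun x x' h1 h2 => ?_⟩
  by_contra h3
  obtain ⟨i, hi⟩ := hn (show (x, x') ∈ S from ⟨not_lt.1 h3, h2⟩)
  exact absurd (h1 i) (not_lt.2 hi.le)

/-- **Subshifts with free faces.** `X` is an infinite minimal system embedded in `K^ℤ × Y`
(shift times any map `g`), `K` contains the cube `[0,1]^q`, and for `N → ∞` the system contains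
faces with about `ρ N` free coordinates in `[0,N)`. Then `q ρ / 2 ≤ rc(A)`. -/
theorem subshift_lower_bound {X : Type*} [MetricSpace X] [CompactSpace X] [Infinite X]
    {h : X ≃ₜ X} (hmin : IsMinimalHomeo h)
    {K : Type*} [MetricSpace K] [CompactSpace K] {Y : Type*} [TopologicalSpace Y] [T2Space Y]
    {q : ℕ} {e : (Fin q → unitInterval) → K} (he : Continuous e) (hei : Function.Injective e)
    {c : X → (ℤ → K) × Y} (hc : Continuous c) (hci : Function.Injective c)
    (hcs : ∀ x i, (c (h x)).1 i = (c x).1 (i + 1)) {g : Y → Y} (hcg : ∀ x, (c (h x)).2 = g (c x).2)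
    {ρ : ℝ}
    (hfree : ∀ ε > 0, ∀ N₀ : ℕ, ∃ N : ℕ, N₀ ≤ N ∧ ∃ J ⊆ Finset.Ico (0 : ℤ) N,
      (ρ - ε) * N ≤ J.card ∧ ∃ x₀ : X, ∀ z : ℤ → K, (∀ i ∈ J, z i ∈ range e) →
        (∀ i ∉ J, z i = (c x₀).1 i) → (z, (c x₀).2) ∈ range c)
    {A : Type*} [CStarAlgebra A] [PartialOrder A] [StarOrderedRing A]
    (hA : IsCrossedProduct h A) : ENNReal.ofReal (q * ρ / 2) ≤ radiusOfComparison A := by
  classical
  obtain ⟨ret, hret, hre⟩ := exists_cube_retraction he hei
  have hce : IsClosedEmbedding c := hc.isClosedEmbedding hci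
  -- coordinates of iterates
  have hcoord : ∀ (j : ℕ) (x : X) (i : ℤ), (c ((h ^ (j : ℤ)) x)).1 i = (c x).1 (i + j) := by
    intro j
    induction j with
    | zero => intro x i; simp only [CharP.cast_eq_zero, zpow_ofNat, pow_zero, Homeomorph.one_apply, add_zero]
    | succ j ih =>
      intro x i
      have h1 : (h ^ ((j + 1 : ℕ) : ℤ)) x = h ((h ^ (j : ℤ)) x) := by
        rw [Nat.cast_succ, add_comm, zpow_one_add]
        rfl
      rw [h1, hcs, ih]
      push_cast
      ring_nf
  have hbase : ∀ (j : ℕ) (x : X), (c ((h ^ (j : ℤ)) x)).2 = g^[j] (c x).2 := by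
    intro j
    induction j with
    | zero => intro x; simp only [CharP.cast_eq_zero, zpow_ofNat, pow_zero, Homeomorph.one_apply, Function.iterate_zero, id_eq]
    | succ j ih =>
      intro x
      have h1 : (h ^ ((j + 1 : ℕ) : ℤ)) x = h ((h ^ (j : ℤ)) x) := by
        rw [Nat.cast_succ, add_comm, zpow_one_add]
        rfl
      rw [h1, hcg, ih, Function.iterate_succ_apply']
  -- the index set
  let Λ := {t : ℕ × Finset ℕ × X // (∀ i ∈ t.2.1, i < t.1) ∧
    ∀ y : ℕ → Fin q → unitInterval, ∃ x : X,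
      c x = (fun i : ℤ => if i.toNat ∈ t.2.1 ∧ 0 ≤ i then e (y i.toNat) else (c t.2.2).1 i,
        (c t.2.2).2)}
  let NN : Λ → ℕ := fun k => k.1.1
  let JJ : Λ → Finset (ℕ × Fin q) := fun k => k.1.2.1 ×ˢ Finset.univ
  choose Ψ hΨ using fun k : Λ => k.2.2
  have hf : Continuous fun x : X => ret ((c x).1 0) :=
    hret.comp ((continuous_apply 0).comp (continuous_fst.comp hc))
  have key : ∀ (k : Λ) (i : ℕ) (y : ℕ → Fin q → unitInterval),
      (c ((h ^ (i : ℤ)) (Ψ k y))).1 0 = if i ∈ k.1.2.1 then e (y i) else (c k.1.2.2).1 i := by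
    intro k i y
    rw [hcoord, hΨ]
    simp only [zero_add, Int.toNat_natCast, Nat.cast_nonneg, and_true]
  refine free_cubes_lower_bound hmin (q := q) (f := fun x => ret ((c x).1 0)) hf
    (O₀ := univ) isOpen_univ ⟨0, trivial⟩ (μ := q * ρ) (Λ := Λ) (NN := NN) (J := JJ) (Ψ := Ψ)
    ?_ ?_ ?_ ?_ ?_ ?_ hA
  · intro k p hp
    exact k.2.1 p.1 (Finset.mem_product.1 hp).1
  · intro k
    rw [hce.continuous_iff]
    have h1 : c ∘ Ψ k = fun y => (fun i : ℤ => if i.toNat ∈ k.1.2.1 ∧ 0 ≤ i then e (y i.toNat)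
        else (c k.1.2.2).1 i, (c k.1.2.2).2) := by
      funext y
      exact hΨ k y
    rw [h1]
    refine Continuous.prodMk ?_ continuous_const
    refine continuous_pi fun i => ?_
    by_cases hi : i.toNat ∈ k.1.2.1 ∧ 0 ≤ i
    · simp only [if_pos hi]
      exact he.comp (continuous_apply _)
    · simp only [if_neg hi]
      exact continuous_const
  · intro ε hε N₀
    obtain ⟨N, hN, J, hJ, hcard, x₀, hx₀⟩ := hfree (ε / (q + 1)) (by (clear * - hε; positivity)) N₀
    let J' : Finset ℕ := J.image Int.toNat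
    have hmem : ∀ i : ℤ, (i.toNat ∈ J' ∧ 0 ≤ i) ↔ i ∈ J := by
      intro i
      constructor
      · rintro ⟨h1, h2⟩
        obtain ⟨j, hj, hji⟩ := Finset.mem_image.1 h1
        have hj0 : 0 ≤ j := (Finset.mem_Ico.1 (hJ hj)).1
        have : i = j := by
          have := congrArg (fun n : ℕ => (n : ℤ)) hji
          simp only [Int.toNat_of_nonneg hj0, Int.toNat_of_nonneg h2] at this
          exact this.symm
        rw [this]
        exact hj
      · intro h1
        exact ⟨Finset.mem_image_of_mem _ h1, (Finset.mem_Ico.1 (hJ h1)).1⟩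
    have hcJ : J'.card = J.card := by
      refine Finset.card_image_of_injOn ?_
      intro a ha b hb hab
      have ha0 : 0 ≤ a := (Finset.mem_Ico.1 (hJ ha)).1
      have hb0 : 0 ≤ b := (Finset.mem_Ico.1 (hJ hb)).1
      have := congrArg (fun n : ℕ => (n : ℤ)) hab
      simpa only [Int.toNat_of_nonneg ha0, Int.toNat_of_nonneg hb0] using this
    refine ⟨⟨(N, J', x₀), ?_, ?_⟩, hN, ?_⟩
    · intro i hi
      obtain ⟨j, hj, hji⟩ := Finset.mem_image.1 hi
      have hj' := Finset.mem_Ico.1 (hJ hj)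
      change i < N
      omega
    · intro y
      have h1 := hx₀ (fun i : ℤ => if i.toNat ∈ J' ∧ 0 ≤ i then e (y i.toNat) else (c x₀).1 i)
        (fun i hi => by rw [if_pos ((hmem i).2 hi)]; exact mem_range_self _)
        (fun i hi => by rw [if_neg (fun h => hi ((hmem i).1 h))])
      obtain ⟨x, hx⟩ := h1
      exact ⟨x, hx⟩
    · have h2 : ((J' ×ˢ (Finset.univ : Finset (Fin q))).card : ℝ) = J.card * q := by
        rw [Finset.card_product, hcJ, Finset.card_fin]
        push_cast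
        ring
      change ((q : ℝ) * ρ - ε) * (N : ℝ) ≤ ((J' ×ˢ (Finset.univ : Finset (Fin q))).card : ℝ)
      rw [h2]
      have hq0 : (0 : ℝ) ≤ q := Nat.cast_nonneg q
      have h3 := mul_le_mul_of_nonneg_right hcard hq0
      have h4 : (q : ℝ) * (ε / (q + 1)) ≤ ε := by
        rw [mul_div_assoc', div_le_iff₀ (by (clear * -; positivity))]
        nlinarith only [hε]
      have hN0 : (0 : ℝ) ≤ N := Nat.cast_nonneg N
      nlinarith only [h3, h4]
  · intro k p hp y
    have hp1 := (Finset.mem_product.1 hp).1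
    simp only [key k p.1 y, if_pos hp1, hre]
  · intro k p hp hpJ
    right
    have hp1 : p.1 ∉ k.1.2.1 := fun hc' => hpJ (Finset.mem_product.2 ⟨hc', Finset.mem_univ _⟩)
    exact ⟨ret ((c k.1.2.2).1 p.1) p.2, fun y => by simp only [key k p.1 y, if_neg hp1]⟩
  · intro δ hδ
    obtain ⟨r, hr, hclose⟩ := exists_close_of_coord hc hci hδ
    have heu : UniformContinuous e := CompactSpace.uniformContinuous_of_continuous he
    obtain ⟨η, hη, heη⟩ := Metric.uniformContinuous_iff.1 heu r hr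
    refine ⟨η, hη, fun k i hi y y' hyy => ?_⟩
    refine hclose _ _ (fun j => ?_) ?_
    · rw [hcoord, hcoord, hΨ, hΨ]
      by_cases hj : (j + i).toNat ∈ k.1.2.1 ∧ 0 ≤ j + i
      · simp only [if_pos hj]
        refine heη ?_
        exact (dist_pi_lt_iff hη).2 fun s => hyy _ s
      · simp only [if_neg hj, dist_self]
        exact hr
    · rw [hbase, hbase, hΨ, hΨ]

end Vale.Agent.P093
end
end
end

section

section

section

/-!
The inequality `mdim / 2 ≤ rc` for minimal extensions of zero-dimensional systems inside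
`K^ℤ × Y` with free faces.
-/

open Filter Topology Set TopologicalSpace
open scoped ENNReal

namespace Vale.Agent.P093

noncomputable section

theorem base_zpow {X K Y : Type*} [TopologicalSpace X] [TopologicalSpace Y] {h : X ≃ₜ X}
    {c : X → (ℤ → K) × Y} {g : Y ≃ₜ Y} (hcg : ∀ x, (c (h x)).2 = g (c x).2) (j : ℤ) (x : X) :
    (c ((h ^ j) x)).2 = (g ^ j) (c x).2 := by
  induction j using Int.induction_on generalizing x with
  | zero => simp only [zpow_ofNat, pow_zero, Homeomorph.one_apply]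
  | succ j ih =>
    have h1 : (h ^ ((j : ℤ) + 1)) x = (h ^ (j : ℤ)) (h x) := by
      rw [zpow_add_one]
      rfl
    have h2 : (g ^ ((j : ℤ) + 1)) (c x).2 = (g ^ (j : ℤ)) (g (c x).2) := by
      rw [zpow_add_one]
      rfl
    rw [h1, h2, ih, hcg]
  | pred j ih =>
    have h1 : (h ^ (-(j : ℤ) - 1)) x = (h ^ (-(j : ℤ))) (h.symm x) := by
      rw [sub_eq_add_neg, zpow_add, zpow_neg_one]
      rfl
    have h2 : (g ^ (-(j : ℤ) - 1)) (c x).2 = (g ^ (-(j : ℤ))) (g.symm (c x).2) := by
      rw [sub_eq_add_neg, zpow_add, zpow_neg_one]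
      rfl
    have h3 : (c (h.symm x)).2 = g.symm (c x).2 := by
      have := hcg (h.symm x)
      rw [h.apply_symm_apply] at this
      rw [this, g.symm_apply_apply]
    rw [h1, h2, ih, h3]

/-- **Upper bound for the mean dimension of extensions of zero-dimensional systems.** -/
theorem meanDim_extension_le {X : Type*} [TopologicalSpace X] [CompactSpace X] {K Y : Type*}
    [TopologicalSpace K] [CompactSpace K] [T2Space K] [TopologicalSpace Y] [CompactSpace Y]
    [T2Space Y] [TotallyDisconnectedSpace Y] {h : X ≃ₜ X} {c : X → (ℤ → K) × Y}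
    (hc : Continuous c) (hci : Function.Injective c)
    (hcs : ∀ x i, (c (h x)).1 i = (c x).1 (i + 1)) {g : Y ≃ₜ Y}
    (hcg : ∀ x, (c (h x)).2 = g (c x).2) {ρ : ℝ}
    (hup : ∀ ε > 0, ∃ N : ℕ, 0 < N ∧ ∀ y : Y, ∃ V ∈ 𝓝 y, ∃ Γ : Set (Y → K), Γ.Finite ∧
      (∀ γ ∈ Γ, ContinuousOn γ V) ∧ ∀ x, (c x).2 ∈ V →
        ({i : ℤ | 0 ≤ i ∧ i < N ∧ ∀ γ ∈ Γ, (c x).1 i ≠ γ (c x).2}.ncard : ℝ) ≤ (ρ + ε) * N) :
    meanDim h ≤ coveringDim K * ENNReal.ofReal ρ := by
  classical
  let _ : UniformSpace K := uniformSpaceOfCompactR1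
  let _ : UniformSpace Y := uniformSpaceOfCompactR1
  refine (meanDim_le_mdim h).trans ?_
  unfold mdim
  apply iSup₂_le
  intro U hU
  obtain ⟨W, M, hW, hWL⟩ := coverD_join_sub_le2 hc hci hcs hcg hU
  have hA : (coverD W : ℝ≥0∞) ≤ coveringDim K := by
    refine le_trans ?_ covDim_le_coveringDim
    exact le_iSup₂ (f := fun (U : Set (Set K)) (_ : IsFinCover U) => (coverD U : ℝ≥0∞)) W hW
  have hcz := fun (j : ℤ) x i => coord_iterate (h := h) hcs j x i
  have hgz := fun (j : ℤ) x => base_zpow (h := h) hcg j x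
  have h1 : ∀ ε : ℝ, 0 < ε → limsup (fun N : ℕ =>
      (coverD (coverJoin h U N) : ℝ≥0∞) / (N : ℝ≥0∞)) atTop ≤
      (coverD W : ℝ≥0∞) * (ENNReal.ofReal ρ + ENNReal.ofReal ε) := by
    intro ε hε
    obtain ⟨N₁, hN₁, hy⟩ := hup ε hε
    set v := ⌊(ρ + ε) * N₁⌋₊ with hv
    have hNF : NearFinite c 0 N₁ v := by
      intro y
      obtain ⟨V, hV, Γ, hΓ, hΓc, hx⟩ := hy y
      refine ⟨V, hV, Γ, hΓ, hΓc, fun x hxV => Nat.le_floor ?_⟩
      simpa only [zero_add, ne_eq] using hx x hxV
    have hN₁' : (0 : ℝ) < N₁ := by exact_mod_cast hN₁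
    have hN₁0 : (N₁ : ℝ≥0∞) ≠ 0 := by exact_mod_cast hN₁.ne'
    have hvle : (v : ℝ≥0∞) / N₁ ≤ ENNReal.ofReal ρ + ENNReal.ofReal ε := by
      rw [ENNReal.div_le_iff hN₁0 (ENNReal.natCast_ne_top _)]
      rcases le_total 0 ((ρ + ε) * N₁) with h0 | h0
      · have h2 : (v : ℝ) ≤ (ρ + ε) * N₁ := Nat.floor_le h0
        rw [← ENNReal.ofReal_natCast v, ← ENNReal.ofReal_natCast N₁]
        refine (ENNReal.ofReal_le_ofReal h2).trans ?_
        rw [ENNReal.ofReal_mul' hN₁'.le]
        gcongr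
        exact ENNReal.ofReal_add_le
      · have : v = 0 := Nat.floor_of_nonpos h0
        rw [this]
        simp
    refine (limsup_visits (A := coverD W) (v := v) (L := 2 * M + 1) hN₁ ?_).trans ?_
    · intro N
      have h2 : NearFinite c (-M) (N + (2 * M + 1))
          (((N + (2 * M + 1)) / N₁ + 1) * v) := by
        have h3 := hNF.mul hcz hgz (-M) ((N + (2 * M + 1)) / N₁ + 1)
        intro y
        obtain ⟨V, hV, Γ, hΓ, hΓc, hx⟩ := h3 y
        refine ⟨V, hV, Γ, hΓ, hΓc, fun x hxV => ?_⟩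
        refine (Set.ncard_le_ncard ?_ (finite_window _ _ _)).trans (hx x hxV)
        rintro i ⟨h4, h5, h6⟩
        refine ⟨h4, ?_, h6⟩
        have h7 := Nat.lt_div_mul_add (a := N + (2 * M + 1)) hN₁
        have h8 : N + (2 * M + 1) ≤ ((N + (2 * M + 1)) / N₁ + 1) * N₁ := by
          rw [Nat.add_mul, Nat.one_mul]
          omega
        have h9 : ((N + (2 * M + 1) : ℕ) : ℤ) ≤
            ((((N + (2 * M + 1)) / N₁ + 1) * N₁ : ℕ) : ℤ) := by exact_mod_cast h8
        linarith only [h5, h9]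
      exact hWL N _ h2
    · (clear * - hvle; gcongr)
  -- let ε → 0
  have h3 : limsup (fun N : ℕ => (coverD (coverJoin h U N) : ℝ≥0∞) / (N : ℝ≥0∞)) atTop ≤
      (coverD W : ℝ≥0∞) * ENNReal.ofReal ρ := by
    refine ENNReal.le_of_forall_pos_le_add fun ε hε _ => ?_
    have hA0 : (0 : ℝ) < (coverD W : ℝ) + 1 := by (clear * -; positivity)
    have hε' : (0 : ℝ) < ε := by exact_mod_cast hε
    refine (h1 (ε / ((coverD W : ℝ) + 1)) (div_pos hε' hA0)).trans ?_
    rw [mul_add]
    gcongr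
    rw [← ENNReal.ofReal_natCast, ← ENNReal.ofReal_mul (by (clear * -; positivity))]
    have h4 : (coverD W : ℝ) * (ε / ((coverD W : ℝ) + 1)) ≤ ε := by
      rw [mul_div_assoc', div_le_iff₀ hA0]
      nlinarith only []
    refine (ENNReal.ofReal_le_ofReal h4).trans ?_
    rw [ENNReal.ofReal_coe_nnreal]
  refine h3.trans ?_
  (clear * - hA; gcongr)

end

end Vale.Agent.P093
end
end
end

section

section

section

open Filter Set TopologicalSpace Topology
open scoped ENNReal

namespace Vale.Agent.P093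

theorem free_cubes_main {X : Type*} [TopologicalSpace X] [CompactSpace X] [MetrizableSpace X]
    [Infinite X] {h : X ≃ₜ X} (hmin : IsMinimalHomeo h)
    (q : ℕ) (f : X → Fin q → unitInterval) (O : Set unitInterval) (N : ℕ → ℕ)
    (J : ℕ → Finset (ℕ × Fin q)) (Ψ : ℕ → (ℕ → Fin q → unitInterval) → X)
    (H : FreeCubes h f O N J Ψ) :
    RcGE h (limsup (fun k => ((J k).card : ℝ≥0∞) / N k) atTop / 2) := by
  intro A _ _ _ hA
  let _ := metrizableSpaceMetric X
  refine free_cubes_limsup (Ψ := Ψ) hmin H.obs H.isOpen H.nonempty H.tend H.lt H.cont ?_ ?_ ?_ hA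
  · intro k p hp y
    rw [zpow_natCast]
    exact H.free k p hp y
  · intro k p hp hpJ
    rw [zpow_natCast]
    exact H.other k p hp hpJ
  · intro δ hδ
    obtain ⟨t, htU⟩ := (isCompact_univ (X := X)).elim_finite_subcover
      (fun x : X => Metric.ball x (δ / 2)) (fun x => Metric.isOpen_ball)
      (fun x _ => mem_iUnion.2 ⟨x, Metric.mem_ball_self (by positivity)⟩)
    obtain ⟨η, hη, hη'⟩ := H.equi ((fun x : X => Metric.ball x (δ / 2)) '' (t : Set X))
      ⟨t.finite_toSet.image _, by rintro _ ⟨x, -, rfl⟩; exact Metric.isOpen_ball, by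
        rw [eq_univ_iff_forall]
        intro x
        obtain ⟨z, hz, hxz⟩ := mem_iUnion₂.1 (htU (mem_univ x))
        exact ⟨_, ⟨z, hz, rfl⟩, hxz⟩⟩
    refine ⟨η, hη, fun k i hi y y' hy => ?_⟩
    obtain ⟨_, ⟨z, -, rfl⟩, h1, h2⟩ := hη' k i hi y y' hy
    rw [zpow_natCast]
    have h3 := Metric.mem_ball.1 h1
    have h4 := Metric.mem_ball'.1 h2
    calc _ ≤ _ := dist_triangle _ z _
      _ < δ / 2 + δ / 2 := add_lt_add h3 h4
      _ = δ := add_halves δ

theorem few_outside_le {X : Type*} [TopologicalSpace X] [CompactSpace X] {h : X ≃ₜ X}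
    {K Y : Type*} [TopologicalSpace K] [CompactSpace K] [T2Space K]
    [TopologicalSpace Y] [CompactSpace Y] [T2Space Y]
    {g : Y ≃ₜ Y} {c : X → (ℤ → K) × Y} {ρ : ℝ}
    (hc : IsEmbeddedIn h g c) (hup : FewOutside c ρ) :
    meanDim h ≤ meanDim g + coveringDim K * ENNReal.ofReal ρ := by
  have hcs1 : ∀ x i, (c (h x)).1 i = (c x).1 (i + 1) := fun x i => by rw [hc.2.2]
  have hcg : ∀ x, (c (h x)).2 = g (c x).2 := fun x => by rw [hc.2.2]
  by_cases hY : TotallyDisconnectedSpace Y
  · refine (meanDim_extension_le hc.1 hc.2.1 hcs1 hcg ?_).trans le_add_self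
    intro ε hε
    obtain ⟨N, hN, hy⟩ := hup ε hε
    refine ⟨N, hN, fun y => ?_⟩
    obtain ⟨V, hV, Γ, hΓ, hΓc, hx⟩ := hy y
    exact ⟨V, hV, Γ, hΓ, fun γ hγ => (hΓc γ hγ).1, hx⟩
  · refine meanDim_subshift_le hc.1 hc.2.1 hcs1 hcg ?_
    intro ε hε
    obtain ⟨N, hN, hy⟩ := hup ε hε
    choose V hV Γ hΓ hΓc hx using hy
    obtain ⟨t, -, ht⟩ := isCompact_univ.elim_nhds_subcover V (fun y _ => hV y)
    refine ⟨⋃ y ∈ t, (fun γ : Y → K => γ y) '' Γ y, t.finite_toSet.biUnion fun y _ =>
      (hΓ y).image _, N, hN, fun x => ?_⟩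
    obtain ⟨y, hyt, hxy⟩ := mem_iUnion₂.1 (ht (mem_univ (c x).2))
    refine le_trans ?_ (hx y x hxy)
    norm_cast
    refine Set.ncard_le_ncard ?_ ((Set.finite_Ico (0 : ℤ) N).subset fun i hi => ⟨hi.1, hi.2.1⟩)
    rintro i ⟨h1, h2, h3⟩
    refine ⟨h1, h2, fun γ hγ heq => h3 ?_⟩
    obtain ⟨p, hp⟩ := (hΓc y γ hγ).2.resolve_left hY
    refine mem_iUnion₂.2 ⟨y, hyt, γ, hγ, ?_⟩
    change γ y = _
    rw [heq, hp, hp]

theorem free_faces_lower {X : Type*} [TopologicalSpace X] [CompactSpace X] [MetrizableSpace X]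
    [Infinite X] {h : X ≃ₜ X} (hmin : IsMinimalHomeo h)
    {K Y : Type*} [TopologicalSpace K] [CompactSpace K] [MetrizableSpace K]
    [TopologicalSpace Y] [CompactSpace Y] [T2Space Y]
    {g : Y ≃ₜ Y} {c : X → (ℤ → K) × Y} {E : Set K} {ρ : ℝ}
    (hc : IsEmbeddedIn h g c) (hE : ContainsCubes E) (hfree : ManyFree c E ρ)
    {A : Type*} [CStarAlgebra A] [PartialOrder A] [StarOrderedRing A]
    (hA : IsCrossed h A) :
    coveringDim K * ENNReal.ofReal ρ / 2 ≤ radiusOfComparison A := by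
  let _ := metrizableSpaceMetric X
  let _ := metrizableSpaceMetric K
  have key : ∀ q : ℕ, (q : ℝ≥0∞) ≤ coveringDim K →
      (q : ℝ≥0∞) * ENNReal.ofReal ρ / 2 ≤ radiusOfComparison A := by
    intro q hq
    obtain ⟨e, he, hei, her⟩ := hE q hq
    have h4 := subshift_lower_bound (ρ := ρ) (g := g) hmin he hei hc.1 hc.2.1
      (fun x i => by rw [hc.2.2]) (fun x => by rw [hc.2.2]) (by
      intro ε hε N₀
      obtain ⟨N, hN, J, hJ, hJc, x₀, hx₀⟩ := hfree ε hε N₀
      exact ⟨N, hN, J, hJ, hJc, x₀, fun z hz hz' => hx₀ z (fun i hi => her (hz i hi)) hz'⟩) hA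
    rwa [ENNReal.ofReal_div_of_pos two_pos, ENNReal.ofReal_ofNat,
      ENNReal.ofReal_mul (Nat.cast_nonneg q), ENNReal.ofReal_natCast] at h4
  rw [ENNReal.div_le_iff (by simp) (by simp), coveringDim, ENNReal.iSup_mul]
  refine iSup_le fun 𝒰 => ?_
  have := key (coverDim 𝒰.1)
    (le_iSup (fun 𝒰 : {𝒰 : Set (Set K) // IsFinOpenCover 𝒰} => (coverDim 𝒰.1 : ℝ≥0∞)) 𝒰)
  rwa [ENNReal.div_le_iff (by simp) (by simp)] at this

theorem subshift_main {X : Type*} [TopologicalSpace X] [CompactSpace X] [MetrizableSpace X]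
    [Infinite X] {h : X ≃ₜ X} (hmin : IsMinimalHomeo h)
    (K Y : Type*) [TopologicalSpace K] [CompactSpace K] [MetrizableSpace K]
    [TopologicalSpace Y] [CompactSpace Y] [T2Space Y]
    (g : Y ≃ₜ Y) (c : X → (ℤ → K) × Y) (E : Set K) (ρ : ℝ)
    (hc : IsEmbeddedIn h g c) (hE : ContainsCubes E)
    (hup : FewOutside c ρ) (hfree : ManyFree c E ρ) :
    meanDim h ≤ meanDim g + coveringDim K * ENNReal.ofReal ρ ∧
      RcGE h (coveringDim K * ENNReal.ofReal ρ / 2) := by
  exact ⟨few_outside_le hc hup, fun A _ _ _ hA => free_faces_lower hmin hc hE hfree hA⟩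

theorem minimal_main {X : Type*} [TopologicalSpace X] [CompactSpace X] [MetrizableSpace X]
    [Infinite X] (h : X ≃ₜ X) (hmin : IsMinimalHomeo h) :
    (∀ (K Y : Type*) [TopologicalSpace K] [CompactSpace K] [MetrizableSpace K]
      [TopologicalSpace Y] [CompactSpace Y] [T2Space Y]
      (g : Y ≃ₜ Y) (c : X → (ℤ → K) × Y) (E : Set K) (ρ : ℝ),
      IsEmbeddedIn h g c → ContainsCubes E → FewOutside c ρ → ManyFree c E ρ →
      meanDim h ≤ meanDim g + coveringDim K * ENNReal.ofReal ρ ∧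
      RcGE h (coveringDim K * ENNReal.ofReal ρ / 2)) ∧
    (∀ (q : ℕ) (f : X → Fin q → unitInterval) (O : Set unitInterval) (N : ℕ → ℕ)
      (J : ℕ → Finset (ℕ × Fin q)) (Ψ : ℕ → (ℕ → Fin q → unitInterval) → X),
      FreeCubes h f O N J Ψ →
      RcGE h (limsup (fun k => ((J k).card : ℝ≥0∞) / N k) atTop / 2)) :=
  ⟨subshift_main hmin, free_cubes_main hmin⟩

theorem existence_main (t : ℝ≥0∞) : ∃ (X : Type) (_ : TopologicalSpace X) (_ : CompactSpace X)
    (_ : MetrizableSpace X) (_ : Infinite X) (h : X ≃ₜ X), IsMinimalHomeo h ∧ meanDim h ≤ t ∧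
    (∃ (A : Type) (_ : CStarAlgebra A), IsCrossed h A) ∧ RcGE h (t / 2) := by
  obtain ⟨X, i1, i2, i3, i4, h, hmin, hmd, hA⟩ := exists_minimal_system' t
  obtain ⟨A, j1, -, -, hA'⟩ := exists_isCrossedProduct h
  exact ⟨X, i1, i2, i3, i4, h, hmin, hmd, ⟨A, j1, hA'⟩, fun A _ _ _ h' => hA A h'⟩

end Vale.Agent.P093
end
end
end
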